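import Crest.Agent.N250.T.Stm

/-!
# Row 250 (helper49): Gaussian areas against area ratios (`GauS`)
-/

set_option autoImplicit false
open MeasureTheory Set Filter Topology
open scoped ContDiff InnerProductSpace
open Crest.GeometryTopology.MCF

noncomputable section

namespace Crest.Agent.N250

namespace Gau

/-- the constant of the shell decomposition -/
def C0 : ℝ := ∑' k : ℕ, ((k : ℝ) + 1) ^ 2 * Real.exp (-(k : ℝ) ^ 2 / 8)

lemma summ : Summable fun k : ℕ => ((k : ℝ) + 1) ^ 2 * Real.exp (-(k : ℝ) ^ 2 / 8) := by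
  have h := (summable_nat_add_iff 1).2 (Real.summable_pow_mul_exp_neg_nat_mul 2 one_pos)
  refine Summable.of_nonneg_of_le (fun k => by positivity) (fun k => ?_) (h.mul_left (Real.exp 3))
  have : Real.exp (-(k : ℝ) ^ 2 / 8) ≤ Real.exp 3 * Real.exp (-1 * ((k + 1 : ℕ) : ℝ)) := by
    rw [← Real.exp_add]; apply Real.exp_le_exp.2; push_cast; nlinarith [sq_nonneg ((k : ℝ) - 4)]
  calc ((k : ℝ) + 1) ^ 2 * Real.exp (-(k : ℝ) ^ 2 / 8)
      ≤ ((k : ℝ) + 1) ^ 2 * (Real.exp 3 * Real.exp (-1 * ((k + 1 : ℕ) : ℝ))) := by gcongr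
    _ = _ := by push_cast; ring

lemma C0_nonneg : 0 ≤ C0 := tsum_nonneg fun k => by positivity

/-- area ratio hypothesis -/
def Rat (μ : Measure E) (Λ : ℝ) : Prop :=
  ∀ y r, 0 < r → μ (Metric.ball y r) ≤ ENNReal.ofReal (Λ * r ^ 2)

lemma lint_exp {μ : Measure E} {Λ : ℝ} (hΛ : 0 ≤ Λ) (h : Rat μ Λ) (y : E) {s : ℝ} (hs : 0 < s) :
    ∫⁻ x, ENNReal.ofReal (Real.exp (-‖x - y‖ ^ 2 / (8 * s))) ∂μ ≤ ENNReal.ofReal (C0 * Λ * s) := by
  have hq : 0 < √s := Real.sqrt_pos.2 hs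
  have hqq : √s ^ 2 = s := Real.sq_sqrt hs.le
  calc ∫⁻ x, ENNReal.ofReal (Real.exp (-‖x - y‖ ^ 2 / (8 * s))) ∂μ
      ≤ ∫⁻ x, ∑' k : ℕ, (Metric.ball y (((k : ℝ) + 1) * √s)).indicator
          (fun _ => ENNReal.ofReal (Real.exp (-(k : ℝ) ^ 2 / 8))) x ∂μ := by
        refine lintegral_mono fun x => ?_
        refine le_trans ?_ (ENNReal.le_tsum ⌊‖x - y‖ / √s⌋₊)
        have h1 : ‖x - y‖ / √s < (⌊‖x - y‖ / √s⌋₊ : ℝ) + 1 := Nat.lt_floor_add_one _
        have h2 : (⌊‖x - y‖ / √s⌋₊ : ℝ) ≤ ‖x - y‖ / √s := Nat.floor_le (by positivity)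
        rw [indicator_of_mem (by rw [Metric.mem_ball, dist_eq_norm]; rwa [div_lt_iff₀ hq] at h1)]
        apply ENNReal.ofReal_le_ofReal
        apply Real.exp_le_exp.2
        have h3 : (⌊‖x - y‖ / √s⌋₊ : ℝ) ^ 2 ≤ (‖x - y‖ / √s) ^ 2 := by gcongr
        rw [div_pow, hqq] at h3
        have : -‖x - y‖ ^ 2 / (8 * s) = -(‖x - y‖ ^ 2 / s) / 8 := by field_simp
        rw [this]; linarith
    _ = ∑' k : ℕ, ENNReal.ofReal (Real.exp (-(k : ℝ) ^ 2 / 8)) *
          μ (Metric.ball y (((k : ℝ) + 1) * √s)) := by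
        rw [lintegral_tsum fun k => (measurable_const.indicator Metric.isOpen_ball.measurableSet).aemeasurable]
        congr 1; funext k
        rw [lintegral_indicator_const Metric.isOpen_ball.measurableSet]
    _ ≤ ∑' k : ℕ, ENNReal.ofReal (((k : ℝ) + 1) ^ 2 * Real.exp (-(k : ℝ) ^ 2 / 8) * (Λ * s)) := by
        refine ENNReal.tsum_le_tsum fun k => ?_
        refine le_trans (mul_le_mul_right (h y _ (by positivity)) _) ?_
        rw [← ENNReal.ofReal_mul (Real.exp_pos _).le]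
        apply le_of_eq; congr 1; rw [mul_pow, hqq]; ring
    _ = ENNReal.ofReal (C0 * Λ * s) := by
        rw [← ENNReal.ofReal_tsum_of_nonneg (fun k => by positivity) (summ.mul_right _),
          tsum_mul_right, C0, mul_assoc]

lemma cont_exp (y : E) (c : ℝ) : Continuous fun x : E => Real.exp (-‖x - y‖ ^ 2 / c) := by
  fun_prop

/-- every Gaussian is integrable -/
lemma int_exp {μ : Measure E} {Λ : ℝ} (hΛ : 0 ≤ Λ) (h : Rat μ Λ) (y : E) {c : ℝ} (hc : 0 < c) :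
    Integrable (fun x : E => Real.exp (-‖x - y‖ ^ 2 / c)) μ := by
  refine ⟨(cont_exp y c).aestronglyMeasurable, ?_⟩
  rw [hasFiniteIntegral_iff_ofReal (Eventually.of_forall fun x => (Real.exp_pos _).le)]
  have := lint_exp hΛ h y (s := c / 8) (by positivity)
  rw [show 8 * (c / 8) = c by ring] at this
  exact lt_of_le_of_lt this ENNReal.ofReal_lt_top

lemma integral_exp_le {μ : Measure E} {Λ : ℝ} (hΛ : 0 ≤ Λ) (h : Rat μ Λ) (y : E) {c : ℝ}
    (hc : 0 < c) : ∫ x, Real.exp (-‖x - y‖ ^ 2 / c) ∂μ ≤ C0 * Λ * (c / 8) := by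
  rw [integral_eq_lintegral_of_nonneg_ae (Eventually.of_forall fun x => (Real.exp_pos _).le)
    (cont_exp y c).aestronglyMeasurable]
  have := lint_exp hΛ h y (s := c / 8) (by positivity)
  rw [show 8 * (c / 8) = c by ring] at this
  exact ENNReal.toReal_le_of_le_ofReal (by have := C0_nonneg; positivity) this

lemma gau_pos (y : E) {s : ℝ} (hs : 0 < s) (x : E) : 0 < gau y s x := by
  unfold gau; have := Real.pi_pos; positivity

lemma gau_cont (y : E) (s : ℝ) : Continuous (gau y s) := by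
  unfold gau; exact continuous_const.mul (cont_exp y _)

lemma int_gau {μ : Measure E} {Λ : ℝ} (hΛ : 0 ≤ Λ) (h : Rat μ Λ) (y : E) {s : ℝ} (hs : 0 < s) :
    Integrable (gau y s) μ :=
  (int_exp hΛ h y (c := 4 * s) (by positivity)).const_mul _

/-- Gaussian tail -/
lemma tail {μ : Measure E} {Λ : ℝ} (hΛ : 0 ≤ Λ) (h : Rat μ Λ) (y : E) {s : ℝ} (hs : 0 < s)
    {R : ℝ} (hR : 0 ≤ R) :
    ∫ x in (Metric.ball y (R * √s))ᶜ, gau y s x ∂μ ≤ C0 * Λ * Real.exp (-R ^ 2 / 8) := by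
  have hqq : √s ^ 2 = s := Real.sq_sqrt hs.le
  have hpi := Real.pi_gt_three
  have hi := int_exp hΛ h y (c := 8 * s) (by positivity)
  calc ∫ x in (Metric.ball y (R * √s))ᶜ, gau y s x ∂μ
      ≤ ∫ x in (Metric.ball y (R * √s))ᶜ,
          (4 * Real.pi * s)⁻¹ * Real.exp (-R ^ 2 / 8) * Real.exp (-‖x - y‖ ^ 2 / (8 * s)) ∂μ := by
        refine setIntegral_mono_on (int_gau hΛ h y hs).integrableOn (hi.const_mul _).integrableOn
          Metric.isOpen_ball.measurableSet.compl fun x hx => ?_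
        have h1 : R * √s ≤ ‖x - y‖ := by
          simpa [Metric.mem_ball, dist_eq_norm] using hx
        have h2 : R ^ 2 * s ≤ ‖x - y‖ ^ 2 := by
          have : (R * √s) ^ 2 ≤ ‖x - y‖ ^ 2 := by gcongr
          rwa [mul_pow, hqq] at this
        unfold gau
        rw [mul_assoc (4 * Real.pi * s)⁻¹, ← Real.exp_add]
        gcongr
        have e1 : -‖x - y‖ ^ 2 / (4 * s) = -(‖x - y‖ ^ 2 / s) / 4 := by field_simp
        have e2 : -‖x - y‖ ^ 2 / (8 * s) = -(‖x - y‖ ^ 2 / s) / 8 := by field_simp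
        have e3 : R ^ 2 ≤ ‖x - y‖ ^ 2 / s := by rwa [le_div_iff₀ hs]
        rw [e1, e2]; linarith
    _ ≤ ∫ x, (4 * Real.pi * s)⁻¹ * Real.exp (-R ^ 2 / 8) * Real.exp (-‖x - y‖ ^ 2 / (8 * s)) ∂μ :=
        setIntegral_le_integral (hi.const_mul _) (Eventually.of_forall fun x => by positivity)
    _ ≤ (4 * Real.pi * s)⁻¹ * Real.exp (-R ^ 2 / 8) * (C0 * Λ * (8 * s / 8)) := by
        rw [integral_const_mul]
        gcongr
        exact integral_exp_le hΛ h y (by positivity)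
    _ = (4 * Real.pi)⁻¹ * (C0 * Λ * Real.exp (-R ^ 2 / 8)) := by field_simp
    _ ≤ 1 * (C0 * Λ * Real.exp (-R ^ 2 / 8)) := by
        have := C0_nonneg
        gcongr
        exact inv_le_one_of_one_le₀ (by linarith)
    _ = _ := one_mul _

lemma integral_gau_le {μ : Measure E} {Λ : ℝ} (hΛ : 0 ≤ Λ) (h : Rat μ Λ) (y : E) {s : ℝ}
    (hs : 0 < s) : ∫ x, gau y s x ∂μ ≤ C0 * Λ := by
  have := tail hΛ h y hs le_rfl
  simpa using this

lemma ball_le {μ : Measure E} {Λ : ℝ} (y : E) {r : ℝ} (hr : 0 < r)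
    (h : ∫⁻ x, ENNReal.ofReal (gau y (r ^ 2) x) ∂μ ≤ ENNReal.ofReal Λ) :
    μ (Metric.ball y r) ≤ ENNReal.ofReal (4 * Real.pi * Real.exp (1 / 4) * Λ * r ^ 2) := by
  have hpi := Real.pi_pos
  set c : ℝ := (4 * Real.pi * r ^ 2)⁻¹ * Real.exp (-(1 / 4)) with hc
  have hc0 : 0 < c := by positivity
  have h1 : ENNReal.ofReal c * μ (Metric.ball y r) ≤ ENNReal.ofReal Λ := by
    rw [← lintegral_indicator_const Metric.isOpen_ball.measurableSet]
    refine le_trans (lintegral_mono fun x => ?_) h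
    by_cases hx : x ∈ Metric.ball y r
    · rw [indicator_of_mem hx]
      apply ENNReal.ofReal_le_ofReal
      unfold gau
      rw [hc]; gcongr
      have h2 : ‖x - y‖ ^ 2 ≤ r ^ 2 := by
        have : ‖x - y‖ ≤ r := by rw [Metric.mem_ball, dist_eq_norm] at hx; exact hx.le
        gcongr
      rw [neg_div, neg_le_neg_iff, div_le_div_iff₀ (by positivity) (by norm_num)]
      linarith
    · rw [indicator_of_notMem hx]; exact bot_le
  have h2 : μ (Metric.ball y r) ≤ ENNReal.ofReal c⁻¹ * ENNReal.ofReal Λ := by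
    calc μ (Metric.ball y r) = ENNReal.ofReal c⁻¹ * (ENNReal.ofReal c * μ (Metric.ball y r)) := by
          rw [← mul_assoc, ← ENNReal.ofReal_mul (by positivity), inv_mul_cancel₀ hc0.ne']; simp
      _ ≤ _ := by gcongr
  refine h2.trans (le_of_eq ?_)
  rw [← ENNReal.ofReal_mul (by positivity)]
  congr 1
  rw [hc, Real.exp_neg]; field_simp

end Gau

theorem gauS_holds : GauS := by
  have hpi := Real.pi_pos
  have h0 := Gau.C0_nonneg
  have h1 : 0 < 4 * Real.pi * Real.exp (1 / 4) := by positivity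
  refine ⟨Gau.C0 + 4 * Real.pi * Real.exp (1 / 4), by positivity, fun μ Λ hΛ => ⟨fun h y s hs =>
    ⟨Gau.int_gau hΛ h y hs, (Gau.integral_gau_le hΛ h y hs).trans ?_, fun R hR =>
      (Gau.tail hΛ h y hs hR.le).trans ?_⟩, fun y r hr h =>
      (Gau.ball_le y hr h).trans (ENNReal.ofReal_le_ofReal ?_)⟩⟩
  · gcongr; linarith
  · gcongr; linarith
  · gcongr; linarith

end Crest.Agent.N250

end
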