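import Crest.Agent.N250.T.Same
import Crest.Agent.N250.Lim.A

/-!
# Row 250 (helper26): `LimStmt` from the toolbox
-/

set_option autoImplicit false
open MeasureTheory Set Filter Topology
open scoped ContDiff InnerProductSpace
open Crest.GeometryTopology.MCF

noncomputable section

namespace Crest.Agent.N250

theorem Mv.Reg.smA {F : Mv} (hF : F.Reg) (a b : Fin 3) : F.Sm (F.A a b) :=
  Tr.sm_D hF (Tr.sm_nu hF b) a

theorem Mv.Reg.smH {F : Mv} (hF : F.Reg) : F.Sm F.H := by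
  have : F.H = fun p => ∑ a, F.A a a p := by ext p; simp [Mv.H]
  rw [Mv.Sm, this]
  exact ContDiffOn.sum fun a _ => hF.smA a a

/-- a regular track is locally closed, hence measurable -/
theorem Mv.Reg.measurableSet_M {F : Mv} (hF : F.Reg) : MeasurableSet F.M := by
  have : IsLocallyClosed F.M := by
    refine ((isLocallyClosed_tfae F.M).out 0 2).2 fun p hp => ?_
    obtain ⟨W, φ, hW, h⟩ := hF p hp
    refine ⟨W, h.isOpen.mem_nhds hW, ?_⟩
    have : (Subtype.val ⁻¹' F.M : Set W) = (fun q : W => φ q) ⁻¹' {0} := by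
      ext q; exact h.mem q q.2
    rw [this]
    exact isClosed_singleton.preimage h.sm.continuousOn.domRestrict
  obtain ⟨U, Z, hU, hZ, e⟩ := this
  rw [e]
  exact hU.measurableSet.inter hZ.measurableSet

theorem Mv.Reg.measurableSet_slice {F : Mv} (hF : F.Reg) (t : ℝ) : MeasurableSet (F.sl t) :=
  measurable_prodMk_right hF.measurableSet_M

/-- the area measures charge a spacetime neighbourhood of a point, uniformly for nearby times -/
theorem Mv.Reg.mu_unif {F : Mv} (hF : F.Reg) {p : ST} (hM : p ∈ F.M) {U : Set ST}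
    (hU : U ∈ 𝓝 p) : ∃ c : ENNReal, 0 < c ∧ ∀ᶠ t in 𝓝 p.2, c ≤ F.mu t {y | (y, t) ∈ U} := by
  obtain ⟨W, φ, hp, h⟩ := hF _ hM
  set g := gradX φ p.1 p.2 with hg
  have hg0 : g ≠ 0 := h.ne _ hp
  set K : Submodule ℝ E := (ℝ ∙ g)ᗮ with hK
  have hfr : Module.finrank ℝ K = 2 := by
    have : Fact (Module.finrank ℝ E = 2 + 1) := ⟨by simp⟩
    exact Submodule.finrank_orthogonal_span_singleton hg0
  have hs : HasStrictFDerivAt φ (fderiv ℝ φ p) p := (Tr.loc_at h hp).hasStrictFDerivAt (by simp)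
  set L : ST →L[ℝ] K × ℝ :=
    (K.orthogonalProjectionOnto.comp (ContinuousLinearMap.fst ℝ E ℝ)).prod
      (ContinuousLinearMap.snd ℝ E ℝ) with hL
  have hG := (L.hasStrictFDerivAt (x := p)).prodMk hs
  have hsurj : (L.prod (fderiv ℝ φ p)).range = ⊤ := by
    rw [eq_top_iff]
    rintro ⟨⟨w, s⟩, r⟩ _
    have hn : ‖g‖ ^ 2 ≠ 0 := pow_ne_zero _ (norm_ne_zero_iff.2 hg0)
    refine ⟨((w : E) + ((r - s * dT φ p) / ‖g‖ ^ 2) • g, s), Prod.ext (Prod.ext ?_ rfl) ?_⟩
    · have h0 : K.orthogonalProjectionOnto g = 0 :=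
        Submodule.orthogonalProjectionOnto_orthogonalComplement_singleton_eq_zero g
      simp [hL, h0]
    · have h0 : ⟪g, (w : E)⟫_ℝ = 0 := Submodule.mem_orthogonal_singleton_iff_inner_right.1 w.2
      change fderiv ℝ φ p _ = r
      rw [Tr.fd_st (Tr.loc_diff h hp), inner_add_right, h0, inner_smul_right,
        real_inner_self_eq_norm_sq, div_mul_cancel₀ _ hn]
      ring
  have hmap := hG.map_nhds_eq_of_surj hsurj
  have him : (fun q : ST => (L q, φ q)) '' (U ∩ W) ∈ 𝓝 (L p, φ p) := by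
    rw [← hmap]; exact image_mem_map (inter_mem hU (h.isOpen.mem_nhds hp))
  rw [(h.mem _ hp).1 hM] at him
  have h1 := (Continuous.prodMk_left (0 : ℝ)).continuousAt.preimage_mem_nhds him
  obtain ⟨N, hN, J, hJ, hNJ⟩ := mem_nhds_prod_iff.1 (show _ ∈ 𝓝 ((L p).1, (L p).2) from h1)
  have hpos : 0 < (μHE[2] : Measure K) N := by
    have := isAddHaarMeasure_euclideanHausdorffMeasure (E := K)
    rw [hfr] at this
    exact Measure.measure_pos_of_mem_nhds _ hN
  refine ⟨_, hpos, ?_⟩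
  filter_upwards [show J ∈ 𝓝 p.2 from hJ] with t ht
  have hsub : N ⊆ K.orthogonalProjectionOnto '' ({y | (y, t) ∈ U} ∩ F.sl t) := by
    intro w hw
    obtain ⟨⟨y, s⟩, ⟨q1, q2⟩, hq⟩ := hNJ (mk_mem_prod hw ht)
    simp only [hL, Prod.mk.injEq, ContinuousLinearMap.prod_apply, ContinuousLinearMap.coe_comp,
      Function.comp, ContinuousLinearMap.coe_fst', ContinuousLinearMap.coe_snd'] at hq
    obtain ⟨⟨e1, rfl⟩, e2⟩ := hq
    exact ⟨y, ⟨q1, (h.mem _ q2).2 e2⟩, e1⟩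
  have hle : (μHE[2] : Measure K) (K.orthogonalProjectionOnto '' ({y | (y, t) ∈ U} ∩ F.sl t)) ≤
      (μHE[2] : Measure E) ({y | (y, t) ∈ U} ∩ F.sl t) := by
    have hl : LipschitzWith 1 K.orthogonalProjectionOnto :=
      K.orthogonalProjectionOnto.lipschitz.weaken
        (by exact_mod_cast K.orthogonalProjectionOnto_norm_le)
    have := hl.hausdorffMeasure_image_le (d := ((2 : ℕ) : ℝ)) (by simp)
      ({y | (y, t) ∈ U} ∩ F.sl t)
    simp only [Measure.euclideanHausdorffMeasure_def, Measure.smul_apply]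
    simp only [ENNReal.coe_one, ENNReal.one_rpow, one_mul] at this
    exact smul_le_smul_left _ this
  exact ((measure_mono hsub).trans hle).trans (Measure.le_restrict_apply _ _)

/-- a continuous function on the track with zero spacetime integral of its positive part -/
theorem Mv.Reg.nonpos_of_stI {F : Mv} (hF : F.Reg) {f : ST → ℝ} {a b : ℝ} (h0 : F.stI f a b = 0)
    {p : ST} (hp : p ∈ F.M) (hf : ContinuousWithinAt f F.M p) (ht : p.2 ∈ Ioo a b) : f p ≤ 0 := by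
  by_contra hpos
  push Not at hpos
  have h1 : ∀ᶠ q in 𝓝[F.M] p, f p / 2 < f q := hf.eventually (lt_mem_nhds (by linarith))
  obtain ⟨U, hU, hUo, hpU⟩ := eventually_nhds_iff.1 (eventually_nhdsWithin_iff.1 h1)
  obtain ⟨c, hc, h2⟩ := hF.mu_unif hp (hUo.mem_nhds hpU)
  obtain ⟨J, hJ, hJo, hpJ⟩ := eventually_nhds_iff.1 (h2.and (isOpen_Ioo.mem_nhds ht))
  have h3 : ∀ t ∈ J, ENNReal.ofReal (f p / 2) * c ≤ ∫⁻ x, ENNReal.ofReal (f (x, t)) ∂F.mu t := by
    intro t htJ
    have hm : MeasurableSet {y | (y, t) ∈ U} := measurable_prodMk_right hUo.measurableSet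
    have e1 : ∫⁻ y, {y | (y, t) ∈ U}.indicator (fun _ => ENNReal.ofReal (f p / 2)) y ∂F.mu t ≤
        ∫⁻ x, ENNReal.ofReal (f (x, t)) ∂F.mu t := by
      refine lintegral_mono_ae ?_
      filter_upwards [ae_restrict_mem (hF.measurableSet_slice t)] with y hy
      by_cases hyU : y ∈ {y | (y, t) ∈ U}
      · rw [indicator_of_mem hyU]
        exact ENNReal.ofReal_le_ofReal (hU _ hyU hy).le
      · rw [indicator_of_notMem hyU]; exact zero_le
    rw [lintegral_indicator_const hm] at e1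
    exact le_trans (by gcongr; exact (hJ t htJ).1) e1
  have h4 : ∫⁻ t in Ioo a b, J.indicator (fun _ => ENNReal.ofReal (f p / 2) * c) t ≤
      F.stI f a b := by
    refine lintegral_mono fun t => ?_
    by_cases htJ : t ∈ J
    · rw [indicator_of_mem htJ]; exact h3 t htJ
    · rw [indicator_of_notMem htJ]; exact zero_le
  rw [lintegral_indicator_const hJo.measurableSet, h0, Measure.restrict_apply hJo.measurableSet,
    inter_eq_left.2 (show J ⊆ Ioo a b from fun t htJ => (hJ t htJ).2)] at h4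
  have h5 : 0 < ENNReal.ofReal (f p / 2) * c * volume J :=
    ENNReal.mul_pos (ENNReal.mul_pos (ENNReal.ofReal_pos.2 (by linarith)).ne' hc.ne').ne'
      (hJo.measure_pos _ ⟨_, hpJ⟩).ne'
  exact absurd h4 (not_le.2 h5)

theorem Phi_pos {X p : ST} (h : p.2 < X.2) : 0 < Phi X p := by
  have : 0 < X.2 - p.2 := sub_pos.2 h
  unfold Phi gau
  positivity

theorem Phi_contAt {X p : ST} (h : p.2 < X.2) : ContinuousAt (Phi X) p := by
  have h0 : 0 < X.2 - p.2 := sub_pos.2 h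
  unfold Phi gau
  have := Real.pi_pos
  refine ContinuousAt.mul (ContinuousAt.inv₀ (by fun_prop) (by positivity))
    (Real.continuous_exp.continuousAt.comp (ContinuousAt.div (by fun_prop) (by fun_prop)
      (by positivity)))

theorem Mv.Reg.dev_cont {F : Mv} (hF : F.Reg) {X p : ST} (hp : p ∈ F.M) (h : p.2 < X.2) :
    ContinuousWithinAt (F.dev X) F.M p := by
  have h0 : 0 < X.2 - p.2 := sub_pos.2 h
  unfold Mv.dev Mv.xn
  refine (hF.smH.continuousOn p hp).sub (ContinuousWithinAt.div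
    (ContinuousWithinAt.inner (by fun_prop) ((Tr.sm_n hF).continuousOn p hp)) (by fun_prop)
    (by positivity))

/-- equality in the monotonicity formula -/
theorem dev_eq_zero (hH : HuiskenS) {F : Mv} {I : Set ℝ} {Λ : ℝ} (hI : IsOpen I) (hF : Fl F I Λ)
    {X : ST} {t₁ t₂ : ℝ} (h2 : t₂ < X.2) (hsub : Icc t₁ t₂ ⊆ I)
    (he : F.Fs t₁ X.1 (X.2 - t₁) ≤ F.Fs t₂ X.1 (X.2 - t₂)) {p : ST} (hp : p ∈ F.M)
    (ht : p.2 ∈ Ioo t₁ t₂) : F.dev X p = 0 := by
  have h1 := (hH F I Λ hI hF X t₁ t₂ (ht.1.trans ht.2).le h2 hsub).2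
  rw [ENNReal.ofReal_of_nonpos (sub_nonpos.2 he)] at h1
  have hp2 : p.2 < X.2 := ht.2.trans h2
  have h3 := hF.mcf.1.nonpos_of_stI h1 hp
    (((hF.mcf.1.dev_cont hp hp2).pow 2).mul (Phi_contAt hp2).continuousWithinAt) ht
  have h4 := Phi_pos hp2
  have : F.dev X p ^ 2 ≤ 0 := by
    by_contra h5
    push Not at h5
    exact absurd h3 (not_le.2 (mul_pos h5 h4))
  exact pow_eq_zero_iff two_ne_zero |>.1 (le_antisymm this (sq_nonneg _))

/-- a flow with `dev 0 = 0` is the flow of its slice at time `-1` -/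
theorem same_unresc (hS : SelfSimS) {F : Mv} (hF : F.IsMCF) (hM : F.M ⊆ NT) (hP : F.Proper NT)
    (hd : ∀ p ∈ F.M, F.dev 0 p = 0) :
    (F.freeze (-1)).IsShr ∧ F.Same (F.freeze (-1)).unresc := by
  obtain ⟨a, b, c⟩ := hS F hF (fun p hp => (hM hp).2) hP hd
  refine ⟨a, b, c, fun p hp => ?_⟩
  have ht : 0 < -p.2 := neg_pos.2 (hM hp).2
  have h1 := hd p hp
  have h2 := c p hp
  have h3 : (F.freeze (-1)).unresc.V p = (0 - ⟪(√(-p.2))⁻¹ • p.1, F.n p⟫_ℝ / 2) / √(-p.2) := by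
    rw [h2]; rfl
  rw [h3, hF.2 p hp, inner_smul_left]
  simp only [Mv.dev, Mv.xn, Prod.fst_zero, sub_zero, Prod.snd_zero, zero_sub] at h1
  have hs : 0 < √(-p.2) := Real.sqrt_pos.2 ht
  have hq : √(-p.2) ^ 2 = -p.2 := Real.sq_sqrt ht.le
  rw [sub_eq_zero.1 h1]
  simp only [conj_trivial]
  set s := √(-p.2)
  rw [← hq]
  field_simp
  ring

theorem limStmt_of (hC : CptS) (hH : HuiskenS) (hS : SelfSimS) (hFl : ConvFlS) (hJ : ConvJetS)
    (hR : ConvReachS) : LimStmt := by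
  intro α l Fk Ik Λ m h1 h2 h3
  obtain ⟨F, hF, hM, hP, hc⟩ := Lim.lim_exists hC hH h1 h2 h3
  have hcl := Lim.cl_closed hFl hJ hR h1 h2 hc hM
  have hd : ∀ p ∈ F.M, F.dev 0 p = 0 := by
    intro p hp
    have ht : 0 < -p.2 := neg_pos.2 (hM hp).2
    set K : ℝ := 1 + (-p.2) + (-p.2)⁻¹ with hK
    have hi : 0 < (-p.2)⁻¹ := inv_pos.2 ht
    have hK1 : 1 < K := by linarith
    have hK0 : 0 < K := by linarith
    have he := Lim.fg_const hFl (h1.mono fun _ hk => hk.fl) h3 hc hM hK1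
    have hKi : K⁻¹ < 1 := inv_lt_one_of_one_lt₀ hK1
    have hKp : K⁻¹ < -p.2 := by
      rw [inv_lt_comm₀ hK0 ht]; linarith
    have hKi0 : 0 < K⁻¹ := inv_pos.2 hK0
    refine dev_eq_zero hH isOpen_Iio hcl.fl (X := 0) (t₁ := 0 - K ^ 2) (t₂ := 0 - K⁻¹ ^ 2)
      (by simp; positivity) (fun t ht => ?_) ?_ hp ⟨by nlinarith, by nlinarith⟩
    · have : 0 < K⁻¹ ^ 2 := by positivity
      exact lt_of_le_of_lt ht.2 (by linarith)
    · simpa [Mv.Fg] using he.le
  obtain ⟨a, b⟩ := same_unresc hS hF hM hP hd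
  exact ⟨F.freeze (-1), ⟨a, b.cl hcl⟩, b.conv hc⟩

end Crest.Agent.N250

end
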