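import Crest.Agent.N250.T.Stm
import Crest.Agent.N250.Tr.Base

/-!
# Row 250 toolbox (helper59): self-similar flows (`SelfSimS`)
-/

set_option autoImplicit false
open MeasureTheory Set Filter Topology
open scoped ContDiff InnerProductSpace
open Crest.GeometryTopology.MCF

noncomputable section

namespace Crest.Agent.N250

namespace SS

open Tr

/-- a zero set that is horizontal at all its points contains the horizontal line -/
theorem zero_line {k : ℝ × ℝ → ℝ} {a : ℝ} (hk : ContDiffAt ℝ 1 k (a, 0)) (h0 : k (a, 0) = 0)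
    (h1 : fderiv ℝ k (a, 0) (0, 1) ≠ 0)
    (h2 : ∀ᶠ v in 𝓝 ((a, 0) : ℝ × ℝ), k v = 0 → fderiv ℝ k v (1, 0) = 0) :
    ∀ᶠ x in 𝓝 a, k (x, 0) = 0 := by
  have hi : (fderiv ℝ k (a, 0) ∘L ContinuousLinearMap.inr ℝ ℝ ℝ).IsInvertible := by
    refine ⟨ContinuousLinearEquiv.unitsEquivAut ℝ (Units.mk0 _ h1), ?_⟩
    ext
    simp
  set σ := hk.implicitFunction one_ne_zero hi
  have s0 : σ a = 0 := hk.implicitFunction_apply_self one_ne_zero hi
  have s1 : ∀ᶠ x in 𝓝 a, k (x, σ x) = 0 := by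
    simpa [h0] using hk.eventually_apply_implicitFunction one_ne_zero hi
  have s2 : ContDiffAt ℝ 1 σ a := hk.contDiffAt_implicitFunction one_ne_zero hi
  have s3 : Tendsto (fun x => (x, σ x)) (𝓝 a) (𝓝 (a, 0)) := by
    have := (continuousAt_id.prodMk s2.continuousAt).tendsto
    simpa [s0] using this
  have c1 : ContinuousAt (fun v => fderiv ℝ k v (0, 1)) (a, 0) :=
    ((hk.fderiv_right (m := 0) (by simp)).continuousAt).clm_apply continuousAt_const
  have s4 : ∀ᶠ x in 𝓝 a, HasDerivAt σ 0 x := by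
    filter_upwards [s1.eventually_nhds, s2.eventually (by simp), s3.eventually h2,
      s3.eventually (c1.eventually_ne h1), s3.eventually (hk.eventually (by simp))]
      with x b1 b2 b3 b4 b5
    have d1 := (b2.differentiableAt one_ne_zero).hasDerivAt
    have d2 := (b5.differentiableAt one_ne_zero).hasFDerivAt.comp_hasDerivAt x
      ((hasDerivAt_id x).prodMk d1)
    have d3 : HasDerivAt (k ∘ fun x => (id x, σ x)) 0 x :=
      (hasDerivAt_const x (0 : ℝ)).congr_of_eventuallyEq b1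
    have d4 := d2.unique d3
    have : ((1, deriv σ x) : ℝ × ℝ) = (1, 0) + deriv σ x • ((0, 1) : ℝ × ℝ) := by simp
    rw [this, map_add, map_smul, b3 b1.self_of_nhds, zero_add, smul_eq_mul] at d4
    rw [(mul_eq_zero.1 d4).resolve_right b4] at d1
    exact d1
  obtain ⟨r, hr, hb⟩ := Metric.eventually_nhds_iff_ball.1 s4
  filter_upwards [s1, Metric.ball_mem_nhds a hr] with x b1 b2
  have := Metric.isOpen_ball.is_const_of_deriv_eq_zero (convex_ball a r).isPreconnected
    (fun y hy => (hb y hy).differentiableAt.differentiableWithinAt)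
    (fun y hy => (hb y hy).deriv) b2 (Metric.mem_ball_self hr)
  rw [this, s0] at b1
  exact b1

variable {F : Mv} {W : Set ST} {φ : ST → ℝ} {p : ST}

theorem cone_ker (h : F.Loc W φ) (hp : p ∈ W) (hM : p ∈ F.M) {w : ST}
    (hw : w ∈ tangentConeAt ℝ F.M p) : fderiv ℝ φ p w = 0 := by
  have h1 : HasFDerivWithinAt φ (0 : ST →L[ℝ] ℝ) F.M p := by
    refine (hasFDerivWithinAt_const (0 : ℝ) p F.M).congr_of_eventuallyEq ?_ ((h.mem p hp).1 hM)
    filter_upwards [self_mem_nhdsWithin, mem_nhdsWithin_of_mem_nhds (h.isOpen.mem_nhds hp)]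
      with q a b using (h.mem q b).1 a
  exact (loc_diff h hp).hasFDerivAt.hasFDerivWithinAt.unique_on h1 hw

/-- converse of `Tr.tan_mem` -/
theorem cone_n (hF : F.Reg) (hM : p ∈ F.M) {v : E} {s : ℝ}
    (hw : ((v, s) : ST) ∈ tangentConeAt ℝ F.M p) : ⟪F.n p, v⟫_ℝ = s * F.V p := by
  obtain ⟨W, φ, hp, h⟩ := hF p hM
  have := cone_ker h hp hM hw
  rw [fd_st (loc_diff h hp)] at this
  have hn : ‖gradX φ p.1 p.2‖ ≠ 0 := norm_ne_zero_iff.2 (h.ne p hp)
  rw [h.n_eq p hp hM, h.V_eq p hp hM, inner_smul_left]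
  simp only [conj_trivial]
  field_simp
  linarith

/-- parabolic dilation -/
def dil (c : ℝ) : ST →L[ℝ] ST :=
  (c • ContinuousLinearMap.id ℝ E).prodMap (c ^ 2 • ContinuousLinearMap.id ℝ ℝ)

theorem dil_apply (c : ℝ) (p : ST) : dil c p = (c • p.1, c ^ 2 * p.2) := rfl

theorem cont_dil (p : ST) : Continuous fun c => dil c p := by
  simp only [dil_apply]; fun_prop

/-- a track whose normal speed is that of the dilations is invariant under them -/
theorem dil_mem (hF : F.Reg) (ht : ∀ p ∈ F.M, p.2 < 0) (hP : F.Proper (univ ×ˢ Iio 0))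
    (hV : ∀ p ∈ F.M, ⟪F.n p, p.1⟫_ℝ = 2 * p.2 * F.V p) (hM : p ∈ F.M) {c : ℝ} (hc : 0 < c) :
    dil c p ∈ F.M := by
  have ho : IsOpen {c : ℝ | 0 < c ∧ dil c p ∈ F.M} := by
    rw [isOpen_iff_mem_nhds]
    rintro a ⟨ha, hq⟩
    obtain ⟨W, φ, hW, h⟩ := hF _ hq
    set ν := F.n (dil a p)
    let e : ℝ × ℝ → ST := fun v => (v.1 • (p.1 + v.2 • ν), v.1 ^ 2 * p.2)
    have e0 : ∀ x, e (x, 0) = dil x p := fun x => by simp [e, dil_apply]
    have es : ContDiff ℝ 1 e := by simp only [e]; fun_prop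
    have e1 : ∀ v, fderiv ℝ e v (1, 0) = (p.1 + v.2 • ν, 2 * v.1 * p.2) := fun v => by
      have d1 : HasDerivAt (fun x => e (x, v.2)) (p.1 + v.2 • ν, 2 * v.1 * p.2) v.1 := by
        have := ((hasDerivAt_id v.1).smul_const (p.1 + v.2 • ν)).prodMk
          ((hasDerivAt_pow 2 v.1).mul_const p.2)
        simpa [e] using this
      exact (HasFDerivAt.comp_hasDerivAt (l := e) v.1 (es.differentiable one_ne_zero v).hasFDerivAt
        ((hasDerivAt_id v.1).prodMk (hasDerivAt_const v.1 v.2))).unique d1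
    have e2 : fderiv ℝ e (a, 0) (0, 1) = (a • ν, 0) := by
      have d1 : HasDerivAt (fun s => e (a, s)) (a • ν, 0) 0 := by
        have := ((((hasDerivAt_id (0 : ℝ)).smul_const ν).const_add p.1).const_smul a).prodMk
          (hasDerivAt_const (0 : ℝ) (a ^ 2 * p.2))
        simpa [e] using this
      exact ((es.differentiable one_ne_zero (a, 0)).hasFDerivAt.comp_hasDerivAt 0
        ((hasDerivAt_const (0 : ℝ) a).prodMk (hasDerivAt_id 0))).unique d1
    have eW : ∀ᶠ v in 𝓝 ((a, 0) : ℝ × ℝ), e v ∈ W :=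
      es.continuous.continuousAt.eventually (by rw [e0]; exact h.isOpen.mem_nhds hW)
    have ec : ∀ v, e v ∈ W → ∀ w, fderiv ℝ (φ ∘ e) v w = fderiv ℝ φ (e v) (fderiv ℝ e v w) :=
      fun v hv w => by rw [fderiv_comp v (loc_diff h hv) (es.differentiable one_ne_zero v)]; rfl
    have hn : ‖gradX φ (dil a p).1 (dil a p).2‖ ≠ 0 := norm_ne_zero_iff.2 (h.ne _ hW)
    have z := zero_line (k := φ ∘ e) (a := a)
      (ContDiffAt.comp _ (by rw [e0]; exact (loc_at h hW).of_le (by simp)) es.contDiffAt)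
      (by simp only [Function.comp, e0]; exact (h.mem _ hW).1 hq)
      (by
        rw [ec _ eW.self_of_nhds, e2, e0, fd_sp (loc_diff h hW), inner_smul_right]
        refine mul_ne_zero ha.ne' ?_
        simp only [ν]
        rw [h.n_eq _ hW hq, inner_smul_right, real_inner_self_eq_norm_sq]
        exact mul_ne_zero (inv_ne_zero hn) (pow_ne_zero _ hn))
      (by
        filter_upwards [eW, continuousAt_fst.eventually (lt_mem_nhds ha)] with v b1 b2 b3
        have b4 := (h.mem _ b1).2 b3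
        rw [ec _ b1, e1]
        refine cone_ker h b1 b4 (tan_mem hF b4 ?_)
        have b5 := hV _ b4
        simp only [e, inner_smul_right] at b5 ⊢
        have b2' : 0 < v.1 := b2
        apply mul_left_cancel₀ b2'.ne'
        rw [b5]; ring)
    have eW' : ∀ᶠ x in 𝓝 a, dil x p ∈ W :=
      (cont_dil p).continuousAt.eventually (h.isOpen.mem_nhds hW)
    filter_upwards [z, eW', lt_mem_nhds ha] with x b1 b2 b3
    refine ⟨b3, (h.mem _ b2).2 ?_⟩
    simpa only [Function.comp, e0] using b1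
  have := (isPreconnected_Ioi (a := (0 : ℝ))).subset_of_closure_inter_subset ho
    ⟨1, by simp, one_pos, by simpa [dil_apply] using hM⟩ (by
      rintro x ⟨h1, h2⟩
      refine ⟨h2, hP _ (map_mem_closure (f := fun c => dil c p) (cont_dil p) h1 fun y hy => hy.2) ⟨trivial, ?_⟩⟩
      exact mul_neg_of_pos_of_neg (pow_pos h2 2) (ht p hM))
  exact (this hc).2

/-- the normal is invariant as well -/
theorem dil_n (hF : F.Reg) (hD : ∀ p ∈ F.M, ∀ c, 0 < c → dil c p ∈ F.M) (hM : p ∈ F.M) {c : ℝ}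
    (hc : 0 < c) : F.n (dil c p) = F.n p := by
  have h1 : ∀ c, 0 < c → ⟪F.n p, F.n (dil c p)⟫_ℝ ^ 2 = 1 := fun c hc => by
    have t1 := (dil c).hasFDerivWithinAt.mapsTo_tangent_cone (PL_mem hF hM (F.n (dil c p)))
    have t2 := tangentConeAt_mono (t := F.M) (by rintro _ ⟨q, hq, rfl⟩; exact hD q hq c hc) t1
    rw [dil_apply c (F.PL p _, 0)] at t2
    have t3 := cone_n hF (hD p hM c hc) t2
    simp only [Mv.PL, inner_smul_right, inner_sub_right, n_n hF (hD p hM c hc), mul_zero,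
      zero_mul] at t3
    rw [real_inner_comm (F.n p)] at t3
    have := (mul_eq_zero.1 t3).resolve_left hc.ne'
    nlinarith
  have h2 : ContinuousOn (fun c => ⟪F.n p, F.n (dil c p)⟫_ℝ) (Ioi 0) :=
    continuousOn_const.inner (𝕜 := ℝ) ((sm_n hF).continuousOn.comp (cont_dil p).continuousOn
      fun c hc => hD p hM c hc)
  have h3 : ⟪F.n p, F.n (dil 1 p)⟫_ℝ = 1 := by simpa [dil_apply] using n_n hF hM
  have h4 : ⟪F.n p, F.n (dil c p)⟫_ℝ = 1 := by
    rcases sq_eq_one_iff.1 (h1 c hc) with h | h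
    · exact h
    · obtain ⟨x, hx, h5⟩ := isPreconnected_Ioi.intermediate_value hc (show (1 : ℝ) ∈ Ioi 0 by simp)
        h2 (show (0 : ℝ) ∈ Icc _ _ by rw [h, h3]; norm_num)
      have := h1 x hx
      simp only at h5
      rw [h5] at this
      norm_num at this
  exact (inner_eq_one_iff_of_norm_eq_one (𝕜 := ℝ) (n_unit hF hM) (n_unit hF (hD p hM c hc))).1 h4 |>.symm

/-! ### frozen slices -/

theorem freeze_reg (hF : F.Reg) (t : ℝ) : (F.freeze t).Reg := by
  intro p hp
  obtain ⟨W, φ, hW, h⟩ := hF _ hp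
  have hc : ContDiff ℝ ∞ fun q : ST => ((q.1, t) : ST) := by fun_prop
  exact ⟨{q | (q.1, t) ∈ W}, fun q => φ (q.1, t), hW, h.isOpen.preimage hc.continuous,
    h.sm.comp hc.contDiffOn fun q hq => hq, fun q hq => h.ne _ hq, fun q hq => h.mem _ hq,
    fun q hq hM => h.n_eq _ hq hM, fun q _ _ => by simp [Mv.freeze, dT]⟩

theorem freeze_D (hF : F.Reg) {t : ℝ} {f : ST → ℝ} (hf : F.Sm f) (hp : (p.1, t) ∈ F.M)
    (a : Fin 3) : (F.freeze t).D a (fun q => f (q.1, t)) p = F.D a f (p.1, t) := by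
  have h1 : HasFDerivAt (fun q : ST => ((q.1, t) : ST))
      ((ContinuousLinearMap.fst ℝ E ℝ).prod 0) p := hasFDerivAt_fst.prodMk (hasFDerivAt_const t p)
  have h2 := ((hf _ hp).differentiableWithinAt (by simp)).hasFDerivWithinAt.comp p
    (h1.hasFDerivWithinAt (s := (F.freeze t).M)) fun q hq => hq
  rw [D_def, D_def]
  exact td_eq h2 (PL_mem (freeze_reg hF t) hp _)

theorem freeze_H (hF : F.Reg) {t : ℝ} (hp : (p.1, t) ∈ F.M) :
    (F.freeze t).H p = F.H (p.1, t) := by
  simp only [Mv.H, Mv.A, Finset.sum_apply]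
  exact Finset.sum_congr rfl fun a _ => freeze_D hF (sm_nu hF a) hp a

end SS

open SS Tr in
theorem selfSimS_holds : SelfSimS := by
  intro F hF ht hP hd
  have hV : ∀ p ∈ F.M, ⟪F.n p, p.1⟫_ℝ = 2 * p.2 * F.V p := fun p hp => by
    have h1 := hd p hp
    have h2 := (ht p hp).ne
    simp only [Mv.dev, Mv.xn, Prod.fst_zero, Prod.snd_zero, sub_zero, zero_sub] at h1
    rw [hF.2 p hp, real_inner_comm, sub_eq_zero.1 h1]
    field_simp
  have hD : ∀ p ∈ F.M, ∀ c, 0 < c → dil c p ∈ F.M := fun p hp c hc => dil_mem hF.1 ht hP hV hp hc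
  have e1 : ∀ p : ST, p.2 < 0 → dil (√(-p.2))⁻¹ p = ((umap p).1, -1) := fun p hp => by
    rw [dil_apply, inv_pow, Real.sq_sqrt (by linarith)]
    refine Prod.ext rfl ?_
    have := hp.ne
    simp only
    field_simp
  have e2 : ∀ p : ST, p.2 < 0 → dil (√(-p.2)) ((umap p).1, -1) = p := fun p hp => by
    have : √(-p.2) ≠ 0 := (Real.sqrt_pos.2 (by linarith)).ne'
    rw [dil_apply, Real.sq_sqrt (by linarith)]
    refine Prod.ext ?_ (by simp)
    simp [umap, smul_smul, this]
  have e3 : ∀ p : ST, p.2 < 0 → 0 < √(-p.2) := fun p hp => Real.sqrt_pos.2 (by linarith)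
  refine ⟨⟨freeze_reg hF.1 _, ⟨fun _ _ => Iff.rfl, fun _ _ => rfl, fun _ => rfl⟩, ?_, ?_⟩, ?_, ?_⟩
  · refine isClosed_of_closure_subset fun p hp => ?_
    exact hP (p.1, -1) (map_mem_closure (f := fun q : ST => ((q.1, -1) : ST)) (by fun_prop) hp
      fun q hq => hq) ⟨trivial, by simp⟩
  · intro p hp
    have h1 := hd _ hp
    simp only [Mv.dev, Mv.xn, Prod.fst_zero, Prod.snd_zero] at h1
    rw [Mv.shr, freeze_H hF.1 hp, ← h1]
    norm_num [Mv.xn, Mv.freeze]
  · ext p
    constructor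
    · intro hp
      refine ⟨ht p hp, ?_⟩
      have := hD p hp _ (inv_pos.2 (e3 p (ht p hp)))
      rwa [e1 p (ht p hp)] at this
    · rintro ⟨h1, h2⟩
      have := hD _ h2 _ (e3 p h1)
      rwa [e2 p h1] at this
  · intro p hp
    have := dil_n hF.1 hD hp (inv_pos.2 (e3 p (ht p hp)))
    rw [e1 p (ht p hp)] at this
    exact this.symm

end Crest.Agent.N250

end
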