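import Crest.Agent.N250.T.Stm
import Crest.Agent.N250.Master
import Crest.Agent.N250.Tr.Base

/-!
# Row 250 (helper26): moving surfaces that agree on their track; monotonicity of `Reach`;
positivity of the area measure
-/

set_option autoImplicit false
open MeasureTheory Set Filter Topology
open scoped ContDiff InnerProductSpace
open Crest.GeometryTopology.MCF

noncomputable section

namespace Crest.Agent.N250

/-- same track, same normal and speed on it -/
structure Mv.Same (F G : Mv) : Prop where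
  M : F.M = G.M
  n : ∀ p ∈ F.M, F.n p = G.n p
  V : ∀ p ∈ F.M, F.V p = G.V p

namespace Mv.Same

variable {F G : Mv}

theorem refl (F : Mv) : F.Same F := ⟨rfl, fun _ _ => rfl, fun _ _ => rfl⟩

theorem symm (h : F.Same G) : G.Same F :=
  ⟨h.M.symm, fun p hp => (h.n p (h.M ▸ hp)).symm, fun p hp => (h.V p (h.M ▸ hp)).symm⟩

theorem trans {K : Mv} (h : F.Same G) (h' : G.Same K) : F.Same K :=
  ⟨h.M.trans h'.M, fun p hp => (h.n p hp).trans (h'.n p (h.M ▸ hp)),
    fun p hp => (h.V p hp).trans (h'.V p (h.M ▸ hp))⟩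

theorem loc (h : F.Same G) {W : Set ST} {φ : ST → ℝ} (hl : F.Loc W φ) : G.Loc W φ :=
  ⟨hl.isOpen, hl.sm, hl.ne, fun q hq => h.M ▸ hl.mem q hq,
    fun q hq hM => by rw [← h.n q (h.M ▸ hM)]; exact hl.n_eq q hq (h.M ▸ hM),
    fun q hq hM => by rw [← h.V q (h.M ▸ hM)]; exact hl.V_eq q hq (h.M ▸ hM)⟩

theorem reg (h : F.Same G) (hF : F.Reg) : G.Reg := fun p hp => by
  obtain ⟨W, φ, a, b⟩ := hF p (h.M ▸ hp)
  exact ⟨W, φ, a, h.loc b⟩

theorem sl (h : F.Same G) (t : ℝ) : F.sl t = G.sl t := by simp only [Mv.sl, h.M]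

theorem mu (h : F.Same G) (t : ℝ) : F.mu t = G.mu t := by simp only [Mv.mu, h.sl]

theorem Fs (h : F.Same G) (t : ℝ) (y : E) (s : ℝ) : F.Fs t y s = G.Fs t y s := by
  simp only [Mv.Fs, h.mu]

theorem Fg (h : F.Same G) (X : ST) (r : ℝ) : F.Fg X r = G.Fg X r := h.Fs _ _ _

theorem stI (h : F.Same G) (f : ST → ℝ) (a b : ℝ) : F.stI f a b = G.stI f a b := by
  simp only [Mv.stI, h.mu]

theorem ar (h : F.Same G) {Λ : ℝ} (hF : F.AR Λ) : G.AR Λ := fun t y r hr => by
  rw [← h.mu]; exact hF t y r hr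

theorem proper (h : F.Same G) {Ω : Set ST} (hF : F.Proper Ω) : G.Proper Ω := by
  intro p hp hΩ
  rw [← h.M] at hp ⊢
  exact hF p hp hΩ

theorem td {K : Type} [NormedAddCommGroup K] [NormedSpace ℝ K] (h : F.Same G) (f : ST → K)
    (p : ST) : F.td f p = G.td f p := by simp only [Mv.td, h.M]

theorem PL (h : F.Same G) {p : ST} (hp : p ∈ F.M) (v : E) : F.PL p v = G.PL p v := by
  simp only [Mv.PL, h.n p hp]

theorem D (h : F.Same G) {f g : ST → ℝ} (hfg : ∀ q ∈ F.M, f q = g q) {p : ST} (hp : p ∈ F.M)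
    (a : Fin 3) : F.D a f p = G.D a g p := by
  rw [Tr.D_congr hp (Tr.ev_of_on hfg), Tr.D_def, Tr.D_def, h.td, h.PL hp]

theorem Dt (h : F.Same G) {f g : ST → ℝ} (hfg : ∀ q ∈ F.M, f q = g q) {p : ST} (hp : p ∈ F.M) :
    F.Dt f p = G.Dt g p := by
  simp only [Mv.Dt]
  rw [Tr.td_congr hp (Tr.ev_of_on hfg), h.td, h.n p hp, h.V p hp]

theorem DL (h : F.Same G) {f g : ST → ℝ} (hfg : ∀ q ∈ F.M, f q = g q) (l : List (Fin 3)) :
    ∀ p ∈ F.M, F.DL l f p = G.DL l g p := by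
  induction l with
  | nil => exact hfg
  | cons a l ih => exact fun p hp => h.D ih hp a

theorem nu (h : F.Same G) (a : Fin 3) : ∀ p ∈ F.M, F.nu a p = G.nu a p := fun p hp => by
  simp only [Mv.nu, h.n p hp]

theorem A (h : F.Same G) (a b : Fin 3) : ∀ p ∈ F.M, F.A a b p = G.A a b p :=
  fun _ hp => h.D (h.nu b) hp a

theorem H (h : F.Same G) : ∀ p ∈ F.M, F.H p = G.H p := fun p hp => by
  simp only [Mv.H, Finset.sum_apply, h.A _ _ p hp]

theorem A2 (h : F.Same G) : ∀ p ∈ F.M, F.A2 p = G.A2 p := fun p hp => by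
  simp only [Mv.A2, Finset.sum_apply, Pi.mul_apply, h.A _ _ p hp]

theorem xn (h : F.Same G) (y : E) : ∀ p ∈ F.M, F.xn y p = G.xn y p := fun p hp => by
  simp only [Mv.xn, h.n p hp]

theorem dev (h : F.Same G) (X : ST) : ∀ p ∈ F.M, F.dev X p = G.dev X p := fun p hp => by
  simp only [Mv.dev, h.H p hp, h.xn _ p hp]

theorem shr (h : F.Same G) : ∀ p ∈ F.M, F.shr p = G.shr p := fun p hp => by
  simp only [Mv.shr, h.H p hp, h.xn _ p hp]

theorem njet (h : F.Same G) {k : ℕ} {C : ℝ} {p : ST} (hp : p ∈ F.M) (hF : F.NJet k C p) :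
    G.NJet k C p := fun a l hl => by
  rw [← h.DL (h.nu a) l p hp]; exact hF a l hl

theorem reach (h : F.Same G) {p : ST} (hp : p ∈ F.M) {ρ : ℝ} (hF : F.Reach p ρ) :
    G.Reach p ρ := fun y hy => by
  rw [← h.n p hp]; exact hF y (h.sl _ ▸ hy)

theorem isMCF (h : F.Same G) (hF : F.IsMCF) : G.IsMCF :=
  ⟨h.reg hF.1, fun p hp => by
    rw [← h.M] at hp
    rw [← h.V p hp, ← h.H p hp]; exact hF.2 p hp⟩

theorem isRMCF (h : F.Same G) (hF : F.IsRMCF) : G.IsRMCF :=
  ⟨h.reg hF.1, fun p hp => by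
    rw [← h.M] at hp
    rw [← h.V p hp, ← h.shr p hp]; exact hF.2 p hp⟩

theorem fl (h : F.Same G) {I : Set ℝ} {Λ : ℝ} (hF : Fl F I Λ) : Fl G I Λ :=
  ⟨h.isMCF hF.mcf, fun p hp => hF.time p (h.M ▸ hp), h.proper hF.proper, h.ar hF.ar⟩

theorem astar (h : F.Same G) {I : Set ℝ} {m : Md} (hF : AStar F I m) : AStar G I m := by
  intro R y r hr hI hd x hx hxy
  rw [← h.M] at hx
  rw [← h.Fg, ← h.Fg] at hd
  exact h.reach hx (hF R y r hr hI hd x hx hxy)

theorem cl (h : F.Same G) {I : Set ℝ} {Λ : ℝ} {m : Md} (hF : Cl F I Λ m) : Cl G I Λ m :=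
  ⟨hF.tm, h.fl hF.fl, h.astar hF.as⟩

/-- change the limit -/
theorem conv (h : F.Same G) {α : Type} {l : Filter α} {Fk : α → Mv} {Ω : Set ST}
    (hc : Conv l Fk F Ω) : Conv l Fk G Ω :=
  ⟨fun p hp hM => hc.away p hp (h.M ▸ hM), fun p hp hM => by
    obtain ⟨W, φ, φk, a, b, c, d⟩ := hc.near p hp (h.M ▸ hM)
    exact ⟨W, φ, φk, a, h.loc b, c, d⟩⟩

end Mv.Same

/-- change the family -/
theorem Conv.same_left {α : Type} {l : Filter α} {Fk Gk : α → Mv} {F : Mv} {Ω : Set ST}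
    (hc : Conv l Fk F Ω) (h : ∀ᶠ k in l, (Fk k).Same (Gk k)) : Conv l Gk F Ω :=
  ⟨fun p hp hM => by
    obtain ⟨U, a, b⟩ := hc.away p hp hM
    exact ⟨U, a, by filter_upwards [b, h] with k x y using y.M ▸ x⟩,
  fun p hp hM => by
    obtain ⟨W, φ, φk, a, b, c, d⟩ := hc.near p hp hM
    exact ⟨W, φ, φk, a, b, by filter_upwards [c, h] with k x y using y.loc x, d⟩⟩

/-- smaller tangent balls -/
theorem Mv.Reach.mono_unit {F : Mv} {p : ST} {ρ σ : ℝ} (h : F.Reach p ρ) (hn : ‖F.n p‖ = 1)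
    (hσ : σ ≤ ρ) : F.Reach p σ := by
  intro y hy
  obtain ⟨a, b⟩ := h y hy
  have e : ‖(ρ - σ) • F.n p‖ = ρ - σ := by
    rw [norm_smul, hn, mul_one, Real.norm_of_nonneg (sub_nonneg.2 hσ)]
  constructor
  · have h1 := dist_triangle y (p.1 + σ • F.n p) (p.1 + ρ • F.n p)
    have h2 : dist (p.1 + σ • F.n p) (p.1 + ρ • F.n p) = ρ - σ := by
      rw [dist_comm, dist_eq_norm, ← e]; congr 1; rw [sub_smul]; abel
    linarith
  · have h1 := dist_triangle y (p.1 - σ • F.n p) (p.1 - ρ • F.n p)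
    have h2 : dist (p.1 - σ • F.n p) (p.1 - ρ • F.n p) = ρ - σ := by
      rw [dist_eq_norm, ← e]; congr 1; rw [sub_smul]; abel
    linarith

theorem Mv.Reach.mono_reg {F : Mv} {p : ST} {ρ σ : ℝ} (h : F.Reach p ρ) (hF : F.Reg)
    (hp : p ∈ F.M) (hσ : σ ≤ ρ) : F.Reach p σ := h.mono_unit (Tr.n_unit hF hp) hσ

theorem Mv.Proper.mono_set {F : Mv} {Ω Ω' : Set ST} (h : F.Proper Ω) (h' : Ω' ⊆ Ω) :
    F.Proper Ω' := fun p hp hΩ => h p hp (h' hΩ)

/-- the area measure charges every neighbourhood of a point of the slice -/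
theorem Mv.Reg.mu_pos {F : Mv} (hF : F.Reg) {x : E} {t : ℝ} (hM : (x, t) ∈ F.M) {U : Set E}
    (hU : U ∈ 𝓝 x) : 0 < F.mu t U := by
  obtain ⟨W, φ, hp, h⟩ := hF _ hM
  set g := gradX φ x t with hg
  have hg0 : g ≠ 0 := h.ne _ hp
  set K : Submodule ℝ E := (ℝ ∙ g)ᗮ with hK
  have hfr : Module.finrank ℝ K = 2 := by
    have : Fact (Module.finrank ℝ E = 2 + 1) := ⟨by simp⟩
    exact Submodule.finrank_orthogonal_span_singleton hg0
  have hφ : ContDiffAt ℝ ∞ (fun y : E => φ (y, t)) x :=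
    (Tr.loc_at h hp).comp x (contDiffAt_id.prodMk contDiffAt_const)
  have hd : HasFDerivAt (fun y : E => φ (y, t)) (innerSL ℝ g) x := by
    exact (hφ.differentiableAt (by simp)).hasGradientAt.hasFDerivAt
  have hs : HasStrictFDerivAt (fun y : E => φ (y, t)) (innerSL ℝ g) x := by
    have := hφ.hasStrictFDerivAt (by simp)
    rwa [hd.fderiv] at this
  have hG := (K.orthogonalProjectionOnto.hasStrictFDerivAt (x := x)).prodMk hs
  have hsurj : (K.orthogonalProjectionOnto.prod (innerSL ℝ g)).range = ⊤ := by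
    rw [eq_top_iff]
    rintro ⟨w, r⟩ _
    have hn : ‖g‖ ^ 2 ≠ 0 := pow_ne_zero _ (norm_ne_zero_iff.2 hg0)
    refine ⟨(w : E) + (r / ‖g‖ ^ 2) • g, Prod.ext ?_ ?_⟩
    · have h0 : K.orthogonalProjectionOnto g = 0 :=
        Submodule.orthogonalProjectionOnto_orthogonalComplement_singleton_eq_zero g
      simp [h0]
    · have h0 : ⟪g, (w : E)⟫_ℝ = 0 := Submodule.mem_orthogonal_singleton_iff_inner_right.1 w.2
      simp only [ContinuousLinearMap.coe_coe, ContinuousLinearMap.prod_apply, innerSL_apply_apply,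
        inner_add_right, h0, inner_smul_right, real_inner_self_eq_norm_sq, zero_add]
      exact div_mul_cancel₀ _ hn
  have hmap := hG.map_nhds_eq_of_surj hsurj
  have hW : {y : E | (y, t) ∈ W} ∈ 𝓝 x :=
    (Continuous.prodMk_left t).continuousAt.preimage_mem_nhds (h.isOpen.mem_nhds hp)
  have him : (fun y : E => (K.orthogonalProjectionOnto y, φ (y, t))) '' (U ∩ {y | (y, t) ∈ W}) ∈
      𝓝 (K.orthogonalProjectionOnto x, φ (x, t)) := by
    rw [← hmap]; exact image_mem_map (inter_mem hU hW)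
  rw [(h.mem _ hp).1 hM] at him
  have hN : K.orthogonalProjectionOnto '' (U ∩ F.sl t) ∈ 𝓝 (K.orthogonalProjectionOnto x) := by
    have := (Continuous.prodMk_left (0 : ℝ)).continuousAt.preimage_mem_nhds him
    refine mem_of_superset this ?_
    rintro w ⟨y, ⟨hy1, hy2⟩, hy⟩
    simp only [Prod.mk.injEq] at hy
    exact ⟨y, ⟨hy1, (h.mem _ hy2).2 hy.2⟩, hy.1⟩
  have hpos : 0 < (μHE[2] : Measure K) (K.orthogonalProjectionOnto '' (U ∩ F.sl t)) := by
    have := isAddHaarMeasure_euclideanHausdorffMeasure (E := K)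
    rw [hfr] at this
    exact Measure.measure_pos_of_mem_nhds _ hN
  have hle : (μHE[2] : Measure K) (K.orthogonalProjectionOnto '' (U ∩ F.sl t)) ≤
      (μHE[2] : Measure E) (U ∩ F.sl t) := by
    have hl : LipschitzWith 1 K.orthogonalProjectionOnto :=
      K.orthogonalProjectionOnto.lipschitz.weaken (by exact_mod_cast K.orthogonalProjectionOnto_norm_le)
    have := hl.hausdorffMeasure_image_le (d := ((2 : ℕ) : ℝ)) (by simp) (U ∩ F.sl t)
    simp only [Measure.euclideanHausdorffMeasure_def, Measure.smul_apply]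
    simp only [ENNReal.coe_one, ENNReal.one_rpow, one_mul] at this
    exact smul_le_smul_left _ this
  exact (hpos.trans_le hle).trans_le (Measure.le_restrict_apply _ _)

end Crest.Agent.N250

end
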