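import Crest.Agent.N250.T.Gau
import Crest.Agent.N250.Tr.Base

/-! Row 250 (helper46): complete flows, Gaussian areas and LGB pass to smooth limits. -/

set_option autoImplicit false
open MeasureTheory Set Filter Topology Metric
open scoped ContDiff InnerProductSpace
open Crest.GeometryTopology.MCF

noncomputable section

namespace Crest.Agent.N250

namespace CFl

/-- point, normal, second fundamental form -/
abbrev PNA : Type := E × E × (Fin 3 → Fin 3 → ℝ)

/-- the jet of a slice -/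
def jt (F : Mv) (t : ℝ) (x : E) : PNA := (x, F.n (x, t), fun a b => F.A a b (x, t))

/-- continuous cut-off: `1` on `d ≤ a`, `0` on `b ≤ d` -/
def cut (a b d : ℝ) : ℝ := max 0 (min 1 ((b - d) / (b - a)))

lemma cut_cont (a b : ℝ) : Continuous (cut a b) := by unfold cut; fun_prop
lemma cut_nonneg (a b d : ℝ) : 0 ≤ cut a b d := le_max_left _ _
lemma cut_le (a b d : ℝ) : cut a b d ≤ 1 := max_le zero_le_one (min_le_left _ _)
lemma cut_one {a b d : ℝ} (h : a < b) (hd : d ≤ a) : cut a b d = 1 := by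
  rw [cut, min_eq_left ((one_le_div (by linarith)).2 (by linarith)), max_eq_right zero_le_one]
lemma cut_zero {a b d : ℝ} (h : a < b) (hd : b ≤ d) : cut a b d = 0 :=
  max_eq_left (min_le_of_right_le (div_nonpos_of_nonpos_of_nonneg (by linarith) (by linarith)))

/-- a closed slice of locally finite area -/
structure Nice (F : Mv) (t : ℝ) : Prop where
  reg : F.Reg
  cl : IsClosed (F.sl t)
  fin : IsFiniteMeasureOnCompacts (F.mu t)

variable {F : Mv} {t : ℝ} {I : Set ℝ} {Λ : ℝ}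

lemma closed_sl (hp : F.Proper (univ ×ˢ I)) (ht : ∀ p ∈ F.M, p.2 ∈ I) (t : ℝ) :
    IsClosed (F.sl t) := by
  refine isClosed_of_closure_subset fun x hx => ?_
  obtain ⟨z, hz⟩ := closure_nonempty_iff.1 ⟨x, hx⟩
  exact hp _ (map_mem_closure (f := fun x : E => ((x, t) : ST)) (by fun_prop) hx fun _ h => h)
    ⟨trivial, ht (z, t) hz⟩

lemma fin_of_ball {μ : Measure E} (h : ∀ r, 0 < r → μ (ball 0 r) < ⊤) :
    IsFiniteMeasureOnCompacts μ := ⟨fun K hK => by
  obtain ⟨r, hr, h1⟩ := hK.isBounded.subset_ball_lt 0 0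
  exact (measure_mono h1).trans_lt (h r hr)⟩

lemma nice_fl (h : Fl F I Λ) (t : ℝ) : Nice F t :=
  ⟨h.mcf.1, closed_sl h.proper h.time t,
    fin_of_ball fun r hr => (h.ar t 0 r hr).trans_lt ENNReal.ofReal_lt_top⟩

lemma nice_of (hM : MuFinS) (hF : F.Reg) (hc : IsClosed (F.sl t)) : Nice F t := by
  refine ⟨hF, hc, fin_of_ball fun r hr => ?_⟩
  obtain ⟨C, hC⟩ := hM F hF ((F.sl t ∩ closedBall 0 r) ×ˢ {t})
    (((isCompact_closedBall 0 r).inter_left hc).prod isCompact_singleton)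
    (by rintro ⟨x, s⟩ ⟨h1, rfl⟩; exact h1.1)
  refine lt_of_le_of_lt ?_ ((hC t 0 r hr).trans_lt ENNReal.ofReal_lt_top)
  refine measure_mono_ae ?_
  filter_upwards [ae_restrict_mem (μ := μHE[2]) hc.measurableSet] with x hx h
  exact ⟨⟨⟨hx, ball_subset_closedBall h⟩, rfl⟩, h⟩

lemma cont_jt (hF : F.Reg) (t : ℝ) : ContinuousOn (jt F t) (F.sl t) := by
  have c : ∀ {G : Type} [NormedAddCommGroup G] [NormedSpace ℝ G] {f : ST → G}, F.Sm f →
      ContinuousOn (fun x => f (x, t)) (F.sl t) := fun h =>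
    h.continuousOn.comp (f := fun x : E => ((x, t) : ST)) (by fun_prop) fun _ h => h
  exact continuousOn_id.prodMk ((c (Tr.sm_n hF)).prodMk (continuousOn_pi.2 fun a =>
    continuousOn_pi.2 fun b => c (Tr.sm_D hF (Tr.sm_nu hF b) a)))

lemma Nice.intg (h : Nice F t) {g : PNA → ℝ} (hg : Continuous g) {y : E} {b : ℝ}
    (h0 : ∀ q, b ≤ dist q.1 y → g q = 0) : Integrable (fun x => g (jt F t x)) (F.mu t) := by
  have := h.fin
  have h1 : IntegrableOn (fun x => g (jt F t x)) (F.sl t) (F.mu t) :=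
    ((hg.comp_continuousOn ((cont_jt h.reg t).mono inter_subset_left)).integrableOn_compact
      ((isCompact_closedBall y b).inter_left h.cl)).of_forall_sdiff_eq_zero h.cl.measurableSet
      fun x hx => h0 _ (not_le.1 fun h' => hx.2 ⟨hx.1, h'⟩).le
  rwa [IntegrableOn, Mv.mu, Measure.restrict_restrict h.cl.measurableSet, inter_self] at h1

variable {α : Type} {l : Filter α} {Fk : α → Mv}

/-- `ConvMuS` for test functions which do not depend on time -/
lemma conv_sp (hμ : ConvMuS) (hI : IsOpen I) (hc : Conv l Fk F (univ ×ˢ I)) {g : PNA → ℝ}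
    (hg : Continuous g) {y : E} {b : ℝ} (h0 : ∀ q, b ≤ dist q.1 y → g q = 0) {tk : α → ℝ}
    (ht : t ∈ I) (hk : Tendsto tk l (𝓝 t)) :
    Tendsto (fun k => ∫ x, g (jt (Fk k) (tk k) x) ∂(Fk k).mu (tk k)) l
      (𝓝 (∫ x, g (jt F t x) ∂F.mu t)) := by
  obtain ⟨δ, hδ, h1⟩ := nhds_basis_closedBall.mem_iff.1 (hI.mem_nhds ht)
  have h2 : δ / 2 < δ := by linarith
  have := hμ α l Fk F _ (closedBall y b ×ˢ closedBall t δ) (isOpen_univ.prod hI) hc
    ((isCompact_closedBall _ _).prod (isCompact_closedBall _ _)) (prod_mono (subset_univ _) h1)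
    (fun q => cut (δ / 2) δ (dist q.1.2 t) * g (q.1.1, q.2))
    (((cut_cont _ _).comp (by fun_prop)).mul (hg.comp (by fun_prop)))
    (fun q hq => by
      rcases not_and_or.1 hq with h | h
      · exact mul_eq_zero_of_right _ (h0 _ (not_le.1 h).le)
      · exact mul_eq_zero_of_left (cut_zero h2 (not_le.1 h).le) _) tk t hk
  simp only [dist_self, cut_one h2 (half_pos hδ).le, one_mul] at this
  refine this.congr' ?_
  filter_upwards [hk.eventually (closedBall_mem_nhds t (half_pos hδ))] with k h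
  simp only [cut_one h2 h, one_mul, jt]

/-- lower semicontinuity on open balls -/
lemma lsc [l.NeBot] (hμ : ConvMuS) (hI : IsOpen I) (hc : Conv l Fk F (univ ×ˢ I))
    (hk : ∀ᶠ k in l, Nice (Fk k) t) (hF : Nice F t) (ht : t ∈ I) {g : PNA → ℝ} (hg : Continuous g)
    (hp : ∀ q, 0 ≤ g q) (y : E) {a b : ℝ} (hab : a < b) :
    ∃ (u : α → ENNReal) (v : ENNReal), Tendsto u l (𝓝 v) ∧
      (∀ᶠ k in l, ∫⁻ x in ball y a, ENNReal.ofReal (g (jt (Fk k) t x)) ∂(Fk k).mu t ≤ u k ∧
        u k ≤ ∫⁻ x in ball y b, ENNReal.ofReal (g (jt (Fk k) t x)) ∂(Fk k).mu t) ∧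
      ∫⁻ x in ball y a, ENNReal.ofReal (g (jt F t x)) ∂F.mu t ≤ v ∧
      v ≤ ∫⁻ x in ball y b, ENNReal.ofReal (g (jt F t x)) ∂F.mu t := by
  set G : PNA → ℝ := fun q => cut a b (dist q.1 y) * g q with hG
  have c : Continuous G := ((cut_cont _ _).comp (by fun_prop)).mul hg
  have h0 : ∀ q, b ≤ dist q.1 y → G q = 0 := fun q hq => mul_eq_zero_of_left (cut_zero hab hq) _
  have key : ∀ {F : Mv}, Nice F t →
      ∫⁻ x in ball y a, ENNReal.ofReal (g (jt F t x)) ∂F.mu t ≤
        ENNReal.ofReal (∫ x, G (jt F t x) ∂F.mu t) ∧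
      ENNReal.ofReal (∫ x, G (jt F t x) ∂F.mu t) ≤
        ∫⁻ x in ball y b, ENNReal.ofReal (g (jt F t x)) ∂F.mu t := fun {F} h => by
    rw [ofReal_integral_eq_lintegral_ofReal (h.intg c h0)
      (.of_forall fun x => mul_nonneg (cut_nonneg _ _ _) (hp _)),
      ← lintegral_indicator measurableSet_ball, ← lintegral_indicator measurableSet_ball]
    refine ⟨lintegral_mono fun x => ?_, lintegral_mono fun x => ?_⟩
    · by_cases hx : x ∈ ball y a
      · rw [indicator_of_mem hx, hG]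
        simp only [jt, cut_one hab (mem_ball.1 hx).le, one_mul, le_refl]
      · rw [indicator_of_notMem hx]; exact zero_le
    · by_cases hx : x ∈ ball y b
      · rw [indicator_of_mem hx]
        exact ENNReal.ofReal_le_ofReal (mul_le_of_le_one_left (hp _) (cut_le _ _ _))
      · rw [h0 (jt F t x) (not_lt.1 (mt mem_ball.2 hx)), ENNReal.ofReal_zero]; exact zero_le
  exact ⟨_, _, ENNReal.tendsto_ofReal (conv_sp hμ hI hc c h0 (tk := fun _ => t) ht
    tendsto_const_nhds), hk.mono fun k h => key h, key hF⟩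

lemma ball_sup {μ : Measure E} {f : E → ENNReal} {y : E} {r : ℝ} {c : ENNReal} (hr : 0 < r)
    (h : ∀ a, 0 < a → a < r → ∫⁻ x in ball y a, f x ∂μ ≤ c) : ∫⁻ x in ball y r, f x ∂μ ≤ c := by
  obtain ⟨u, h1, h2, h3⟩ := exists_seq_strictMono_tendsto' hr
  have e : ball y r = ⋃ i, ball y (u i) := by
    refine Subset.antisymm (fun x hx => ?_) (iUnion_subset fun i => ball_subset_ball (h2 i).2.le)
    obtain ⟨i, hi⟩ := (h3.eventually (lt_mem_nhds (mem_ball.1 hx))).exists
    exact mem_iUnion.2 ⟨i, hi⟩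
  rw [e, setLIntegral_iUnion_of_directed _
    (Monotone.directed_le fun i j hij => ball_subset_ball (h1.monotone hij))]
  exact iSup_le fun i => h _ (h2 i).1 (h2 i).2

lemma mu_zero (hT : ∀ p ∈ F.M, p.2 ∈ I) (ht : t ∉ I) : F.mu t = 0 := by
  rw [Mv.mu, show F.sl t = ∅ from eq_empty_of_forall_notMem fun x hx => ht (hT _ hx),
    Measure.restrict_empty]

lemma tail_cut {μ : Measure E} (hΛ : 0 ≤ Λ) (h : Gau.Rat μ Λ) {y z : E} {s R a : ℝ} (hs : 0 < s)
    (hR : 0 ≤ R) (ha : R * √s + dist y z ≤ a) :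
    Integrable (fun x => cut a (a + 1) (dist x z) * gau y s x) μ ∧
    |∫ x, gau y s x ∂μ - ∫ x, cut a (a + 1) (dist x z) * gau y s x ∂μ| ≤
      Gau.C0 * Λ * Real.exp (-R ^ 2 / 8) := by
  have i1 := Gau.int_gau hΛ h y hs
  have i2 : Integrable (fun x => cut a (a + 1) (dist x z) * gau y s x) μ :=
    i1.bdd_mul (c := 1) ((cut_cont _ _).comp (by fun_prop)).aestronglyMeasurable
      (.of_forall fun x => by rw [Real.norm_of_nonneg (cut_nonneg _ _ _)]; exact cut_le _ _ _)
  refine ⟨i2, le_trans ?_ (Gau.tail hΛ h y hs hR)⟩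
  rw [← integral_sub i1 i2, ← integral_indicator measurableSet_ball.compl]
  rw [← Real.norm_eq_abs]
  refine norm_integral_le_of_norm_le (i1.indicator measurableSet_ball.compl) (.of_forall fun x => ?_)
  have g0 := (Gau.gau_pos y hs x).le
  by_cases hx : x ∈ ball y (R * √s)
  · rw [indicator_of_notMem (not_not.2 hx), cut_one (lt_add_one a)
      ((dist_triangle x y z).trans (by linarith [mem_ball.1 hx])), one_mul, sub_self, norm_zero]
  · rw [indicator_of_mem hx, Real.norm_of_nonneg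
      (sub_nonneg.2 (mul_le_of_le_one_left g0 (cut_le _ _ _)))]
    exact sub_le_self _ (mul_nonneg (cut_nonneg _ _ _) g0)

lemma rat_of (h : F.AR Λ) (t : ℝ) : Gau.Rat (F.mu t) (max Λ 0) := fun y r hr =>
  (h t y r hr).trans (ENNReal.ofReal_le_ofReal (by gcongr; exact le_max_left _ _))

lemma fs_conv (hμ : ConvMuS) (hI : IsOpen I) (hc : Conv l Fk F (univ ×ˢ I))
    (hk : ∀ᶠ k in l, (Fk k).AR Λ) (hF : F.AR Λ) {tk sk : α → ℝ} {yk : α → E} {y : E} {s : ℝ}
    (ht : t ∈ I) (hs : 0 < s) (h1 : Tendsto tk l (𝓝 t)) (h2 : Tendsto yk l (𝓝 y))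
    (h3 : Tendsto sk l (𝓝 s)) :
    Tendsto (fun k => (Fk k).Fs (tk k) (yk k) (sk k)) l (𝓝 (F.Fs t y s)) := by
  refine Metric.tendsto_nhds.2 fun ε hε => ?_
  set L := max Λ 0
  have hL : 0 ≤ L := le_max_right _ _
  have t0 : Tendsto (fun R : ℝ => Gau.C0 * L * Real.exp (-R ^ 2 / 8)) atTop (𝓝 0) := by
    simpa using (Real.tendsto_exp_atBot.comp ((tendsto_neg_atTop_atBot.comp
      (tendsto_pow_atTop two_ne_zero)).atBot_div_const (by norm_num : (0 : ℝ) < 8))).const_mul
        (Gau.C0 * L)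
  obtain ⟨R, r1, hR⟩ := ((t0.eventually (gt_mem_nhds (by positivity : 0 < ε / 4))).and
    (eventually_ge_atTop 0)).exists
  set a := R * √s + 1 with ha
  have a0 : 0 < a + 1 := by positivity
  have e1 := (Metric.tendsto_nhds.1 (conv_sp hμ hI hc
    (g := fun q => cut a (a + 1) (dist q.1 y) * gau y s q.1)
    (((cut_cont _ _).comp (by fun_prop)).mul ((Gau.gau_cont y s).comp continuous_fst)) (y := y)
    (fun q hq => mul_eq_zero_of_left (cut_zero (lt_add_one a) hq) _) ht h1)) (ε / 4) (by positivity)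
  have e2 : ∀ᶠ k in l, R * √(sk k) + dist (yk k) y ≤ a := by
    have : Tendsto (fun k => R * √(sk k) + dist (yk k) y) l (𝓝 (R * √s + dist y y)) :=
      (h3.sqrt.const_mul R).add (h2.dist tendsto_const_nhds)
    exact this.eventually (ge_mem_nhds (by rw [dist_self]; linarith))
  set δ := ε / 4 / (L * (a + 1) ^ 2 + 1) with hδ
  have e3 : ∀ᶠ w : E × ℝ in 𝓝 (y, s), ∀ x ∈ closedBall y (a + 1),
      dist (gau w.1 w.2 x) (gau y s x) < δ := by
    refine (isCompact_closedBall y (a + 1)).eventually_forall_of_forall_eventually fun x _ => ?_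
    have : ContinuousAt (fun z : (E × ℝ) × E => dist (gau z.1.1 z.1.2 z.2) (gau y s z.2))
        ((y, s), x) := by
      unfold gau
      fun_prop (disch := positivity)
    exact this.eventually (gt_mem_nhds (by simp only [dist_self]; positivity))
  filter_upwards [e1, e2, (h2.prodMk_nhds h3).eventually e3, hk, h3.eventually (lt_mem_nhds hs)]
    with k e1 e2 e3 hk sk0
  obtain ⟨i1, b1⟩ := tail_cut hL (rat_of hk (tk k)) sk0 hR e2
  obtain ⟨i2, -⟩ := tail_cut hL (rat_of hk (tk k)) hs hR (y := y) (z := y) (a := a)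
    (by rw [dist_self]; linarith)
  obtain ⟨-, b2⟩ := tail_cut hL (rat_of hF t) hs hR (y := y) (z := y) (a := a)
    (by rw [dist_self]; linarith)
  have m1 := rat_of hk (tk k) y _ a0
  have b3 : |∫ x, cut a (a + 1) (dist x y) * gau (yk k) (sk k) x ∂(Fk k).mu (tk k) -
      ∫ x, cut a (a + 1) (dist x y) * gau y s x ∂(Fk k).mu (tk k)| ≤ ε / 4 := by
    rw [← integral_sub i1 i2, ← setIntegral_eq_integral_of_forall_compl_eq_zero
      (s := ball y (a + 1)) fun x hx => by
        rw [cut_zero (lt_add_one a) (not_lt.1 hx), zero_mul, zero_mul, sub_self]]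
    rw [← Real.norm_eq_abs]
    refine (norm_setIntegral_le_of_norm_le_const (C := δ) (m1.trans_lt ENNReal.ofReal_lt_top)
      fun x hx => ?_).trans ?_
    · rw [← mul_sub, norm_mul, Real.norm_of_nonneg (cut_nonneg _ _ _)]
      exact (mul_le_of_le_one_left (norm_nonneg _) (cut_le _ _ _)).trans
        (e3 x (ball_subset_closedBall hx)).le
    · have := ENNReal.toReal_le_of_le_ofReal (by positivity) m1
      rw [hδ, div_mul_eq_mul_div, div_le_iff₀ (by positivity)]
      exact mul_le_mul_of_nonneg_left (this.trans (le_add_of_nonneg_right zero_le_one))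
        (by positivity)
  simp only [jt, Real.dist_eq] at e1 ⊢
  rw [abs_lt] at e1 ⊢
  rw [abs_le] at b1 b2 b3
  unfold Mv.Fs
  constructor <;> linarith

end CFl

open CFl in
theorem convFlS_of (hJ : ConvJetS) (hμ : ConvMuS) (hM : MuFinS) : ConvFlS := by
  intro α l _ Fk Ik F I Λ hI hk hc hT
  obtain ⟨j1, j2⟩ := hJ α l Fk F _ hc
  have hR : F.Reg := fun p hp => by
    obtain ⟨W, φ, -, h1, h2, -⟩ := hc.near p ⟨trivial, hT p hp⟩ hp
    exact ⟨W, φ, h1, h2⟩
  have hP : F.Proper (univ ×ˢ I) := fun p hp hΩ => by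
    by_contra h
    obtain ⟨U, hU, h1⟩ := hc.away p hΩ h
    obtain ⟨q, q1, q2⟩ := mem_closure_iff_nhds.1 hp _ (interior_mem_nhds.2 hU)
    obtain ⟨xk, x1, x2⟩ := j2 q ⟨trivial, hT q q2⟩ q2 (fun _ => q.2) tendsto_const_nhds
    obtain ⟨k, k1, k2, k3⟩ := (h1.and (x2.and ((x1.prodMk_nhds tendsto_const_nhds).eventually
      (mem_interior_iff_mem_nhds.1 q1)))).exists
    exact disjoint_left.1 k1 k3 k2
  have hN : ∀ t, Nice F t := fun t => nice_of hM hR (closed_sl hP hT t)
  have hNk : ∀ t, ∀ᶠ k in l, Nice (Fk k) t := fun t => hk.mono fun k h => nice_fl h t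
  have hA : F.AR Λ := fun t y r hr => by
    by_cases ht : t ∈ I
    swap
    · rw [mu_zero hT ht]; exact zero_le
    rw [← setLIntegral_one]
    refine ball_sup hr fun a _ ha => ?_
    obtain ⟨u, v, h1, h2, h3, -⟩ := lsc hμ hI hc (hNk t) (hN t) ht (g := fun _ => 1)
      continuous_const (fun _ => zero_le_one) y ha
    simp only [ENNReal.ofReal_one, setLIntegral_one] at h2 h3 ⊢
    refine h3.trans (le_of_tendsto h1 ?_)
    filter_upwards [h2, hk] with k k1 k2 using k1.2.trans (k2.ar t y r hr)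
  refine ⟨⟨⟨hR, fun p hp => ?_⟩, hT, hP, hA⟩, fun G hG t y r hr => ?_,
    fun tk yk sk t y s ht hs h1 h2 h3 => fs_conv hμ hI hc (hk.mono fun k h => h.ar) hA ht hs h1 h2 h3⟩
  · obtain ⟨xk, x1, x2⟩ := j2 p ⟨trivial, hT p hp⟩ hp (fun _ => p.2) tendsto_const_nhds
    obtain ⟨-, h1, h2⟩ := j1 _ p ⟨trivial, hT p hp⟩ (x1.prodMk_nhds tendsto_const_nhds) x2
    have h3 := (tendsto_finsetSum Finset.univ fun a _ => h2 [a] a).neg
    refine (tendsto_nhds_unique h1 (h3.congr' ?_)).trans (by rw [Mv.H, Finset.sum_apply]; rfl)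
    filter_upwards [hk, x2] with k k1 k2
    rw [k1.mcf.2 _ k2, Mv.H, Finset.sum_apply]; rfl
  · by_cases ht : t ∈ I
    swap
    · rw [mu_zero hT ht]; simp
    have e1 : ∀ (F : Mv) (x : E), F.A2 (x, t) = ∑ a, ∑ b, (jt F t x).2.2 a b * (jt F t x).2.2 a b :=
      fun F x => by simp only [Mv.A2, Finset.sum_apply, Pi.mul_apply, jt]
    have e2 : ∀ (F : Mv) (x : E), F.H (x, t) = ∑ a, (jt F t x).2.2 a a :=
      fun F x => by simp only [Mv.H, Finset.sum_apply, jt]
    refine ball_sup hr fun a a0 ha => ?_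
    obtain ⟨b, ab, br⟩ := exists_between ha
    obtain ⟨u, v, h1, h2, h3, -⟩ := lsc hμ hI hc (hNk t) (hN t) ht
      (g := fun q => ∑ a, ∑ b, q.2.2 a b * q.2.2 a b) (by fun_prop)
      (fun _ => Finset.sum_nonneg fun _ _ => Finset.sum_nonneg fun _ _ => mul_self_nonneg _) y ab
    obtain ⟨u', v', h1', h2', -, h3'⟩ := lsc hμ hI hc (hNk t) (hN t) ht
      (g := fun q => (∑ a, q.2.2 a a) ^ 2) (by fun_prop) (fun _ => sq_nonneg _) y
      (by linarith : 2 * b < 2 * r)
    simp only [← e1, ← e2] at h2 h3 h2' h3'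
    refine h3.trans (le_trans (le_of_tendsto_of_tendsto h1 (ENNReal.Tendsto.const_mul
      (h1'.const_add 1) (Or.inr ENNReal.ofReal_ne_top)) ?_) (by gcongr))
    filter_upwards [h2, h2', hG] with k k1 k2 k3
    exact k1.2.trans ((k3 t y b (a0.trans ab)).trans (by gcongr; exact k2.1))

end Crest.Agent.N250

end
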