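import Crest.Agent.N250.T.Gau

/-!
# Row 250 (helper49): continuity of Gaussian-dominated slice integrals (`FsContS`)
-/

set_option autoImplicit false
open MeasureTheory Set Filter Topology
open scoped ContDiff InnerProductSpace
open Crest.GeometryTopology.MCF

noncomputable section

namespace Crest.Agent.N250

namespace Gau

lemma rat_of_AR {F : Mv} {Λ : ℝ} (h : F.AR Λ) (t : ℝ) : Rat (F.mu t) (max Λ 0) := fun y r hr =>
  (h t y r hr).trans (ENNReal.ofReal_le_ofReal (by gcongr; exact le_max_left _ _))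

lemma int_dom {μ : Measure E} {Λ : ℝ} (hΛ : 0 ≤ Λ) (h : Rat μ Λ) {y : E} {c B : ℝ} (hc : 0 < c)
    {f : E → ℝ} (hf : AEStronglyMeasurable f μ)
    (hb : ∀ x, |f x| ≤ B * Real.exp (-‖x - y‖ ^ 2 / c)) : Integrable f μ :=
  ((int_exp hΛ h y hc).const_mul B).mono' hf (Eventually.of_forall hb)

lemma diff_le {μ : Measure E} {Λ : ℝ} (hΛ : 0 ≤ Λ) (h : Rat μ Λ) {y : E} {c ε : ℝ} (hc : 0 < c)
    (hε : 0 ≤ ε) {f g : E → ℝ} (hf : Integrable f μ) (hg : Integrable g μ)
    (hb : ∀ x, |f x - g x| ≤ ε * Real.exp (-‖x - y‖ ^ 2 / c)) :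
    |∫ x, f x ∂μ - ∫ x, g x ∂μ| ≤ ε * (C0 * Λ * (c / 8)) := by
  rw [← integral_sub hf hg]
  calc |∫ x, f x - g x ∂μ| ≤ ∫ x, ε * Real.exp (-‖x - y‖ ^ 2 / c) ∂μ := by
        rw [← Real.norm_eq_abs]
        exact norm_integral_le_of_norm_le ((int_exp hΛ h y hc).const_mul ε)
          (Eventually.of_forall hb)
    _ ≤ _ := by rw [integral_const_mul]; gcongr; exact integral_exp_le hΛ h y hc

/-- far away the Gaussian weight gains a small factor -/
lemma far {c B ε : ℝ} (hc : 0 < c) (hε : 0 < ε) : ∃ R : ℝ, 0 < R ∧ ∀ d : ℝ, R ≤ d →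
    B * Real.exp (-d ^ 2 / c) ≤ ε * Real.exp (-d ^ 2 / (2 * c)) := by
  have h1 : Tendsto (fun d : ℝ => |B| * Real.exp (-d ^ 2 / (2 * c))) atTop (𝓝 (|B| * 0)) := by
    refine Tendsto.const_mul _ (Real.tendsto_exp_atBot.comp ?_)
    refine Tendsto.atBot_div_const (by positivity) ?_
    exact tendsto_neg_atTop_atBot.comp (tendsto_pow_atTop two_ne_zero)
  rw [mul_zero] at h1
  obtain ⟨R, hR⟩ := eventually_atTop.1 (h1.eventually (gt_mem_nhds hε))
  refine ⟨max R 1, by positivity, fun d hd => ?_⟩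
  have h2 := (hR d ((le_max_left _ _).trans hd)).le
  have e : Real.exp (-d ^ 2 / c) = Real.exp (-d ^ 2 / (2 * c)) * Real.exp (-d ^ 2 / (2 * c)) := by
    rw [← Real.exp_add]; congr 1; field_simp; ring
  rw [e, ← mul_assoc]
  gcongr
  exact le_trans (by gcongr; exact le_abs_self B) h2

/-- compact pieces of a complete flow -/
lemma cpt {F : Mv} {I : Set ℝ} {Λ : ℝ} (hF : Fl F I Λ) {A : Set E} (hA : IsCompact A) {a b : ℝ}
    (hI : Icc a b ⊆ I) : IsCompact (F.M ∩ A ×ˢ Icc a b) := by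
  have : F.M ∩ A ×ˢ Icc a b = closure F.M ∩ A ×ˢ Icc a b := by
    ext p; constructor
    · exact fun h => ⟨subset_closure h.1, h.2⟩
    · exact fun h => ⟨hF.proper p h.1 ⟨trivial, hI h.2.2⟩, h.2⟩
  rw [this]
  exact (hA.prod isCompact_Icc).inter_left isClosed_closure

/-- continuity in time of the integral of a Gaussian-dominated function -/
lemma cont_time (hM : MuContS) {F : Mv} {I : Set ℝ} {Λ : ℝ} (hI : IsOpen I) (hF : Fl F I Λ)
    {f : E → ℝ} (hf : Continuous f) {y : E} {c B : ℝ} (hc : 0 < c)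
    (hb : ∀ x, |f x| ≤ B * Real.exp (-‖x - y‖ ^ 2 / c)) {t₀ : ℝ} (ht : t₀ ∈ I) :
    ContinuousAt (fun t => ∫ x, f x ∂F.mu t) t₀ := by
  obtain ⟨δ, hδ, hδI⟩ := Metric.nhds_basis_closedBall.mem_iff.1 (hI.mem_nhds ht)
  rw [Real.closedBall_eq_Icc] at hδI
  have hJ : Ioo (t₀ - δ) (t₀ + δ) ∈ 𝓝 t₀ := Ioo_mem_nhds (by linarith) (by linarith)
  refine ContinuousOn.continuousAt ?_ hJ
  have hΛ : 0 ≤ max Λ 0 := le_max_right _ _
  have hC := C0_nonneg
  refine continuousOn_of_uniform_approx_of_continuousOn fun u hu => ?_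
  obtain ⟨e, he, heu⟩ := Metric.mem_uniformity_dist.1 hu
  set N : ℝ := C0 * max Λ 0 * (2 * c / 8) with hN
  have hN0 : 0 ≤ N := by positivity
  obtain ⟨R, hR, hfar⟩ := far (B := B) (ε := e / (N + 1)) hc (by positivity)
  let χ : E → ℝ := fun x => max 0 (min 1 (R + 1 - ‖x - y‖))
  have hχ : Continuous χ := by fun_prop
  have hχ0 : ∀ x, 0 ≤ χ x := fun x => le_max_left _ _
  have hχ1 : ∀ x, χ x ≤ 1 := fun x => max_le zero_le_one (min_le_left _ _)
  refine ⟨fun t => ∫ x, χ x * f x ∂F.mu t, ?_, fun t _ => heu ?_⟩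
  · refine hM F hF.mcf.1 (fun p => χ p.1 * f p.1) _ isOpen_Ioo (by fun_prop)
      ⟨_, cpt hF (isCompact_closedBall y (R + 1)) hδI, inter_subset_left, fun p hp hJ hK => ?_⟩
    have : R + 1 < ‖p.1 - y‖ := by
      by_contra h
      exact hK ⟨hp, by rw [Metric.mem_closedBall, dist_eq_norm]; exact not_lt.1 h,
        Ioo_subset_Icc_self hJ⟩
    have : χ p.1 = 0 := max_eq_left (min_le_of_right_le (by linarith))
    simp [this]
  · have hr := rat_of_AR hF.ar t
    have hi := int_dom hΛ hr hc hf.aestronglyMeasurable hb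
    have hi' : Integrable (fun x => χ x * f x) (F.mu t) :=
      int_dom hΛ hr hc (hχ.mul hf).aestronglyMeasurable fun x => by
        rw [abs_mul, abs_of_nonneg (hχ0 x)]
        exact (mul_le_of_le_one_left (abs_nonneg _) (hχ1 x)).trans (hb x)
    have := diff_le hΛ hr (y := y) (c := 2 * c) (ε := e / (N + 1)) (by positivity) (by positivity)
      hi hi' fun x => by
        by_cases hx : R ≤ ‖x - y‖
        · refine le_trans ?_ (hfar _ hx)
          rw [show f x - χ x * f x = (1 - χ x) * f x by ring, abs_mul,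
            abs_of_nonneg (sub_nonneg.2 (hχ1 x))]
          exact (mul_le_of_le_one_left (abs_nonneg _) (by linarith [hχ0 x])).trans (hb x)
        · have : χ x = 1 := by
            simp only [χ]; rw [min_eq_left (by linarith), max_eq_right zero_le_one]
          rw [this, one_mul, sub_self, abs_zero]; positivity
    rw [Real.dist_eq]
    refine lt_of_le_of_lt this ?_
    rw [← hN, div_mul_eq_mul_div, div_lt_iff₀ (by positivity)]
    nlinarith

/-- weighted uniform continuity in a parameter -/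
lemma unif {X : Type} [TopologicalSpace X] {g : X → E → ℝ} {q₀ : X}
    (hg : ∀ x, ContinuousAt (fun z : X × E => g z.1 z.2) (q₀, x)) {y : E} {c B : ℝ} (hc : 0 < c)
    (hb : ∀ᶠ q in 𝓝 q₀, ∀ x, |g q x| ≤ B * Real.exp (-‖x - y‖ ^ 2 / c)) {ε : ℝ} (hε : 0 < ε) :
    ∀ᶠ q in 𝓝 q₀, ∀ x, |g q x - g q₀ x| ≤ ε * Real.exp (-‖x - y‖ ^ 2 / (2 * c)) := by
  obtain ⟨R, -, hfar⟩ := far (B := 2 * B) hc hε
  have h1 : ∀ᶠ q in 𝓝 q₀, ∀ x ∈ Metric.closedBall y R,
      |g q x - g q₀ x| < ε * Real.exp (-‖x - y‖ ^ 2 / (2 * c)) := by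
    refine (isCompact_closedBall y R).eventually_forall_of_forall_eventually fun x _ => ?_
    have c1 : ContinuousAt (fun z : X × E => g q₀ z.2) (q₀, x) :=
      ContinuousAt.comp (f := fun z : X × E => (q₀, z.2)) (g := fun z : X × E => g z.1 z.2)
        (hg x) (by fun_prop)
    refine ContinuousAt.eventually_lt (f := fun z : X × E => |g z.1 z.2 - g q₀ z.2|)
      (g := fun z : X × E => ε * Real.exp (-‖z.2 - y‖ ^ 2 / (2 * c))) ((hg x).sub c1).abs
      (by fun_prop) ?_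
    simp only [sub_self, abs_zero]; positivity
  filter_upwards [h1, hb] with q h1 h2 x
  by_cases hx : R ≤ ‖x - y‖
  · refine le_trans ?_ (hfar _ hx)
    have := hb.self_of_nhds x
    have := h2 x
    have := abs_sub (g q x) (g q₀ x)
    linarith
  · exact (h1 x (by rw [Metric.mem_closedBall, dist_eq_norm]; linarith)).le

/-- joint continuity of Gaussian-dominated slice integrals -/
lemma cont_param (hM : MuContS) {F : Mv} {I : Set ℝ} {Λ : ℝ} (hI : IsOpen I) (hF : Fl F I Λ)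
    {X : Type} [TopologicalSpace X] {g : X → E → ℝ} {τ : X → ℝ} {q₀ : X}
    (hτ : ContinuousAt τ q₀) (ht : τ q₀ ∈ I)
    (hg : ∀ x, ContinuousAt (fun z : X × E => g z.1 z.2) (q₀, x))
    (hm : ∀ᶠ q in 𝓝 q₀, Continuous (g q)) {y : E} {c B : ℝ} (hc : 0 < c)
    (hb : ∀ᶠ q in 𝓝 q₀, ∀ x, |g q x| ≤ B * Real.exp (-‖x - y‖ ^ 2 / c)) :
    ContinuousAt (fun q => ∫ x, g q x ∂F.mu (τ q)) q₀ := by
  have hΛ : 0 ≤ max Λ 0 := le_max_right _ _
  have hC := C0_nonneg
  have h1 : ContinuousAt (fun q => ∫ x, g q₀ x ∂F.mu (τ q)) q₀ :=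
    ContinuousAt.comp (g := fun t => ∫ x, g q₀ x ∂F.mu t)
      (cont_time hM hI hF hm.self_of_nhds hc hb.self_of_nhds ht) hτ
  have h2 : Tendsto (fun q => ∫ x, g q x ∂F.mu (τ q) - ∫ x, g q₀ x ∂F.mu (τ q)) (𝓝 q₀) (𝓝 0) := by
    rw [Metric.tendsto_nhds]
    intro e he
    set N : ℝ := C0 * max Λ 0 * (2 * c / 8) with hN
    have hN0 : 0 ≤ N := by positivity
    filter_upwards [unif hg hc hb (ε := e / (N + 1)) (by positivity), hm, hb] with q a1 a2 a3
    have hr := rat_of_AR hF.ar (τ q)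
    have := diff_le hΛ hr (c := 2 * c) (by positivity) (by positivity)
      (int_dom hΛ hr hc a2.aestronglyMeasurable a3)
      (int_dom hΛ hr hc hm.self_of_nhds.aestronglyMeasurable hb.self_of_nhds) a1
    rw [Real.dist_eq, sub_zero]
    refine lt_of_le_of_lt this ?_
    rw [← hN, div_mul_eq_mul_div, div_lt_iff₀ (by positivity)]
    nlinarith
  have := h2.add h1
  simpa [ContinuousAt] using this

/-- a Gaussian with nearby centre and scale is dominated by a fixed one -/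
lemma gau_dom {y y₀ : E} {s s₀ : ℝ} (hs₀ : 0 < s₀) (h1 : s₀ / 2 ≤ s) (h2 : s ≤ 2 * s₀)
    (hy : ‖y - y₀‖ ^ 2 ≤ 8 * s₀) (x : E) :
    |gau y s x| ≤ (2 * Real.pi * s₀)⁻¹ * Real.exp 1 * Real.exp (-‖x - y₀‖ ^ 2 / (16 * s₀)) := by
  have hs : 0 < s := by linarith
  have hpi := Real.pi_pos
  rw [abs_of_pos (gau_pos y hs x), mul_assoc, ← Real.exp_add]
  unfold gau
  refine mul_le_mul (inv_anti₀ (by positivity) (by nlinarith)) (Real.exp_le_exp.2 ?_)
    (Real.exp_pos _).le (by positivity)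
  have h3 : ‖x - y₀‖ ≤ ‖x - y‖ + ‖y - y₀‖ := norm_sub_le_norm_sub_add_norm_sub x y y₀
  have h4 : ‖x - y₀‖ ^ 2 ≤ 2 * ‖x - y‖ ^ 2 + 2 * ‖y - y₀‖ ^ 2 := by
    have : ‖x - y₀‖ ^ 2 ≤ (‖x - y‖ + ‖y - y₀‖) ^ 2 := by gcongr
    nlinarith [sq_nonneg (‖x - y‖ - ‖y - y₀‖)]
  have h5 : ‖x - y‖ ^ 2 / (8 * s₀) ≤ ‖x - y‖ ^ 2 / (4 * s) :=
    div_le_div_of_nonneg_left (by positivity) (by positivity) (by linarith)
  have h6 : ‖x - y₀‖ ^ 2 / (16 * s₀) ≤ ‖x - y‖ ^ 2 / (8 * s₀) + 1 := by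
    rw [div_add_one (by positivity), div_le_div_iff₀ (by positivity) (by positivity)]
    nlinarith
  rw [neg_div, neg_div]; linarith

end Gau

theorem fsContS_of (hM : MuContS) : FsContS := by
  rintro F I Λ hI hF ⟨t, y, s⟩ ⟨ht, -, hs⟩
  have hs : 0 < s := hs
  refine ContinuousAt.continuousWithinAt ?_
  refine Gau.cont_param hM hI hF (g := fun q : ℝ × E × ℝ => gau q.2.1 q.2.2) (τ := fun q => q.1)
    continuousAt_fst ht (fun x => ?_) (Eventually.of_forall fun q => Gau.gau_cont _ _) (y := y)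
    (c := 16 * s) (B := (2 * Real.pi * s)⁻¹ * Real.exp 1) (by positivity) ?_
  · have hpi := Real.pi_pos
    unfold gau
    refine ContinuousAt.mul (ContinuousAt.inv₀ (by fun_prop) (by positivity))
      (Real.continuous_exp.continuousAt.comp (ContinuousAt.div (by fun_prop) (by fun_prop)
        (by positivity)))
  · have e1 : ∀ᶠ q : ℝ × E × ℝ in 𝓝 (t, y, s), s / 2 < q.2.2 :=
      ContinuousAt.eventually_lt (f := fun _ => s / 2) continuousAt_const (by fun_prop)
        (by simp only; linarith)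
    have e2 : ∀ᶠ q : ℝ × E × ℝ in 𝓝 (t, y, s), q.2.2 < 2 * s :=
      ContinuousAt.eventually_lt (g := fun _ => 2 * s) (by fun_prop) continuousAt_const
        (by simp only; linarith)
    have e3 : ∀ᶠ q : ℝ × E × ℝ in 𝓝 (t, y, s), ‖q.2.1 - y‖ ^ 2 < 8 * s :=
      ContinuousAt.eventually_lt (g := fun _ => 8 * s) (by fun_prop) continuousAt_const
        (by simp; linarith)
    filter_upwards [e1, e2, e3] with q a1 a2 a3 x
    exact Gau.gau_dom hs a1.le a2.le a3.le x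

end Crest.Agent.N250

end
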