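import Crest.Agent.N250.T.Stm
import Crest.Agent.N250.Tr.Base

/-!
# Row 250 (helper15): reach, part 1 — Taylor expansion, `ReachAS`, `ReachPosS`
-/

set_option autoImplicit false
open MeasureTheory Set Filter Topology
open scoped ContDiff InnerProductSpace
open Crest.GeometryTopology.MCF

noncomputable section

namespace Crest.Agent.N250.Rch

open Tr

theorem dist_iff {x y n : E} (hn : ‖n‖ = 1) {ρ : ℝ} (hρ : 0 < ρ) :
    (ρ ≤ dist y (x + ρ • n) ∧ ρ ≤ dist y (x - ρ • n)) ↔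
      2 * ρ * |⟪n, y - x⟫_ℝ| ≤ ‖y - x‖ ^ 2 := by
  have e1 : dist y (x + ρ • n) ^ 2 = ‖y - x‖ ^ 2 - 2 * ρ * ⟪n, y - x⟫_ℝ + ρ ^ 2 := by
    rw [dist_eq_norm, show y - (x + ρ • n) = (y - x) - ρ • n by abel, norm_sub_sq_real,
      inner_smul_right, real_inner_comm, norm_smul, hn, Real.norm_eq_abs, mul_one, sq_abs]
    ring
  have e2 : dist y (x - ρ • n) ^ 2 = ‖y - x‖ ^ 2 + 2 * ρ * ⟪n, y - x⟫_ℝ + ρ ^ 2 := by
    rw [dist_eq_norm, show y - (x - ρ • n) = (y - x) + ρ • n by abel, norm_add_sq_real,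
      inner_smul_right, real_inner_comm, norm_smul, hn, Real.norm_eq_abs, mul_one, sq_abs]
    ring
  rw [← pow_le_pow_iff_left₀ hρ.le dist_nonneg two_ne_zero,
    ← pow_le_pow_iff_left₀ hρ.le (dist_nonneg (x := y) (y := x - ρ • n)) two_ne_zero, e1, e2]
  have h1 := mul_le_mul_of_nonneg_left (le_abs_self ⟪n, y - x⟫_ℝ) hρ.le
  have h2 := mul_le_mul_of_nonneg_left (neg_abs_le ⟪n, y - x⟫_ℝ) hρ.le
  constructor
  · rintro ⟨a, b⟩
    rcases abs_cases ⟪n, y - x⟫_ℝ with ⟨h, -⟩ | ⟨h, -⟩ <;> rw [h] <;> linarith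
  · intro H
    constructor <;> linarith

theorem reach_iff {F : Mv} {p : ST} (hn : ‖F.n p‖ = 1) {ρ : ℝ} (hρ : 0 < ρ) :
    F.Reach p ρ ↔ ∀ y ∈ F.sl p.2, 2 * ρ * |⟪F.n p, y - p.1⟫_ℝ| ≤ ‖y - p.1‖ ^ 2 :=
  forall₂_congr fun _ _ => dist_iff hn hρ

theorem reach_nonpos (F : Mv) (p : ST) {ρ : ℝ} (hρ : ρ ≤ 0) : F.Reach p ρ :=
  fun _ _ => ⟨hρ.trans dist_nonneg, hρ.trans dist_nonneg⟩

/-- far points never obstruct -/
theorem far_ok {n h : E} (hn : ‖n‖ = 1) {ρ : ℝ} (hρ : 0 < ρ) (hh : 2 * ρ ≤ ‖h‖) :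
    2 * ρ * |⟪n, h⟫_ℝ| ≤ ‖h‖ ^ 2 := by
  have := abs_real_inner_le_norm n h
  rw [hn, one_mul] at this
  nlinarith [norm_nonneg h, abs_nonneg ⟪n, h⟫_ℝ]

theorem reach_mono {F : Mv} {p : ST} (hn : ‖F.n p‖ = 1) {ρ ρ' : ℝ} (h : F.Reach p ρ)
    (hle : ρ' ≤ ρ) : F.Reach p ρ' := by
  rcases le_or_gt ρ' 0 with h0 | h0
  · exact reach_nonpos F p h0
  rw [reach_iff hn (h0.trans_le hle)] at h
  rw [reach_iff hn h0]
  intro y hy
  have := h y hy
  nlinarith [abs_nonneg ⟪F.n p, y - p.1⟫_ℝ]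

/-- second order Taylor formula with a uniform error -/
theorem taylor2 {X : Type} [NormedAddCommGroup X] [NormedSpace ℝ X] {φ : X → ℝ} {S : Set X}
    (hS : Convex ℝ S) (hφ : ∀ z ∈ S, ContDiffAt ℝ 2 φ z)
    {B : X →L[ℝ] X →L[ℝ] ℝ} {ε : ℝ} (hε : 0 ≤ ε)
    (hB' : ∀ z ∈ S, ∀ v w, |iteratedFDeriv ℝ 2 φ z ![v, w] - B v w| ≤ ε * ‖v‖ * ‖w‖)
    {p q : X} (hp : p ∈ S) (hq : q ∈ S) :
    |φ q - φ p - fderiv ℝ φ p (q - p) - B (q - p) (q - p) / 2| ≤ ε * ‖q - p‖ ^ 2 := by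
  have hB : ∀ z ∈ S, ‖fderiv ℝ (fderiv ℝ φ) z - B‖ ≤ ε := fun z hz =>
    ContinuousLinearMap.opNorm_le_bound₂ _ hε fun v w => by
      simpa [iteratedFDeriv_two_apply] using hB' z hz v w
  have h1 : ∀ z ∈ S, ‖(fderiv ℝ φ z - B z) - (fderiv ℝ φ p - B p)‖ ≤ ε * ‖z - p‖ := by
    intro z hz
    refine hS.norm_image_sub_le_of_norm_hasFDerivWithin_le
      (f := fun z => fderiv ℝ φ z - B z) (f' := fun z => fderiv ℝ (fderiv ℝ φ) z - B)
      (fun w hw => ?_) hB hp hz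
    exact ((((hφ w hw).fderiv_right (m := 1) (by norm_num)).differentiableAt
      one_ne_zero).hasFDerivAt.sub B.hasFDerivAt).hasFDerivWithinAt
  set h := q - p with hh
  have hm : ∀ s ∈ Icc (0 : ℝ) 1, p + s • h ∈ S := fun s hs => hS.add_smul_sub_mem hp hq hs
  have h2 := norm_image_sub_le_of_norm_deriv_le_segment_01'
    (f := fun s : ℝ => φ (p + s • h) - s * fderiv ℝ φ p h - s ^ 2 * (B h h / 2))
    (f' := fun s : ℝ => fderiv ℝ φ (p + s • h) h - fderiv ℝ φ p h - s * B h h)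
    (C := ε * ‖h‖ ^ 2) (fun s hs => ?_) (fun s hs => ?_)
  · simp only [one_smul, zero_smul, add_zero, hh, add_sub_cancel] at h2
    rw [Real.norm_eq_abs] at h2
    convert h2 using 2
    ring
  · have a1 : HasDerivAt (fun s : ℝ => p + s • h) h s := by
      simpa using ((hasDerivAt_id s).smul_const h).const_add p
    have a2 := ((hφ _ (hm s hs)).differentiableAt (by norm_num)).hasFDerivAt.comp_hasDerivAt s a1
    have a3 := ((hasDerivAt_id s).mul_const (fderiv ℝ φ p h))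
    have a4 := ((hasDerivAt_pow 2 s).mul_const (B h h / 2))
    refine ((a2.sub a3).sub a4).hasDerivWithinAt.congr_deriv ?_
    simp
    ring
  · have b1 := h1 _ (hm s (Ico_subset_Icc_self hs))
    have b2 := ((fderiv ℝ φ (p + s • h) - B (p + s • h)) - (fderiv ℝ φ p - B p)).le_opNorm h
    have b3 : ‖p + s • h - p‖ ≤ ‖h‖ := by
      rw [add_sub_cancel_left, norm_smul, Real.norm_eq_abs, abs_of_nonneg hs.1]
      nlinarith [norm_nonneg h, hs.2]
    have b4 : ((fderiv ℝ φ (p + s • h) - B (p + s • h)) - (fderiv ℝ φ p - B p)) h =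
        fderiv ℝ φ (p + s • h) h - fderiv ℝ φ p h - s * B h h := by
      simp
      ring
    rw [b4] at b2
    refine b2.trans ?_
    have := mul_le_mul_of_nonneg_right (b1.trans (mul_le_mul_of_nonneg_left b3 hε)) (norm_nonneg h)
    nlinarith

theorem ml_le {X : Type} [NormedAddCommGroup X] [NormedSpace ℝ X] {φ : X → ℝ} {p : X}
    {m : X [×2]→L[ℝ] ℝ} {ε : ℝ} (h : dist m (iteratedFDeriv ℝ 2 φ p) ≤ ε) (v w : X) :
    |m ![v, w] - fderiv ℝ (fderiv ℝ φ) p v w| ≤ ε * ‖v‖ * ‖w‖ := by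
  have h1 := (m - iteratedFDeriv ℝ 2 φ p).le_opNorm ![v, w]
  rw [dist_eq_norm] at h
  simp only [sub_apply, iteratedFDeriv_two_apply, Fin.prod_univ_two,
    Matrix.cons_val_zero, Matrix.cons_val_one, Real.norm_eq_abs] at h1
  refine h1.trans ?_
  rw [mul_assoc]
  gcongr

/-- a ball on which `φ` is `C²` and the Hessian oscillates by at most `ε` -/
theorem exists_ball {X : Type} [NormedAddCommGroup X] [NormedSpace ℝ X] {φ : X → ℝ} {p : X}
    (hφ : ContDiffAt ℝ 2 φ p) {ε : ℝ} (hε : 0 < ε) :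
    ∃ δ, 0 < δ ∧ ∀ z ∈ Metric.ball p δ, ContDiffAt ℝ 2 φ z ∧
      dist (iteratedFDeriv ℝ 2 φ z) (iteratedFDeriv ℝ 2 φ p) ≤ ε := by
  have h1 : ContinuousAt (iteratedFDeriv ℝ 2 φ) p :=
    (hφ.iteratedFDeriv_right (m := 0) (i := 2) (by norm_num)).continuousAt
  have h2 := (Metric.tendsto_nhds.1 h1.tendsto ε hε).and (hφ.eventually (by simp))
  obtain ⟨δ, hδ, h3⟩ := Metric.eventually_nhds_iff_ball.1 h2
  exact ⟨δ, hδ, fun z hz => ⟨(h3 z hz).2, (h3 z hz).1.le⟩⟩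

/-- values along the parabola `x + s u + τ s² n` -/
theorem parab {φ : ST → ℝ} {p : ST} (hφ : ContDiffAt ℝ 2 φ p) (h0 : φ p = 0) {n u : E}
    (hu : fderiv ℝ φ p (u, 0) = 0) (τ : ℝ) :
    Tendsto (fun s : ℝ => φ (p + s • ((u + (τ * s) • n, 0) : ST)) / s ^ 2) (𝓝[>] 0)
      (𝓝 (τ * fderiv ℝ φ p (n, 0) + fderiv ℝ (fderiv ℝ φ) p (u, 0) (u, 0) / 2)) := by
  set B := fderiv ℝ (fderiv ℝ φ) p with hB
  set k : ℝ → ST := fun s => (u + (τ * s) • n, 0) with hk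
  have hkc : Continuous k := by fun_prop
  have hk0 : k 0 = (u, 0) := by simp [hk]
  have hkt : Tendsto k (𝓝[>] 0) (𝓝 (u, 0)) := by
    rw [← hk0]; exact hkc.continuousAt.tendsto.mono_left nhdsWithin_le_nhds
  have t1 : Tendsto (fun s => τ * fderiv ℝ φ p (n, 0) + B (k s) (k s) / 2) (𝓝[>] 0)
      (𝓝 (τ * fderiv ℝ φ p (n, 0) + B (u, 0) (u, 0) / 2)) := by
    have : Continuous fun w : ST => τ * fderiv ℝ φ p (n, 0) + B w w / 2 := by fun_prop
    exact (this.tendsto _).comp hkt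
  have t2 : Tendsto (fun s => φ (p + s • k s) / s ^ 2 -
      (τ * fderiv ℝ φ p (n, 0) + B (k s) (k s) / 2)) (𝓝[>] 0) (𝓝 0) := by
    rw [Metric.tendsto_nhds]
    intro ε hε
    set L := ‖((u, 0) : ST)‖ + 1 with hL
    have hL0 : 0 < L := by positivity
    obtain ⟨δ, hδ, hb⟩ := exists_ball hφ (ε := ε / (2 * L ^ 2)) (by positivity)
    have e1 : ∀ᶠ s in 𝓝[>] (0 : ℝ), p + s • k s ∈ Metric.ball p δ := by
      have : Continuous fun s : ℝ => p + s • k s := by fun_prop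
      refine (this.tendsto 0).mono_left nhdsWithin_le_nhds ?_
      simpa using Metric.ball_mem_nhds p hδ
    have e2 : ∀ᶠ s in 𝓝[>] (0 : ℝ), ‖k s‖ < L := hkt.norm.eventually (gt_mem_nhds (by linarith))
    filter_upwards [e1, e2, self_mem_nhdsWithin] with s a1 a2 a3
    have a3 : 0 < s := a3
    have a4 := taylor2 (convex_ball p δ) (fun z hz => (hb z hz).1) (B := B) (by positivity)
      (fun z hz => ml_le (hb z hz).2) (Metric.mem_ball_self hδ) a1
    have a5 : fderiv ℝ φ p (k s) = τ * s * fderiv ℝ φ p (n, 0) := by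
      have : k s = ((u, 0) : ST) + (τ * s) • ((n, 0) : ST) := by simp [hk]
      rw [this, map_add, map_smul, hu, zero_add, smul_eq_mul]
    simp only [add_sub_cancel_left, h0, sub_zero, map_smul, smul_apply,
      smul_eq_mul, a5, norm_smul, Real.norm_eq_abs, mul_pow, sq_abs] at a4
    rw [Real.dist_eq, sub_zero]
    have a6 : φ (p + s • k s) / s ^ 2 - (τ * fderiv ℝ φ p (n, 0) + B (k s) (k s) / 2) =
        (φ (p + s • k s) - s * (τ * s * fderiv ℝ φ p (n, 0)) - s * (s * B (k s) (k s)) / 2) /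
          s ^ 2 := by
      field_simp
      ring
    rw [a6, abs_div, abs_of_pos (pow_pos a3 2), div_lt_iff₀ (pow_pos a3 2)]
    refine a4.trans_lt ?_
    have a7 : ‖k s‖ ^ 2 ≤ L ^ 2 := pow_le_pow_left₀ (norm_nonneg _) a2.le 2
    have a8 : ε / (2 * L ^ 2) * (s ^ 2 * ‖k s‖ ^ 2) ≤ ε / (2 * L ^ 2) * (s ^ 2 * L ^ 2) := by
      gcongr
    refine a8.trans_lt ?_
    have : ε / (2 * L ^ 2) * (s ^ 2 * L ^ 2) = ε * s ^ 2 / 2 := by field_simp
    rw [this]
    have := mul_pos hε (pow_pos a3 2)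
    linarith
  simpa only [sub_add_cancel, zero_add] using t2.add t1

/-- one-sided Hessian bound from a touching ball -/
theorem key {φ : ST → ℝ} {p : ST} (hφ : ContDiffAt ℝ 2 φ p) (h0 : φ p = 0) {n u : E} {c ρ : ℝ}
    (hn : ‖n‖ = 1) (hc : 0 < c) (hd : ∀ v, fderiv ℝ φ p (v, 0) = c * ⟪n, v⟫_ℝ)
    (hu : ⟪n, u⟫_ℝ = 0) (hρ : 0 < ρ)
    (hR : ∀ᶠ q in 𝓝 p, φ q = 0 → q.2 = p.2 → 2 * ρ * |⟪n, q.1 - p.1⟫_ℝ| ≤ ‖q.1 - p.1‖ ^ 2) :
    fderiv ℝ (fderiv ℝ φ) p (u, 0) (u, 0) ≤ c * ‖u‖ ^ 2 / ρ := by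
  set b := fderiv ℝ (fderiv ℝ φ) p (u, 0) (u, 0) with hb
  by_contra hcon
  rw [not_le, div_lt_iff₀ hρ] at hcon
  have hnn : ⟪n, n⟫_ℝ = 1 := by rw [real_inner_self_eq_norm_sq, hn]; norm_num
  have hu' : fderiv ℝ φ p (u, 0) = 0 := by rw [hd, hu, mul_zero]
  have hlt : ‖u‖ ^ 2 / (2 * ρ) < b / (2 * c) := by
    rw [div_lt_div_iff₀ (by positivity) (by positivity)]
    nlinarith
  obtain ⟨a, ha1, ha2⟩ := exists_between hlt
  set β := b / (2 * c) + 1 with hβ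
  have ha0 : 0 < a := lt_of_le_of_lt (by positivity) ha1
  have haβ : a < β := by linarith
  have f1 : 0 < -a * fderiv ℝ φ p (n, 0) + b / 2 := by
    rw [hd, hnn]
    rw [lt_div_iff₀ (by positivity)] at ha2
    linarith
  have f2 : -β * fderiv ℝ φ p (n, 0) + b / 2 < 0 := by
    rw [hd, hnn, hβ]
    have : b / (2 * c) * c = b / 2 := by field_simp
    linarith
  have e1 := (parab hφ h0 (n := n) hu' (-a)).eventually (lt_mem_nhds f1)
  have e2 := (parab hφ h0 (n := n) hu' (-β)).eventually (gt_mem_nhds f2)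
  obtain ⟨δ, hδ, hball⟩ := Metric.eventually_nhds_iff_ball.1
    (hR.and (hφ.eventually (by simp)))
  have e3 : ∀ τ : ℝ, ∀ᶠ s in 𝓝[>] (0 : ℝ),
      p + s • ((u + (τ * s) • n, 0) : ST) ∈ Metric.ball p δ := by
    intro τ
    have : Continuous fun s : ℝ => p + s • ((u + (τ * s) • n, 0) : ST) := by fun_prop
    refine (this.tendsto 0).mono_left nhdsWithin_le_nhds ?_
    simpa using Metric.ball_mem_nhds p hδ
  have e4 : ∀ᶠ s in 𝓝[>] (0 : ℝ), β ^ 2 * s ^ 2 < 2 * ρ * a - ‖u‖ ^ 2 := by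
    have : Continuous fun s : ℝ => β ^ 2 * s ^ 2 := by fun_prop
    refine ((this.tendsto 0).mono_left nhdsWithin_le_nhds).eventually (gt_mem_nhds ?_)
    rw [div_lt_iff₀ (by positivity)] at ha1
    simp only [ne_eq, OfNat.ofNat_ne_zero, not_false_eq_true, zero_pow, mul_zero]
    linarith
  obtain ⟨s, a1, a2, a3, a4, a5, a6⟩ :=
    (e1.and (e2.and ((e3 (-a)).and ((e3 (-β)).and (e4.and self_mem_nhdsWithin))))).exists
  have a6 : 0 < s := a6
  have hs2 := pow_pos a6 2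
  set γ : ℝ → ST := fun τ => p + s • ((u + (τ * s) • n, 0) : ST) with hγ
  have hin : ∀ τ ∈ Icc (-β) (-a), γ τ ∈ Metric.ball p δ := by
    intro τ hτ
    obtain ⟨θ, hθ, rfl⟩ : ∃ θ ∈ Icc (0 : ℝ) 1, τ = -β + θ * (β - a) :=
      ⟨(τ + β) / (β - a), ⟨div_nonneg (by linarith [hτ.1]) (by linarith),
        (div_le_one (by linarith)).2 (by linarith [hτ.2])⟩, by
          have : β - a ≠ 0 := by linarith
          field_simp
          ring⟩
    have := (convex_ball p δ).add_smul_sub_mem a4 a3 hθ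
    convert this using 1
    refine Prod.ext ?_ (by simp [hγ])
    simp only [hγ, Prod.fst_add, Prod.smul_fst, Prod.fst_sub]
    module
  have hcont : ContinuousOn (fun τ => φ (γ τ)) (Icc (-β) (-a)) := fun τ hτ =>
    (ContinuousAt.comp (g := φ) (hball _ (hin τ hτ)).2.continuousAt
      (by fun_prop : Continuous γ).continuousAt).continuousWithinAt
  obtain ⟨τ, hτ, hz⟩ := intermediate_value_Icc (by linarith : -β ≤ -a) hcont
    (show (0 : ℝ) ∈ _ from ⟨((div_neg_iff.1 a2).resolve_left fun h => by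
      linarith [h.2]).1.le, ((div_pos_iff_of_pos_right hs2).1 a1).le⟩)
  have h1 := (hball _ (hin τ hτ)).1 hz (by simp [hγ])
  have h2 : (γ τ).1 - p.1 = s • (u + (τ * s) • n) := by simp [hγ]
  have h3 : ‖u + (τ * s) • n‖ ^ 2 = ‖u‖ ^ 2 + τ ^ 2 * s ^ 2 := by
    rw [norm_add_sq_real, inner_smul_right, real_inner_comm, hu, norm_smul, hn, Real.norm_eq_abs,
      mul_one, sq_abs]
    ring
  rw [h2, norm_smul, mul_pow, h3, inner_smul_right, inner_add_right, inner_smul_right, hu, hnn,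
    Real.norm_eq_abs, sq_abs, abs_of_neg (by nlinarith [hτ.2])] at h1
  have h4 : τ ^ 2 ≤ β ^ 2 := by nlinarith [hτ.1, hτ.2]
  have h5 : 2 * ρ * (-τ) ≤ ‖u‖ ^ 2 + τ ^ 2 * s ^ 2 := by
    refine le_of_mul_le_mul_left ?_ hs2
    nlinarith
  nlinarith [hτ.2]

variable {F : Mv} {W : Set ST} {φ : ST → ℝ} {p : ST}

theorem loc_two (h : F.Loc W φ) (hp : p ∈ W) : ContDiffAt ℝ 2 φ p :=
  contDiffAt_infty.1 (loc_at h hp) 2

theorem loc_unit (h : F.Loc W φ) (hp : p ∈ W) (hM : p ∈ F.M) : ‖F.n p‖ = 1 := by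
  rw [h.n_eq p hp hM, norm_smul, norm_inv, norm_norm]
  exact inv_mul_cancel₀ (norm_ne_zero_iff.2 (h.ne p hp))

theorem loc_fd (h : F.Loc W φ) (hp : p ∈ W) (hM : p ∈ F.M) (v : E) :
    fderiv ℝ φ p (v, 0) = ‖gradX φ p.1 p.2‖ * ⟪F.n p, v⟫_ℝ := by
  rw [fd_sp (loc_diff h hp), h.n_eq p hp hM, inner_smul_left]
  have := norm_ne_zero_iff.2 (h.ne p hp)
  simp only [conj_trivial]
  field_simp

/-- the Hessian of a defining function on tangent vectors is bounded by the reach -/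
theorem hess_le (h : F.Loc W φ) (hp : p ∈ W) (hM : p ∈ F.M) {ρ : ℝ} (hρ : 0 < ρ)
    (hR : F.Reach p ρ) {u : E} (hu : ⟪F.n p, u⟫_ℝ = 0) :
    |fderiv ℝ (fderiv ℝ φ) p (u, 0) (u, 0)| ≤ ‖gradX φ p.1 p.2‖ * ‖u‖ ^ 2 / ρ := by
  have hn := loc_unit h hp hM
  have hc := norm_pos_iff.2 (h.ne p hp)
  have h0 := (h.mem p hp).1 hM
  have hE : ∀ᶠ q in 𝓝 p, φ q = 0 → q.2 = p.2 →
      2 * ρ * |⟪F.n p, q.1 - p.1⟫_ℝ| ≤ ‖q.1 - p.1‖ ^ 2 := by
    filter_upwards [h.isOpen.mem_nhds hp] with q hq a b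
    refine (reach_iff hn hρ).1 hR q.1 ?_
    change (q.1, p.2) ∈ F.M
    rw [← b]
    exact (h.mem q hq).2 a
  refine abs_le.2 ⟨?_, key (loc_two h hp) h0 hn hc (loc_fd h hp hM) hu hρ hE⟩
  have := key (φ := fun q => -φ q) (n := -F.n p) (u := u) (loc_two h hp).neg (by simp [h0])
    (by simpa using hn) hc (fun v => by simp [fderiv_fun_neg, loc_fd h hp hM]) (by simp [hu]) hρ
    (by simpa using hE)
  have e : fderiv ℝ (fun q => -φ q) = fun q => -fderiv ℝ φ q := funext fun q => fderiv_fun_neg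
  rw [e, fderiv_fun_neg] at this
  simp only [neg_apply] at this
  linarith

theorem loc_grad (h : F.Loc W φ) (hp : p ∈ W) :
    DifferentiableAt ℝ (fun q : ST => gradX φ q.1 q.2) p := by
  have h1 : ContDiffAt ℝ ∞ (fun q : ST => (InnerProductSpace.toDual ℝ E).symm
      ((fderiv ℝ φ q).comp (ContinuousLinearMap.inl ℝ E ℝ))) p :=
    (InnerProductSpace.toDual ℝ E).symm.contDiff.contDiffAt.comp p
      (((loc_at h hp).fderiv_right (m := ∞) (by simp)).clm_comp contDiffAt_const)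
  refine (h1.differentiableAt (by simp)).congr_of_eventuallyEq ?_
  filter_upwards [h.isOpen.mem_nhds hp] with q hq
  apply ext_inner_right ℝ
  intro v
  rw [← fd_sp (loc_diff h hq)]
  simp [InnerProductSpace.toDual_symm_apply]

/-- the second fundamental form through a defining function -/
theorem A_eq (hF : F.Reg) (h : F.Loc W φ) (hp : p ∈ W) (hM : p ∈ F.M) (v w : E) :
    ‖gradX φ p.1 p.2‖ * ∑ a, ∑ b, F.A a b p * (v a * w b) =
      fderiv ℝ (fderiv ℝ φ) p (F.PL p v, 0) (F.PL p w, 0) := by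
  set g : ST → E := fun q => gradX φ q.1 q.2 with hg
  have hg0 := h.ne p hp
  have dg : HasFDerivAt g (fderiv ℝ g p) p := (loc_grad h hp).hasFDerivAt
  have dr : DifferentiableAt ℝ (fun q => ‖g q‖) p := dg.differentiableAt.norm ℝ hg0
  set N : ST → E := fun q => ‖g q‖⁻¹ • g q with hN
  have dN : HasFDerivAt N (fderiv ℝ N p) p :=
    ((dr.inv (norm_ne_zero_iff.2 hg0)).smul dg.differentiableAt).hasFDerivAt
  have hNp : N p = F.n p := (h.n_eq p hp hM).symm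
  set z : ST := (F.PL p v, 0) with hz
  have e1 : ∀ b, F.td (F.nu b) p z = fderiv ℝ N p z b := by
    intro b
    have := ((EuclideanSpace.proj b : E →L[ℝ] ℝ).hasFDerivAt.comp p dN).hasFDerivWithinAt
      (s := F.M)
    refine td_eq (this.congr_of_eventuallyEq ?_ (by simp [Mv.nu, hNp])) (PL_mem hF hM v)
    filter_upwards [self_mem_nhdsWithin, mem_nhdsWithin_of_mem_nhds (h.isOpen.mem_nhds hp)]
      with q a c
    simp [Mv.nu, h.n_eq q c a, hN, hg]
  have e2 : ∑ a, ∑ b, F.A a b p * (v a * w b) = ⟪w, fderiv ℝ N p z⟫_ℝ := by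
    rw [Finset.sum_comm, PiLp.inner_apply]
    refine Finset.sum_congr rfl fun b _ => ?_
    rw [← e1, hz, td_PL, inner_sum]
    refine Finset.sum_congr rfl fun a _ => ?_
    simp [Mv.A]
    ring
  have hne : ∀ᶠ q in 𝓝 p, ‖g q‖ ≠ 0 := by
    filter_upwards [h.isOpen.mem_nhds hp] with q hq using norm_ne_zero_iff.2 (h.ne q hq)
  have e3 : ⟪F.n p, fderiv ℝ N p z⟫_ℝ = 0 := by
    have a1 := dN.inner ℝ dN
    have a2 : HasFDerivAt (fun q => ⟪N q, N q⟫_ℝ) (0 : ST →L[ℝ] ℝ) p := by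
      refine (hasFDerivAt_const (1 : ℝ) p).congr_of_eventuallyEq ?_
      filter_upwards [hne] with q hq
      rw [real_inner_self_eq_norm_sq, hN, norm_smul, norm_inv, norm_norm, inv_mul_cancel₀ hq]
      norm_num
    have a3 := congrArg (fun L : ST →L[ℝ] ℝ => L z) (a1.unique a2)
    simp only [ContinuousLinearMap.comp_apply, ContinuousLinearMap.prod_apply, fderivInnerCLM_apply,
      zero_apply, hNp] at a3
    rw [real_inner_comm (F.n p)] at a3
    linarith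
  have e4 : ‖g p‖ • fderiv ℝ N p z + fderiv ℝ (fun q => ‖g q‖) p z • F.n p = fderiv ℝ g p z := by
    have a1 := dr.hasFDerivAt.smul dN
    have a2 : HasFDerivAt ((fun q => ‖g q‖) • N) (fderiv ℝ g p) p := by
      refine dg.congr_of_eventuallyEq ?_
      filter_upwards [hne] with q hq
      simp [hN, smul_smul, mul_inv_cancel₀ hq]
    simpa [hNp] using congrArg (fun L : ST →L[ℝ] E => L z) (a1.unique a2)
  have e5 : ∀ y : E, ⟪y, fderiv ℝ g p z⟫_ℝ = fderiv ℝ (fderiv ℝ φ) p z (y, 0) := by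
    intro y
    have a1 := (innerSL ℝ y).hasFDerivAt.comp p dg
    have a0 := (((loc_two h hp).fderiv_right (m := 1) (by norm_num)).differentiableAt
      one_ne_zero).hasFDerivAt
    have a2 := (ContinuousLinearMap.apply ℝ ℝ ((y, 0) : ST)).hasFDerivAt.comp p a0
    have a3 := a1.unique (a2.congr_of_eventuallyEq (by
      filter_upwards [h.isOpen.mem_nhds hp] with q hq
      simp [hg, fd_sp (loc_diff h hq), real_inner_comm]))
    simpa using congrArg (fun L : ST →L[ℝ] ℝ => L z) a3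
  rw [e2, ← e5, ← e4, inner_add_right, inner_smul_right, inner_smul_right,
    real_inner_comm (F.n p), n_PL hF hM, Mv.PL, inner_sub_left, inner_smul_left, e3]
  simp [hg]

theorem norm_PL (hn : ‖F.n p‖ = 1) (v : E) :
    ‖F.PL p v‖ ^ 2 = ‖v‖ ^ 2 - ⟪F.n p, v⟫_ℝ ^ 2 := by
  rw [Mv.PL, norm_sub_sq_real, inner_smul_right, norm_smul, hn, real_inner_comm, mul_one,
    Real.norm_eq_abs, sq_abs]
  ring

theorem A_symm (hF : F.Reg) (hM : p ∈ F.M) (a b : Fin 3) : F.A a b p = F.A b a p := by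
  obtain ⟨W, φ, hp, h⟩ := hF p hM
  have e : ∀ a b, ∑ c, ∑ d, F.A c d p * (ee a c * ee b d) = F.A a b p := by
    intro a b
    simp [ee]
  have h1 := A_eq hF h hp hM (ee a) (ee b)
  have h2 := A_eq hF h hp hM (ee b) (ee a)
  rw [e, ((loc_two h hp).isSymmSndFDerivAt (by simp)).eq, ← h2, e] at h1
  exact mul_left_cancel₀ (norm_ne_zero_iff.2 (h.ne p hp)) h1

theorem A_le (hF : F.Reg) (hM : p ∈ F.M) {ρ : ℝ} (hρ : 0 < ρ) (hR : F.Reach p ρ)
    (v : Fin 3 → ℝ) : ρ * |∑ a, ∑ b, F.A a b p * (v a * v b)| ≤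
      (∑ a, v a ^ 2) - (∑ a, F.n p a * v a) ^ 2 := by
  obtain ⟨W, φ, hp, h⟩ := hF p hM
  have hc := norm_pos_iff.2 (h.ne p hp)
  have h1 := hess_le h hp hM hρ hR (n_PL hF hM (WithLp.toLp 2 v))
  rw [← A_eq hF h hp hM, abs_mul, abs_of_pos hc, mul_div_assoc, mul_le_mul_iff_right₀ hc,
    le_div_iff₀' hρ, norm_PL (n_unit hF hM), EuclideanSpace.real_norm_sq_eq,
    PiLp.inner_apply] at h1
  simpa [mul_comm] using h1

theorem alg {A : Fin 3 → Fin 3 → ℝ} {n : Fin 3 → ℝ} {ρ : ℝ} (hρ : 0 < ρ)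
    (hs : ∀ a b, A a b = A b a) (hn : ∑ a, n a ^ 2 = 1)
    (h : ∀ v : Fin 3 → ℝ, ρ * |∑ a, ∑ b, A a b * (v a * v b)| ≤
      (∑ a, v a ^ 2) - (∑ a, n a * v a) ^ 2) :
    ∑ a, ∑ b, A a b * A a b ≤ 2 / ρ ^ 2 := by
  have h1 : ∀ e z : Fin 3 → ℝ, 2 * ρ * ∑ a, ∑ b, A a b * (e a * z b) ≤
      (∑ a, e a ^ 2) - (∑ a, n a * e a) ^ 2 + ∑ a, z a ^ 2 := by
    intro e z
    have a1 := (mul_le_mul_of_nonneg_left (le_abs_self _) hρ.le).trans (h (e + z))
    have a2 := (mul_le_mul_of_nonneg_left (neg_le_abs _) hρ.le).trans (h (e - z))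
    simp only [Fin.sum_univ_three, Pi.add_apply, Pi.sub_apply, hs 1 0, hs 2 0, hs 2 1] at a1 a2 ⊢
    nlinarith [sq_nonneg (n 0 * z 0 + n 1 * z 1 + n 2 * z 2)]
  have h2 : ∀ a, ρ ^ 2 * ∑ b, A a b * A a b ≤ 1 - n a ^ 2 := by
    intro a
    have := h1 (Pi.single a 1) (fun b => ρ * A a b)
    simp only [Pi.single_apply, ite_mul, mul_ite, one_mul, zero_mul, mul_zero, mul_one, ite_pow,
      one_pow, ne_eq, OfNat.ofNat_ne_zero, not_false_eq_true, zero_pow, Finset.sum_ite_irrel,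
      Finset.sum_const_zero, Finset.sum_ite_eq', Finset.mem_univ, if_true] at this
    simp only [Fin.sum_univ_three] at this ⊢
    nlinarith
  rw [le_div_iff₀' (pow_pos hρ 2), Finset.mul_sum]
  refine (Finset.sum_le_sum fun a _ => h2 a).trans ?_
  simp only [Fin.sum_univ_three] at hn ⊢
  linarith

end Crest.Agent.N250.Rch

namespace Crest.Agent.N250

open Rch Tr

theorem reachAS_holds : ReachAS := by
  intro F hF p hM ρ hρ hR
  refine ⟨fun v => ?_, ?_⟩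
  · rw [le_div_iff₀' hρ]
    exact (A_le hF hM hρ hR v).trans (sub_le_self _ (sq_nonneg _))
  · have hn : ∑ a, F.n p a ^ 2 = 1 := by
      rw [← EuclideanSpace.real_norm_sq_eq, n_unit hF hM, one_pow]
    simpa [Mv.A2, Finset.sum_apply] using
      alg (A := fun a b => F.A a b p) hρ (A_symm hF hM) hn (A_le hF hM hρ hR)

theorem reachPosS_holds : ReachPosS := by
  intro F hF Ω K _ hP hK hKΩ
  refine hK.induction_on (p := fun S => ∃ ρ, 0 < ρ ∧ ∀ p ∈ F.M ∩ S, F.Reach p ρ)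
    ⟨1, one_pos, by simp⟩ ?_ ?_ ?_
  · rintro S T hST ⟨ρ, h1, h2⟩
    exact ⟨ρ, h1, fun p hp => h2 p ⟨hp.1, hST hp.2⟩⟩
  · rintro S T ⟨ρ, h1, h2⟩ ⟨ρ', h3, h4⟩
    refine ⟨min ρ ρ', lt_min h1 h3, fun p hp => hp.2.elim (fun h => ?_) fun h => ?_⟩
    · exact reach_mono (n_unit hF hp.1) (h2 p ⟨hp.1, h⟩) (min_le_left _ _)
    · exact reach_mono (n_unit hF hp.1) (h4 p ⟨hp.1, h⟩) (min_le_right _ _)
  · intro p₀ hp₀
    by_cases hM : p₀ ∈ F.M
    swap
    · have : (closure F.M)ᶜ ∈ 𝓝 p₀ :=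
        isClosed_closure.isOpen_compl.mem_nhds fun h => hM (hP p₀ h (hKΩ hp₀))
      exact ⟨_, mem_nhdsWithin_of_mem_nhds this, 1, one_pos,
        fun p hp => absurd (subset_closure hp.1) hp.2⟩
    obtain ⟨W, φ, hp, h⟩ := hF p₀ hM
    obtain ⟨δ, hδ, hb⟩ := exists_ball (loc_two h hp) one_pos
    set c := ‖gradX φ p₀.1 p₀.2‖ with hc
    have hc0 : 0 < c := norm_pos_iff.2 (h.ne p₀ hp)
    obtain ⟨δ', hδ', hb'⟩ := Metric.eventually_nhds_iff_ball.1
      (((loc_grad h hp).continuousAt.norm.eventually (lt_mem_nhds (half_lt_self hc0))).and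
        (h.isOpen.eventually_mem hp))
    set L := ‖iteratedFDeriv ℝ 2 φ p₀‖ + 1 with hL
    have hL0 : 0 < L := by positivity
    set d := min δ δ' with hd
    have hd0 : 0 < d := lt_min hδ hδ'
    refine ⟨Metric.ball p₀ (d / 2), mem_nhdsWithin_of_mem_nhds (Metric.ball_mem_nhds _
      (half_pos hd0)), min (d / 4) (c / (4 * L)), by positivity, fun p hq => ?_⟩
    have hn := n_unit hF hq.1
    set ρ := min (d / 4) (c / (4 * L)) with hρ
    have hρ0 : 0 < ρ := by positivity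
    rw [reach_iff hn hρ0]
    intro y hy
    rcases le_or_gt (2 * ρ) ‖y - p.1‖ with hfar | hnear
    · exact far_ok hn hρ0 hfar
    have hpd : p ∈ Metric.ball p₀ d := Metric.ball_subset_ball (half_le_self hd0.le) hq.2
    have e1 : ((y, p.2) : ST) - p = (y - p.1, 0) := Prod.ext rfl (sub_self _)
    have e2 : ‖((y - p.1, 0) : ST)‖ = ‖y - p.1‖ := by simp
    have hyd : ((y, p.2) : ST) ∈ Metric.ball p₀ d := by
      have a1 := dist_triangle ((y, p.2) : ST) p p₀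
      rw [dist_eq_norm _ p, e1, e2] at a1
      have a2 : dist p p₀ < d / 2 := hq.2
      have a3 : ρ ≤ d / 4 := min_le_left _ _
      rw [Metric.mem_ball]
      linarith
    have s1 : Metric.ball p₀ d ⊆ Metric.ball p₀ δ := Metric.ball_subset_ball (min_le_left _ _)
    have s2 : Metric.ball p₀ d ⊆ Metric.ball p₀ δ' := Metric.ball_subset_ball (min_le_right _ _)
    have t := taylor2 (convex_ball p₀ d) (fun z hz => (hb z (s1 hz)).1) (B := 0) hL0.le
      (fun z hz v w => ?_) hpd hyd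
    · have hpW := (hb' p (s2 hpd)).2
      rw [(h.mem _ (hb' _ (s2 hyd)).2).1 hy, (h.mem _ hpW).1 hq.1, e1, e2,
        loc_fd h hpW hq.1] at t
      simp only [zero_apply, zero_div, sub_zero, zero_sub, abs_neg, abs_mul, abs_norm] at t
      have a1 : c / 2 < ‖gradX φ p.1 p.2‖ := (hb' p (s2 hpd)).1
      have a2 : ρ * (4 * L) ≤ c := (le_div_iff₀ (by positivity)).1 (min_le_right _ _)
      refine le_of_mul_le_mul_left ?_ hL0
      nlinarith [abs_nonneg ⟪F.n p, y - p.1⟫_ℝ]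
    · have a1 := (iteratedFDeriv ℝ 2 φ z).le_opNorm ![v, w]
      have a2 := (hb z (s1 hz)).2
      rw [dist_eq_norm] at a2
      have a3 := norm_le_norm_add_norm_sub' (iteratedFDeriv ℝ 2 φ z) (iteratedFDeriv ℝ 2 φ p₀)
      simp only [Fin.prod_univ_two, Matrix.cons_val_zero, Matrix.cons_val_one,
        Real.norm_eq_abs] at a1
      simp only [zero_apply, sub_zero]
      refine a1.trans ?_
      rw [mul_assoc]
      gcongr
      linarith

end Crest.Agent.N250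

end
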