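import Crest.Agent.N250.T.CMu1

/-!
# Row 250 (helper13): `ConvMuS`
-/

set_option autoImplicit false
open MeasureTheory Set Filter Topology Function Metric
open scoped ContDiff InnerProductSpace
open Crest.GeometryTopology.MCF

noncomputable section

namespace Crest.Agent.N250

namespace CMu

open Tr FV Cv

/-- gluing of an additive property of cutoffs -/
theorem glue {P : (E → ℝ) → Prop} (h0 : P fun _ => 0)
    (hadd : ∀ a b, P a → P b → P fun x => a x + b x) {K : Set E} (hK : IsCompact K)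
    (h : ∀ x ∈ K, ∃ O : Set E, IsOpen O ∧ x ∈ O ∧
      ∀ χ : E → ℝ, Continuous χ → ∀ C ⊆ O, IsCompact C → (∀ x ∉ C, χ x = 0) → P χ) :
    ∃ O : Set E, IsOpen O ∧ K ⊆ O ∧
      ∀ χ : E → ℝ, Continuous χ → ∀ C ⊆ O, IsCompact C → (∀ x ∉ C, χ x = 0) → P χ := by
  refine hK.induction_on (p := fun S => ∃ O : Set E, IsOpen O ∧ S ⊆ O ∧
      ∀ χ : E → ℝ, Continuous χ → ∀ C ⊆ O, IsCompact C → (∀ x ∉ C, χ x = 0) → P χ)
    ⟨∅, isOpen_empty, Subset.rfl, fun χ _ C hC _ hz => ?_⟩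
    (fun s t hst ⟨O, a, b, c⟩ => ⟨O, a, hst.trans b, c⟩)
    (fun s t ⟨O, a, b, c⟩ ⟨O', a', b', c'⟩ => ⟨O ∪ O', a.union a', union_subset_union b b',
      fun χ hχ C hC hc hz => ?_⟩) fun x hx => ?_
  · rw [show χ = fun _ => 0 from funext fun x => hz x fun hx => hC hx]
    exact h0
  · obtain ⟨C1, C2, k1, k2, s1, s2, rfl⟩ := hc.binary_compact_cover a a' hC
    obtain ⟨D, kD, hD, sD⟩ := exists_compact_between k1 a s1
    obtain ⟨ψ, e1, e0, -, -⟩ := exists_continuous_one_zero_of_isCompact k1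
      isOpen_interior.isClosed_compl (disjoint_compl_right_iff_subset.2 hD)
    have := hadd _ _ (c (fun x => χ x * ψ x) (by fun_prop) D sD kD fun x hx => by
        rw [e0 fun h => hx (interior_subset h)]; simp)
      (c' (fun x => χ x * (1 - ψ x)) (by fun_prop) C2 s2 k2 fun x hx => by
        by_cases h1 : x ∈ C1
        · rw [e1 h1]; simp
        · rw [hz x fun h => h.elim h1 hx]; simp)
    convert this using 2 with x
    ring
  · obtain ⟨O, a, b, c⟩ := h x hx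
    exact ⟨O, mem_nhdsWithin_of_mem_nhds (a.mem_nhds b), O, a, Subset.rfl, c⟩

variable {α : Type} {l : Filter α} {F : Mv} {Fk : α → Mv} {g : Jt → ℝ} {tk : α → ℝ} {t : ℝ}

theorem ae_zero {O : Set E} (hO : IsOpen O) (hd : ∀ x ∈ O, (x, t) ∉ F.M) {u : E → ℝ}
    (hu : ∀ x ∉ O, u x = 0) : u =ᵐ[F.mu t] 0 := by
  refine measure_mono_null (t := O) (fun x hx => by_contra fun h => hx (hu x h)) ?_
  rw [Mv.mu, Measure.restrict_apply hO.measurableSet,
    show O ∩ F.sl t = ∅ from eq_empty_of_forall_notMem fun x hx => hd x hx.1 hx.2, measure_empty]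

theorem ok_away [l.NeBot] {Ω : Set ST} (hΩ : IsOpen Ω) (H : Conv l Fk F Ω) {p : ST} (hp : p ∈ Ω)
    (hM : p ∉ F.M) (ht : Tendsto tk l (𝓝 p.2)) : ∃ O : Set E, IsOpen O ∧ p.1 ∈ O ∧
      ∀ χ : E → ℝ, Continuous χ → ∀ C ⊆ O, IsCompact C → (∀ x ∉ C, χ x = 0) →
        Ok l Fk F g tk p.2 χ := by
  obtain ⟨U, hU, hd⟩ := H.away p hp hM
  obtain ⟨ε, hε, hb⟩ := Metric.mem_nhds_iff.1 (inter_mem hU (hΩ.mem_nhds hp))
  have hin : ∀ x ∈ ball p.1 ε, ∀ s ∈ ball p.2 ε, (x, s) ∈ ball p ε := fun x hx s hs => by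
    rw [← ball_prod_same]; exact ⟨hx, hs⟩
  refine ⟨ball p.1 ε, isOpen_ball, mem_ball_self hε, fun χ _ C hC _ h0 => ?_⟩
  have hz : ∀ (G : E → ℝ), ∀ x ∉ ball p.1 ε, χ x * G x = 0 := fun G x hx => by
    rw [h0 x fun h => hx (hC h), zero_mul]
  have e1 : ∀ᶠ k in l, (fun x => χ x * Gi g (Fk k) (tk k) x) =ᵐ[(Fk k).mu (tk k)] 0 := by
    filter_upwards [hd, ht.eventually (ball_mem_nhds _ hε)] with k a b
    exact ae_zero isOpen_ball (fun x hx => disjoint_left.1 a (hb (hin x hx _ b)).1) (hz _)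
  have e2 : (fun x => χ x * Gi g F p.2 x) =ᵐ[F.mu p.2] 0 := by
    refine ae_zero isOpen_ball (fun x hx hxM => ?_) (hz _)
    have hx' := hin x hx _ (mem_ball_self hε)
    obtain ⟨W, φ, φk, hW, h, hk, htl⟩ := H.near _ (hb hx').2 hxM
    obtain ⟨xk, h1, h2⟩ := exists_pts h hk htl hW hxM ht
    obtain ⟨k, a, b, c⟩ := (hd.and (h2.and
      ((h1.prodMk_nhds ht).eventually (isOpen_ball.mem_nhds hx')))).exists
    exact disjoint_left.1 a (hb c).1 b
  refine ⟨e1.mono fun k a => (integrable_zero _ _ _).congr a.symm,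
    (integrable_zero _ _ _).congr e2.symm, ?_⟩
  rw [integral_eq_zero_of_ae e2]
  exact tendsto_const_nhds.congr' (e1.mono fun k a => (integral_eq_zero_of_ae a).symm)

theorem Ok.add {a b : E → ℝ} (ha : Ok l Fk F g tk t a) (hb : Ok l Fk F g tk t b) :
    Ok l Fk F g tk t fun x => a x + b x := by
  refine ⟨?_, ?_, ?_⟩ <;> simp only [add_mul]
  · filter_upwards [ha.ik, hb.ik] with k u v using u.add v
  · exact ha.i.add hb.i
  · rw [integral_add ha.i hb.i]
    refine (ha.lim.add hb.lim).congr' ?_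
    filter_upwards [ha.ik, hb.ik] with k u v using (integral_add u v).symm

/-- `ConvMuS` together with the integrability of the integrands -/
theorem ok_one [l.NeBot] {Ω K : Set ST} (hΩ : IsOpen Ω) (H : Conv l Fk F Ω) (hK : IsCompact K)
    (hKΩ : K ⊆ Ω) (hg : Continuous g) (h0 : ∀ q, q.1 ∉ K → g q = 0) (ht : Tendsto tk l (𝓝 t)) :
    Ok l Fk F g tk t fun _ => 1 := by
  have hKt : IsCompact (Prod.fst '' (K ∩ {q | q.2 = t})) :=
    (hK.inter_right (isClosed_eq continuous_snd continuous_const)).image continuous_fst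
  obtain ⟨O, hO, hs, hP⟩ := glue (P := Ok l Fk F g tk t)
    ⟨by simp, by simp, by simp⟩ (fun _ _ => Ok.add) hKt (by
      rintro _ ⟨p, ⟨hp, rfl⟩, rfl⟩
      by_cases hM : p ∈ F.M
      · obtain ⟨W, φ, φk, hW, h, hk, htl⟩ := H.near p (hKΩ hp) hM
        exact ok_near hg ⟨h, hk, htl⟩ hW hM ht
      · exact ok_away hΩ H (hKΩ hp) hM ht)
  obtain ⟨D, kD, hD, sD⟩ := exists_compact_between hKt hO hs
  obtain ⟨D', kD', hD', sD'⟩ := exists_compact_between hKt isOpen_interior hD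
  obtain ⟨ψ, e1, e0, -, -⟩ := exists_continuous_one_zero_of_isCompact kD'
    isOpen_interior.isClosed_compl (disjoint_compl_right_iff_subset.2 sD')
  have k := hP ψ ψ.continuous D sD kD fun x hx => e0 fun h => hx (interior_subset h)
  have key : ∀ (G : Mv) (s : ℝ), (∀ x, (x, s) ∈ K → x ∈ interior D') →
      (fun x => ψ x * Gi g G s x) = fun x => 1 * Gi g G s x := fun G s hs => funext fun x => by
    by_cases hx : (x, s) ∈ K
    · rw [e1 (interior_subset (hs x hx))]; rfl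
    · rw [show Gi g G s x = 0 from h0 _ hx, mul_zero, mul_zero]
  have e2 := key F t fun x hx => hD' ⟨_, ⟨hx, rfl⟩, rfl⟩
  have hcl : IsClosed (Prod.snd '' (K ∩ {q | q.1 ∉ interior D'})) :=
    ((hK.inter_right (isOpen_interior.isClosed_compl.preimage continuous_fst)).image
      continuous_snd).isClosed
  have e3 : ∀ᶠ j in l, (fun x => ψ x * Gi g (Fk j) (tk j) x) =
      fun x => 1 * Gi g (Fk j) (tk j) x := by
    filter_upwards [ht.eventually (hcl.isOpen_compl.mem_nhds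
      (by rintro ⟨q, ⟨a, b⟩, rfl⟩; exact b (hD' ⟨q, ⟨a, rfl⟩, rfl⟩)))] with j a
    exact key _ _ fun x hx => by_contra fun h => a ⟨_, ⟨hx, h⟩, rfl⟩
  refine ⟨?_, e2 ▸ k.i, ?_⟩
  · filter_upwards [k.ik, e3] with j a b using b ▸ a
  · rw [← e2]
    exact k.lim.congr' (e3.mono fun j a => by simp only [a])

end CMu

theorem convMuS_holds : ConvMuS := by
  intro α l Fk F Ω K hΩ H hK hKΩ g hg h0 tk t ht
  rcases l.eq_or_neBot with rfl | hl
  · exact tendsto_bot
  simpa only [one_mul, CMu.Gi] using (CMu.ok_one hΩ H hK hKΩ hg h0 ht).lim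

end Crest.Agent.N250

end
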