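import Crest.Agent.N250.T.Reach

/-!
# Row 250 (helper15): reach, part 2 — `ConvReachS`
-/

set_option autoImplicit false
open MeasureTheory Set Filter Topology
open scoped ContDiff InnerProductSpace
open Crest.GeometryTopology.MCF

noncomputable section

namespace Crest.Agent.N250.Rch

open Tr

variable {α : Type} {l : Filter α} {Fk : α → Mv} {F : Mv} {Ω W : Set ST} {φ : ST → ℝ}
  {φk : α → ST → ℝ} {pk : α → ST} {p : ST}

theorem conv_mono {l' : Filter α} (h : Conv l Fk F Ω) (hl : l' ≤ l) : Conv l' Fk F Ω where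
  away p hp hM := let ⟨U, hU, h1⟩ := h.away p hp hM; ⟨U, hU, hl h1⟩
  near p hp hM := by
    obtain ⟨W, φ, φk, h1, h2, h3, h4⟩ := h.near p hp hM
    refine ⟨W, φ, φk, h1, h2, hl h3, fun m u hu x hx => ?_⟩
    obtain ⟨t, ht, h5⟩ := h4 m u hu x hx
    exact ⟨t, ht, hl h5⟩

theorem conv_mem [l.NeBot] (h : Conv l Fk F Ω) (hp : p ∈ Ω) (ht : Tendsto pk l (𝓝 p))
    (hM : ∀ᶠ k in l, pk k ∈ (Fk k).M) : p ∈ F.M := by
  by_contra hn
  obtain ⟨U, hU, h1⟩ := h.away p hp hn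
  obtain ⟨k, a, b, c⟩ := (h1.and (hM.and (ht hU))).exists
  exact Set.disjoint_left.1 a c b

theorem jet_tendsto (h : F.Loc W φ) (hp : p ∈ W) {m : ℕ}
    (hc : TendstoLocallyUniformlyOn (fun k => iteratedFDeriv ℝ m (φk k)) (iteratedFDeriv ℝ m φ) l W)
    (ht : Tendsto pk l (𝓝 p)) (v : Fin m → ST) :
    Tendsto (fun k => iteratedFDeriv ℝ m (φk k) (pk k) v) l (𝓝 (iteratedFDeriv ℝ m φ p v)) := by
  have h1 : ContinuousAt (iteratedFDeriv ℝ m φ) p :=
    ((contDiffAt_infty.1 (loc_at h hp) m).iteratedFDeriv_right (m := 0) (i := m)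
      (by simp)).continuousAt
  have h2 := hc.tendsto_comp h1.continuousWithinAt hp
    (by rwa [nhdsWithin_eq_nhds.2 (h.isOpen.mem_nhds hp)])
  exact ((ContinuousMultilinearMap.apply ℝ (fun _ : Fin m => ST) ℝ v).continuous.tendsto _).comp h2

theorem grad_tendsto (h : F.Loc W φ) (hp : p ∈ W) (hk : ∀ᶠ k in l, (Fk k).Loc W (φk k))
    (hc : TendstoLocallyUniformlyOn (fun k => iteratedFDeriv ℝ 1 (φk k)) (iteratedFDeriv ℝ 1 φ) l W)
    (ht : Tendsto pk l (𝓝 p)) :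
    Tendsto (fun k => gradX (φk k) (pk k).1 (pk k).2) l (𝓝 (gradX φ p.1 p.2)) := by
  have e : ∀ {G : Mv} {ψ : ST → ℝ} {q : ST}, G.Loc W ψ → q ∈ W → gradX ψ q.1 q.2 =
      ∑ a, iteratedFDeriv ℝ 1 ψ q (fun _ => (ee a, 0)) • ee a := by
    intro G ψ q hG hq
    simp only [iteratedFDeriv_one_apply, fd_sp (loc_diff hG hq)]
    ext i
    simp [ee, Fin.sum_univ_three, EuclideanSpace.inner_single_right]
    fin_cases i <;> simp
  rw [e h hp]
  refine (tendsto_finsetSum _ fun a _ => (jet_tendsto h hp hc ht _).smul_const (ee a)).congr' ?_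
  filter_upwards [hk, ht (h.isOpen.mem_nhds hp)] with k a b using (e a b).symm

theorem n_tendsto (h : F.Loc W φ) (hp : p ∈ W) (hM : p ∈ F.M)
    (hk : ∀ᶠ k in l, (Fk k).Loc W (φk k))
    (hc : TendstoLocallyUniformlyOn (fun k => iteratedFDeriv ℝ 1 (φk k)) (iteratedFDeriv ℝ 1 φ) l W)
    (ht : Tendsto pk l (𝓝 p)) (hMk : ∀ᶠ k in l, pk k ∈ (Fk k).M) :
    Tendsto (fun k => (Fk k).n (pk k)) l (𝓝 (F.n p)) := by
  have h1 := grad_tendsto h hp hk hc ht
  rw [h.n_eq p hp hM]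
  refine ((h1.norm.inv₀ (norm_ne_zero_iff.2 (h.ne p hp))).smul h1).congr' ?_
  filter_upwards [hk, ht (h.isOpen.mem_nhds hp), hMk] with k a b c using (a.n_eq _ b c).symm

/-- points of the limit are approximated in the slices -/
theorem approx (h : Conv l Fk F Ω) (hp : p ∈ Ω) (hM : p ∈ F.M) {tk : α → ℝ}
    (ht : Tendsto tk l (𝓝 p.2)) {U : Set E} (hU : U ∈ 𝓝 p.1) :
    ∀ᶠ k in l, ∃ y ∈ U, y ∈ (Fk k).sl (tk k) := by
  obtain ⟨W, φ, φk, hW, hL, hk, hc⟩ := h.near p hp hM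
  obtain ⟨δ, hδ, hb⟩ := Metric.mem_nhds_iff.1
    (inter_mem (hL.isOpen.mem_nhds hW) (continuous_fst.continuousAt.preimage_mem_nhds hU))
  have hn := loc_unit hL hW hM
  have hd : HasDerivAt (fun s : ℝ => φ (p + s • ((F.n p, 0) : ST))) ‖gradX φ p.1 p.2‖ 0 := by
    have a1 : HasDerivAt (fun s : ℝ => p + s • ((F.n p, 0) : ST)) (F.n p, 0) 0 := by
      simpa using ((hasDerivAt_id (0 : ℝ)).smul_const ((F.n p, 0) : ST)).const_add p
    have a2 := (loc_diff hL hW).hasFDerivAt.comp_hasDerivAt_of_eq (0 : ℝ) a1 (by simp)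
    rwa [loc_fd hL hW hM, real_inner_self_eq_norm_sq, hn, one_pow, mul_one] at a2
  have hc0 := norm_pos_iff.2 (hL.ne p hW)
  have h0 : φ p = 0 := (hL.mem p hW).1 hM
  have e1 := (hasDerivAt_iff_tendsto_slope_zero.1 hd).eventually (lt_mem_nhds hc0)
  simp only [zero_add, zero_smul, add_zero, h0, sub_zero, smul_eq_mul] at e1
  obtain ⟨η, hη, e2⟩ := Metric.eventually_nhds_iff.1 (eventually_nhdsWithin_iff.1 e1)
  set s := min η δ / 2 with hs
  have hs0 : 0 < s := half_pos (lt_min hη hδ)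
  have hs1 : s < η := (half_lt_self (lt_min hη hδ)).trans_le (min_le_left _ _)
  have hs2 : s < δ := (half_lt_self (lt_min hη hδ)).trans_le (min_le_right _ _)
  have hball : ∀ σ t, |σ| ≤ s → dist t p.2 < δ → ((p.1 + σ • F.n p, t) : ST) ∈ Metric.ball p δ := by
    intro σ t a b
    rw [Metric.mem_ball, Prod.dist_eq]
    refine max_lt ?_ b
    simp only [dist_self_add_left, norm_smul, hn, Real.norm_eq_abs, mul_one]
    exact a.trans_lt hs2
  have hval : ∀ σ, |σ| ≤ s → Tendsto (fun k => φk k (p.1 + σ • F.n p, tk k)) l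
      (𝓝 (φ (p + σ • ((F.n p, 0) : ST)))) := by
    intro σ a
    have := jet_tendsto hL (hb (hball σ p.2 a (by simpa))).1 (hc 0)
      (tendsto_const_nhds.prodMk_nhds ht) 0
    simp only [iteratedFDeriv_zero_apply] at this
    convert this using 3
    exact Prod.ext rfl (by simp)
  have p1 : 0 < φ (p + s • ((F.n p, 0) : ST)) :=
    (pos_iff_pos_of_mul_pos (e2 (y := s) (by simpa [abs_of_pos hs0]) hs0.ne')).1 (inv_pos.2 hs0)
  have p2 : φ (p + (-s) • ((F.n p, 0) : ST)) < 0 :=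
    (neg_iff_neg_of_mul_pos (e2 (y := -s) (by simpa [abs_of_pos hs0])
      (neg_ne_zero.2 hs0.ne'))).1 (inv_lt_zero.2 (neg_neg_of_pos hs0))
  filter_upwards [hk, (hval s (abs_of_pos hs0).le).eventually (lt_mem_nhds p1),
    (hval (-s) (by simp [abs_of_pos hs0])).eventually (gt_mem_nhds p2),
    Metric.tendsto_nhds.1 ht δ hδ] with k a1 a2 a3 a4
  have hcont : ContinuousOn (fun σ : ℝ => φk k (p.1 + σ • F.n p, tk k)) (Icc (-s) s) :=
    fun σ hσ => (ContinuousAt.comp (g := φk k)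
      (f := fun σ : ℝ => ((p.1 + σ • F.n p, tk k) : ST))
      (loc_diff a1 (hb (hball σ _ (abs_le.2 hσ) a4)).1).continuousAt
      (by fun_prop)).continuousWithinAt
  obtain ⟨σ, hσ, hz⟩ := intermediate_value_Icc (by linarith : -s ≤ s) hcont
    (show (0 : ℝ) ∈ _ from ⟨a3.le, a2.le⟩)
  have := hb (hball σ _ (abs_le.2 hσ) a4)
  exact ⟨_, this.2, (a1.mem _ this.1).2 hz⟩

/-- uniform Taylor formula along the sequence -/
theorem taylor_ev (h : F.Loc W φ) (hp : p ∈ W) (hk : ∀ᶠ k in l, (Fk k).Loc W (φk k))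
    (hc : TendstoLocallyUniformlyOn (fun k => iteratedFDeriv ℝ 2 (φk k)) (iteratedFDeriv ℝ 2 φ) l W)
    {ε : ℝ} (hε : 0 < ε) : ∃ δ, 0 < δ ∧ Metric.ball p δ ⊆ W ∧ ∀ᶠ k in l,
      ∀ q ∈ Metric.ball p δ, ∀ q' ∈ Metric.ball p δ, |φk k q' - φk k q - fderiv ℝ (φk k) q (q' - q) -
        fderiv ℝ (fderiv ℝ φ) p (q' - q) (q' - q) / 2| ≤ ε * ‖q' - q‖ ^ 2 := by
  obtain ⟨δ, hδ, hb⟩ := exists_ball (loc_two h hp) (half_pos hε)
  obtain ⟨T, hT, h1⟩ := Metric.tendstoLocallyUniformlyOn_iff.1 hc _ (half_pos hε) p hp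
  rw [nhdsWithin_eq_nhds.2 (h.isOpen.mem_nhds hp)] at hT
  obtain ⟨δ', hδ', hb'⟩ := Metric.mem_nhds_iff.1
    (inter_mem (inter_mem hT (h.isOpen.mem_nhds hp)) (Metric.ball_mem_nhds p hδ))
  refine ⟨δ', hδ', fun z hz => (hb' hz).1.2, ?_⟩
  filter_upwards [hk, h1] with k a1 a2 q hq q' hq'
  refine taylor2 (convex_ball p δ') (fun z hz => loc_two a1 (hb' hz).1.2) hε.le
    (fun z hz => ml_le ?_) hq hq'
  have b1 := a2 z (hb' hz).1.1
  have b2 := (hb z (hb' hz).2).2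
  have b3 := dist_triangle_left (iteratedFDeriv ℝ 2 (φk k) z) (iteratedFDeriv ℝ 2 φ p)
    (iteratedFDeriv ℝ 2 φ z)
  linarith

/-- no short chords violate the reach -/
theorem short {l : Ultrafilter α} (h : F.Loc W φ) (hp : p ∈ W) (hM : p ∈ F.M)
    (hk : ∀ᶠ k in l, (Fk k).Loc W (φk k))
    (hc : ∀ m : ℕ, TendstoLocallyUniformlyOn (fun k => iteratedFDeriv ℝ m (φk k))
      (iteratedFDeriv ℝ m φ) l W)
    (ht : Tendsto pk l (𝓝 p)) (hMk : ∀ᶠ k in l, pk k ∈ (Fk k).M) {ρ ρ' : ℝ} (h0 : 0 < ρ')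
    (hlt : ρ' < ρ) (hR : F.Reach p ρ) {yk : α → E} (hy : Tendsto yk l (𝓝 p.1))
    (hyk : ∀ᶠ k in l, yk k ∈ (Fk k).sl (pk k).2 ∧
      ‖yk k - (pk k).1‖ ^ 2 < 2 * ρ' * |⟪(Fk k).n (pk k), yk k - (pk k).1⟫_ℝ|) : False := by
  set B := fderiv ℝ (fderiv ℝ φ) p with hB
  set c := ‖gradX φ p.1 p.2‖ with hc'
  have hc0 : 0 < c := norm_pos_iff.2 (h.ne p hp)
  have tn := n_tendsto h hp hM hk (hc 1) ht hMk
  have tc := (grad_tendsto h hp hk (hc 1) ht).norm
  set sk : α → ℝ := fun k => ‖yk k - (pk k).1‖ with hsk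
  set uk : α → E := fun k => (sk k)⁻¹ • (yk k - (pk k).1) with huk
  have ts : Tendsto sk l (𝓝 0) := by
    simpa using (hy.sub ((continuous_fst.tendsto p).comp ht)).norm
  have hs0 : ∀ᶠ k in l, 0 < sk k := by
    filter_upwards [hyk] with k a
    refine norm_pos_iff.2 fun e => ?_
    simp [e] at a
  have hu1 : ∀ᶠ k in l, uk k ∈ Metric.sphere (0 : E) 1 := by
    filter_upwards [hs0] with k a
    rw [mem_sphere_zero_iff_norm, huk, norm_smul, norm_inv, Real.norm_of_nonneg a.le]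
    exact inv_mul_cancel₀ a.ne'
  obtain ⟨u, hu, tu⟩ := (isCompact_sphere (0 : E) 1).ultrafilter_le_nhds' (l.map uk) hu1
  have tu : Tendsto uk l (𝓝 u) := tu
  rw [mem_sphere_zero_iff_norm] at hu
  have hsu : ∀ᶠ k in l, yk k - (pk k).1 = sk k • uk k := by
    filter_upwards [hs0] with k a
    rw [huk, smul_smul, mul_inv_cancel₀ a.ne', one_smul]
  set qk : α → ℝ := fun k => ⟪(Fk k).n (pk k), uk k⟫_ℝ / sk k with hqk
  have tB : Tendsto (fun k => B (uk k, 0) (uk k, 0) / 2) l (𝓝 (B (u, 0) (u, 0) / 2)) := by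
    have : Continuous fun w : E => B (w, 0) (w, 0) / 2 := by fun_prop
    exact (this.tendsto u).comp tu
  have tq : Tendsto (fun k => ‖gradX (φk k) (pk k).1 (pk k).2‖ * qk k +
      B (uk k, 0) (uk k, 0) / 2) l (𝓝 0) := by
    rw [Metric.tendsto_nhds]
    intro ε hε
    obtain ⟨δ, hδ, hb, he⟩ := taylor_ev h hp hk (hc 2) (half_pos hε)
    have ty : Tendsto (fun k => ((yk k, (pk k).2) : ST)) l (𝓝 p) :=
      hy.prodMk_nhds ((continuous_snd.tendsto p).comp ht)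
    filter_upwards [he, ht (Metric.ball_mem_nhds p hδ), ty (Metric.ball_mem_nhds p hδ), hk, hMk,
      hyk, hs0, hsu] with k a1 a2 a3 a4 a5 a6 a7 a8
    have b1 := a1 _ a2 _ a3
    have e1 : ((yk k, (pk k).2) : ST) - pk k = sk k • ((uk k, 0) : ST) :=
      Prod.ext a8 (by simp)
    have e2 : ‖((yk k, (pk k).2) : ST) - pk k‖ = sk k := by
      rw [show ((yk k, (pk k).2) : ST) - pk k = (yk k - (pk k).1, 0) from
        Prod.ext rfl (sub_self _)]
      simp [hsk]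
    rw [e2, e1, (a4.mem _ (hb a3)).1 a6.1, (a4.mem _ (hb a2)).1 a5] at b1
    simp only [map_smul, smul_apply, smul_eq_mul, loc_fd a4 (hb a2) a5] at b1
    rw [Real.dist_eq, sub_zero]
    have e3 : ‖gradX (φk k) (pk k).1 (pk k).2‖ * qk k + B (uk k, 0) (uk k, 0) / 2 =
        -(0 - 0 - sk k * (‖gradX (φk k) (pk k).1 (pk k).2‖ * ⟪(Fk k).n (pk k), uk k⟫_ℝ) -
          sk k * (sk k * B (uk k, 0) (uk k, 0)) / 2) / sk k ^ 2 := by
      simp only [hqk]
      field_simp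
      ring
    rw [e3, abs_div, abs_neg, abs_of_pos (pow_pos a7 2), div_lt_iff₀ (pow_pos a7 2)]
    exact b1.trans_lt (mul_lt_mul_of_pos_right (half_lt_self hε) (pow_pos a7 2))
  have tq' : Tendsto qk l (𝓝 (-(B (u, 0) (u, 0) / 2) / c)) := by
    have := (tq.sub tB).div tc hc0.ne'
    rw [zero_sub] at this
    refine this.congr' ?_
    filter_upwards [tc.eventually (lt_mem_nhds hc0)] with k a
    simp only [Pi.div_apply, add_sub_cancel_right]
    exact mul_div_cancel_left₀ _ a.ne'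
  have hnu : ⟪F.n p, u⟫_ℝ = 0 := by
    have a1 := tq'.mul ts
    rw [mul_zero] at a1
    refine tendsto_nhds_unique (tn.inner tu) (a1.congr' ?_)
    filter_upwards [hs0] with k a using div_mul_cancel₀ _ a.ne'
  have h1 : 1 ≤ 2 * ρ' * |-(B (u, 0) (u, 0) / 2) / c| := by
    refine ge_of_tendsto (tq'.abs.const_mul (2 * ρ')) ?_
    filter_upwards [hyk, hs0, hsu] with k a1 a2 a3
    have a4 := a1.2
    change sk k ^ 2 < _ at a4
    rw [a3, inner_smul_right, abs_mul, abs_of_pos a2] at a4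
    simp only [hqk]
    rw [abs_div, abs_of_pos a2, ← mul_div_assoc, le_div_iff₀ a2]
    nlinarith
  have h2 := hess_le h hp hM (h0.trans hlt) hR hnu
  rw [hu, one_pow, mul_one, le_div_iff₀ (h0.trans hlt)] at h2
  rw [abs_div, abs_neg, abs_div, abs_of_pos hc0, abs_two, ← mul_div_assoc, le_div_iff₀ hc0] at h1
  have h3 : 0 < |B (u, 0) (u, 0)| := by
    by_contra h4
    nlinarith
  nlinarith

end Crest.Agent.N250.Rch

namespace Crest.Agent.N250

open Rch Tr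

theorem convReachS_holds : ConvReachS := by
  intro α l _ Fk F Ω _ h pk p ρ hρ ht hMk hΩ
  have hp : p ∈ Ω := hΩ ⟨Metric.mem_closedBall_self (by positivity), rfl⟩
  have hM := conv_mem h hp ht hMk
  obtain ⟨W, φ, φk, hW, hL, hk, hc⟩ := h.near p hp hM
  have hn := loc_unit hL hW hM
  have tn := n_tendsto hL hW hM hk (hc 1) ht hMk
  have tx : Tendsto (fun k => (pk k).1) l (𝓝 p.1) := (continuous_fst.tendsto p).comp ht
  have tt : Tendsto (fun k => (pk k).2) l (𝓝 p.2) := (continuous_snd.tendsto p).comp ht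
  have hnk : ∀ᶠ k in l, ‖(Fk k).n (pk k)‖ = 1 := by
    filter_upwards [hk, hMk, ht (hL.isOpen.mem_nhds hW)] with k a b c using loc_unit a c b
  refine ⟨fun hR => (reach_iff hn hρ).2 fun y hy => ?_, fun hR ρ' hlt => ?_⟩
  · rcases le_or_gt (2 * ρ) ‖y - p.1‖ with hfar | hnear
    · exact far_ok hn hρ hfar
    by_contra hcon
    have t1 : Tendsto (fun z : E × α => ‖z.1 - (pk z.2).1‖ ^ 2 -
        2 * ρ * |⟪(Fk z.2).n (pk z.2), z.1 - (pk z.2).1⟫_ℝ|) (𝓝 y ×ˢ l)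
        (𝓝 (‖y - p.1‖ ^ 2 - 2 * ρ * |⟪F.n p, y - p.1⟫_ℝ|)) := by
      have a1 : Tendsto (fun z : E × α => z.1 - (pk z.2).1) (𝓝 y ×ˢ l) (𝓝 (y - p.1)) :=
        tendsto_fst.sub (tx.comp tendsto_snd)
      exact (a1.norm.pow 2).sub (((tn.comp tendsto_snd).inner a1).abs.const_mul _)
    obtain ⟨pa, ha, pb, hb, hab⟩ := eventually_prod_iff.1
      (t1.eventually (gt_mem_nhds (sub_neg.2 (not_le.1 hcon))))
    have hyΩ : ((y, p.2) : ST) ∈ Ω := hΩ ⟨by rw [mem_closedBall_iff_norm]; exact hnear.le, rfl⟩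
    obtain ⟨k, ⟨y', a1, a2⟩, a3, a4, a5⟩ :=
      ((approx h hyΩ hy tt ha).and (hb.and (hR.and hnk))).exists
    have := (reach_iff a5 hρ).1 a4 y' a2
    have := hab a1 a3
    simp only at this
    linarith
  · rcases le_or_gt ρ' 0 with h0 | h0
    · exact Eventually.of_forall fun k => reach_nonpos _ _ h0
    refine (mem_iff_ultrafilter).2 fun u hu => ?_
    by_contra hcon
    have e1 : ∀ᶠ k in u, ∃ y, y ∈ (Fk k).sl (pk k).2 ∧
        ‖y - (pk k).1‖ ^ 2 < 2 * ρ' * |⟪(Fk k).n (pk k), y - (pk k).1⟫_ℝ| := by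
      filter_upwards [Ultrafilter.compl_mem_iff_notMem.2 hcon, hu hnk] with k a b
      have a : ¬(Fk k).Reach (pk k) ρ' := a
      rw [reach_iff b h0] at a
      push Not at a
      exact a
    obtain ⟨yk, e2⟩ := e1.choice
    have e3 : ∀ᶠ k in u, yk k ∈ Metric.closedBall p.1 (2 * ρ) := by
      filter_upwards [e2, hu hnk, hu (Metric.tendsto_nhds.1 tx (2 * ρ - 2 * ρ') (by linarith))]
        with k a b c
      have d : ‖yk k - (pk k).1‖ < 2 * ρ' := not_le.1 fun e => (far_ok b h0 e).not_gt a.2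
      have := dist_triangle (yk k) (pk k).1 p.1
      rw [dist_eq_norm (yk k) (pk k).1] at this
      have c : dist (pk k).1 p.1 < 2 * ρ - 2 * ρ' := c
      rw [Metric.mem_closedBall]
      linarith
    obtain ⟨y, hy, ty⟩ := (isCompact_closedBall p.1 (2 * ρ)).ultrafilter_le_nhds' (u.map yk) e3
    have ty : Tendsto yk u (𝓝 y) := ty
    have h' := conv_mono h hu
    by_cases hyx : y = p.1
    · obtain ⟨W', φ', φk', hW', hL', hk', hc'⟩ := h'.near p hp hM
      exact short hL' hW' hM hk' hc' (ht.mono_left hu) (hu hMk) h0 hlt hR (hyx ▸ ty) e2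
    have hyM : ((y, p.2) : ST) ∈ F.M := conv_mem h' (hΩ ⟨hy, rfl⟩)
      (ty.prodMk_nhds (tt.mono_left hu)) (e2.mono fun k a => a.1)
    have a1 := ty.sub (tx.mono_left hu)
    have a2 : ‖y - p.1‖ ^ 2 ≤ 2 * ρ' * |⟪F.n p, y - p.1⟫_ℝ| :=
      le_of_tendsto_of_tendsto (a1.norm.pow 2) (((tn.mono_left hu).inner a1).abs.const_mul _)
        (e2.mono fun k a => a.2.le)
    have a3 := (reach_iff hn hρ).1 hR y hyM
    have a4 := pow_pos (norm_pos_iff.2 (sub_ne_zero.2 hyx)) 2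
    have a5 : 0 < |⟪F.n p, y - p.1⟫_ℝ| := by
      by_contra h4
      nlinarith
    nlinarith

end Crest.Agent.N250

end
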