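import Crest.Agent.N250.T.FsC
import Crest.Agent.N250.FV.Ch

/-!
# Row 250 (helper49): density one at points of a smooth moving surface (`DensS`), `ReachedS`
-/

set_option autoImplicit false
open MeasureTheory Set Filter Topology
open scoped ContDiff InnerProductSpace
open Crest.GeometryTopology.MCF
open ContinuousLinearMap (adjoint)

noncomputable section

namespace Crest.Agent.N250

namespace Gau

open FV

lemma plane_int : ∫ w : E2, (4 * Real.pi)⁻¹ * Real.exp (-‖w‖ ^ 2 / 4) = 1 := by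
  rw [integral_const_mul]
  have := GaussianFourier.integral_rexp_neg_mul_sq_norm (V := E2) (b := 1 / 4) (by norm_num)
  have e : (fun a : E2 => Real.exp (-‖a‖ ^ 2 / 4)) =
      fun a : E2 => Real.exp (-(1 / 4) * ‖a‖ ^ 2) := by
    ext a; congr 1; ring
  rw [e, this, finrank_euclideanSpace_fin]
  have hp := Real.pi_pos
  norm_num
  field_simp

lemma plane_intg : Integrable fun w : E2 => (4 * Real.pi)⁻¹ * Real.exp (-‖w‖ ^ 2 / 4) :=
  Integrable.of_integral_ne_zero (by rw [plane_int]; exact one_ne_zero)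

lemma gau_scale (y x : E) {r : ℝ} (hr : 0 < r) :
    r ^ 2 * gau y (r ^ 2) x = (4 * Real.pi)⁻¹ * Real.exp (-‖r⁻¹ • (x - y)‖ ^ 2 / 4) := by
  have hp := Real.pi_pos
  unfold gau
  rw [← mul_assoc, norm_smul, norm_inv, Real.norm_eq_abs, abs_of_pos hr]
  congr 1
  · field_simp
  · congr 1; field_simp

lemma adj_le (Li : E2 →ₗᵢ[ℝ] E) (v : E) : ‖adjoint Li.toContinuousLinearMap v‖ ≤ ‖v‖ := by
  refine (ContinuousLinearMap.le_opNorm _ v).trans (mul_le_of_le_one_left (norm_nonneg _) ?_)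
  rw [LinearIsometryEquiv.norm_map]
  exact Li.norm_toContinuousLinearMap_le

lemma jac_iso (Li : E2 →ₗᵢ[ℝ] E) : N222.jac Li.toContinuousLinearMap = 1 := by
  have : adjoint Li.toContinuousLinearMap ∘L Li.toContinuousLinearMap =
      ContinuousLinearMap.id ℝ E2 :=
    ContinuousLinearMap.ext fun v => N222.adjoint_isometry_apply Li v
  rw [N222.jac, this]
  have : (ContinuousLinearMap.id ℝ E2).det = 1 := LinearMap.det_id
  rw [this, Real.sqrt_one]

/-- a graph chart over the tangent plane -/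
lemma exists_ch2 {F : Mv} (hF : F.Reg) {y : E} {t₀ : ℝ} (hp : (y, t₀) ∈ F.M) :
    ∃ (X : E2 × ℝ → E) (U : Set (E2 × ℝ)) (W : Set ST) (L : E →L[ℝ] E2) (Li : E2 →ₗᵢ[ℝ] E),
      (y, t₀) ∈ W ∧ Ch F X U W L ∧ (∀ v, ‖L v‖ ≤ ‖v‖) ∧
      Jz X (L y, t₀) = Li.toContinuousLinearMap ∧ rho X (L y, t₀) = 1 := by
  obtain ⟨X, U, W, Li, hW, hLi, h⟩ := exists_ch' hF hp
  have hq := h.inU _ hp hW
  have hX := h.right _ hp hW
  have hJ : Jz X (adjoint Li.toContinuousLinearMap y, t₀) = Li.toContinuousLinearMap := by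
    refine ContinuousLinearMap.ext fun v => ?_
    have h1 := h.n_Jz hF hq v
    rw [Ps, hX] at h1
    obtain ⟨u, hu⟩ := (hLi _).1 h1
    have h2 := h.L_fd hq (v, 0)
    rw [← Jz_apply, ← hu, N222.adjoint_isometry_apply] at h2
    have h3 : u = v := h2
    rw [h3] at hu
    exact hu.symm
  exact ⟨X, U, W, _, Li, hW, h, adj_le Li, hJ, by rw [rho, hJ, jac_iso]⟩

/-- density one, along any curve of times tangent to the slice -/
theorem dens {F : Mv} {Λ : ℝ} (hF : F.Reg) (hA : F.AR Λ) {y : E} {t₀ : ℝ} (hp : (y, t₀) ∈ F.M)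
    {τ : ℝ → ℝ} (h0 : τ 0 = t₀) (hτ : HasDerivAt τ 0 0) :
    Tendsto (fun r => F.Fs (τ r) y (r ^ 2)) (𝓝[>] 0) (𝓝 1) := by
  obtain ⟨X, U, W, L, Li, hW, h, hLn, hJ, hρ⟩ := exists_ch2 hF hp
  have hpi := Real.pi_pos
  obtain ⟨z₀, hz₀⟩ : ∃ z₀, z₀ = L y := ⟨_, rfl⟩
  rw [← hz₀] at hJ hρ
  have hq : (z₀, t₀) ∈ U := hz₀ ▸ h.inU _ hp hW
  have hX : X (z₀, t₀) = y := hz₀ ▸ h.right _ hp hW
  have hρc : ContinuousAt (rho X) (z₀, t₀) :=
    h.smRho.continuousOn.continuousAt (h.oU.mem_nhds hq)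
  obtain ⟨δ₁, hδ₁, H1⟩ := Metric.eventually_nhds_iff_ball.1 ((h.oU.eventually_mem hq).and
    (hρc.eventually (gt_mem_nhds (show rho X (z₀, t₀) < 2 by rw [hρ]; norm_num))))
  obtain ⟨δ₂, hδ₂, H2⟩ := Metric.eventually_nhds_iff_ball.1 (h.oW.eventually_mem hW)
  set δ := min δ₁ δ₂ with hδd
  have hδ : 0 < δ := lt_min hδ₁ hδ₂
  have hτc : Tendsto τ (𝓝[>] 0) (𝓝 t₀) := h0 ▸ hτ.continuousAt.tendsto.mono_left nhdsWithin_le_nhds
  have hev : ∀ᶠ r in 𝓝[>] (0 : ℝ), 0 < r ∧ τ r ∈ Metric.ball t₀ δ :=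
    eventually_mem_nhdsWithin.and (hτc.eventually (Metric.ball_mem_nhds _ hδ))
  have K1 : ∀ z ∈ Metric.ball z₀ δ, ∀ t ∈ Metric.ball t₀ δ, (z, t) ∈ U ∧ rho X (z, t) < 2 :=
    fun z hz t ht => H1 _ (by
      rw [← ball_prod_same]
      exact ⟨Metric.ball_subset_ball (min_le_left _ _) hz,
        Metric.ball_subset_ball (min_le_left _ _) ht⟩)
  have K2 : ∀ x ∈ Metric.ball y δ, ∀ t ∈ Metric.ball t₀ δ, (x, t) ∈ W :=
    fun z hz t ht => H2 _ (by
      rw [← ball_prod_same]
      exact ⟨Metric.ball_subset_ball (min_le_right _ _) hz,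
        Metric.ball_subset_ball (min_le_right _ _) ht⟩)
  let A : Set E := L ⁻¹' Metric.ball z₀ δ
  have hAo : IsOpen A := Metric.isOpen_ball.preimage L.continuous
  let B : ℝ → Set E2 := fun r => (fun w => z₀ + r • w) ⁻¹' Metric.ball z₀ δ
  have hBo : ∀ r, IsOpen (B r) := fun r => Metric.isOpen_ball.preimage (by fun_prop)
  let k : ℝ → E2 → ℝ := fun r => (B r).indicator fun w => rho X (z₀ + r • w, τ r) *
    ((4 * Real.pi)⁻¹ * Real.exp (-‖r⁻¹ • (X (z₀ + r • w, τ r) - y)‖ ^ 2 / 4))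
  -- the main part
  have M1 : ∀ᶠ r in 𝓝[>] (0 : ℝ),
      ∫ w, k r w = ∫ x in {x | (x, τ r) ∈ W} ∩ A, gau y (r ^ 2) x ∂F.mu (τ r) := by
    filter_upwards [hev] with r ⟨hr, ht⟩
    rw [← setIntegral_indicator hAo.measurableSet, h.int,
      ← integral_indicator (h.oUt _).measurableSet]
    let G : E2 → ℝ := (Metric.ball z₀ δ).indicator fun z =>
      rho X (z, τ r) * gau y (r ^ 2) (X (z, τ r))
    have e1 : {z | (z, τ r) ∈ U}.indicator
        (fun z => rho X (z, τ r) * A.indicator (gau y (r ^ 2)) (X (z, τ r))) = G := by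
      ext z
      by_cases hz : z ∈ Metric.ball z₀ δ
      · have hU := (K1 z hz _ ht).1
        have : X (z, τ r) ∈ A := by
          change L _ ∈ Metric.ball z₀ δ
          rw [h.left _ hU]; exact hz
        simp only [G]
        rw [indicator_of_mem hz, indicator_of_mem (show z ∈ {z | (z, τ r) ∈ U} from hU),
          indicator_of_mem this]
      · simp only [G]
        rw [indicator_of_notMem hz]
        by_cases hU : z ∈ {z | (z, τ r) ∈ U}
        · have : X (z, τ r) ∉ A := by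
            change L (X (z, τ r)) ∉ Metric.ball z₀ δ
            rw [h.left _ hU]; exact hz
          rw [indicator_of_mem hU, indicator_of_notMem this, mul_zero]
        · exact indicator_of_notMem hU _
    have e2 : k r = fun w => r ^ 2 * G (z₀ + r • w) := by
      ext w
      simp only [k, G]
      by_cases hw : w ∈ B r
      · rw [indicator_of_mem hw, indicator_of_mem (show z₀ + r • w ∈ _ from hw), ← gau_scale y _ hr]
        ring
      · rw [indicator_of_notMem hw, indicator_of_notMem (show z₀ + r • w ∉ _ from hw), mul_zero]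
    rw [e1, e2, integral_const_mul,
      Measure.integral_comp_smul (μ := volume) (fun w => G (z₀ + w)) r, integral_add_left_eq_self,
      finrank_euclideanSpace_fin, abs_of_pos (by positivity), smul_eq_mul, ← mul_assoc,
      mul_inv_cancel₀ (by positivity), one_mul]
  have M2 : Tendsto (fun r => ∫ w, k r w) (𝓝[>] 0) (𝓝 1) := by
    rw [← plane_int]
    refine tendsto_integral_filter_of_dominated_convergence
      (fun w => 2 * ((4 * Real.pi)⁻¹ * Real.exp (-‖w‖ ^ 2 / 4))) ?_ ?_ (plane_intg.const_mul 2)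
      (Eventually.of_forall fun w => ?_)
    · filter_upwards [hev] with r ⟨hr, ht⟩
      rw [aestronglyMeasurable_indicator_iff (hBo r).measurableSet]
      refine ContinuousOn.aestronglyMeasurable ?_ (hBo r).measurableSet
      have hc : ContinuousOn (fun w : E2 => (z₀ + r • w, τ r)) (B r) := by fun_prop
      have hm : MapsTo (fun w : E2 => (z₀ + r • w, τ r)) (B r) U := fun w hw => (K1 _ hw _ ht).1
      have c1 := h.smRho.continuousOn.comp hc hm
      have c2 : ContinuousOn (fun w : E2 => X (z₀ + r • w, τ r)) (B r) :=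
        h.sm.continuousOn.comp hc hm
      exact c1.mul ((by fun_prop : Continuous fun v : E =>
        (4 * Real.pi)⁻¹ * Real.exp (-‖v‖ ^ 2 / 4)).comp_continuousOn
        ((c2.sub continuousOn_const).const_smul r⁻¹))
    · filter_upwards [hev] with r ⟨hr, ht⟩
      refine Eventually.of_forall fun w => ?_
      simp only [k]
      by_cases hw : w ∈ B r
      · obtain ⟨hU, h2⟩ := K1 _ hw _ ht
        have h3 := h.rho_pos hU
        rw [indicator_of_mem hw, Real.norm_eq_abs, abs_of_pos (by positivity)]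
        have h4 : ‖w‖ ≤ ‖r⁻¹ • (X (z₀ + r • w, τ r) - y)‖ := by
          refine le_trans (le_of_eq ?_) (hLn _)
          rw [map_smul, map_sub, h.left _ hU, ← hz₀, add_sub_cancel_left, smul_smul,
            inv_mul_cancel₀ hr.ne', one_smul]
        gcongr
      · rw [indicator_of_notMem hw, norm_zero]; positivity
    · have d1 : HasDerivAt (fun r : ℝ => (z₀ + r • w, τ r)) (w, 0) 0 := by
        have := ((hasDerivAt_id (0 : ℝ)).smul_const w).const_add z₀
        rw [one_smul] at this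
        exact this.prodMk hτ
      have e0 : (z₀ + (0 : ℝ) • w, τ 0) = (z₀, t₀) := by rw [h0]; simp
      have d2 : HasDerivAt (fun r : ℝ => X (z₀ + r • w, τ r)) (Li w) 0 := by
        have := (h.hasX hq).comp_hasDerivAt_of_eq 0 d1 e0.symm
        rw [← Jz_apply, hJ] at this
        exact this
      have d3 := d2.tendsto_slope_zero_right
      simp only [zero_add, e0, hX] at d3
      have d4 : Tendsto (fun r : ℝ => (z₀ + r • w, τ r)) (𝓝[>] 0) (𝓝 (z₀, t₀)) :=
        e0 ▸ d1.continuousAt.tendsto.mono_left nhdsWithin_le_nhds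
      have d5 := (hρc.tendsto.comp d4).mul
        (((by fun_prop : Continuous fun v : E =>
          (4 * Real.pi)⁻¹ * Real.exp (-‖v‖ ^ 2 / 4)).tendsto _).comp d3)
      rw [hρ, one_mul, Li.norm_map] at d5
      refine d5.congr' ?_
      filter_upwards [((continuous_fst.tendsto _).comp d4).eventually (Metric.ball_mem_nhds _ hδ)]
        with r hr
      simp only [k]
      rw [indicator_of_mem (show w ∈ B r from hr)]
      rfl
  -- the tail
  have hΛ : 0 ≤ max Λ 0 := le_max_right _ _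
  have T1 : Tendsto (fun r : ℝ => C0 * max Λ 0 * Real.exp (-(δ * r⁻¹) ^ 2 / 8)) (𝓝[>] 0)
      (𝓝 0) := by
    suffices H : Tendsto (fun r : ℝ => Real.exp (-(δ * r⁻¹) ^ 2 / 8)) (𝓝[>] 0) (𝓝 0) by
      simpa using H.const_mul (C0 * max Λ 0)
    refine Real.tendsto_exp_atBot.comp ?_
    refine Tendsto.atBot_div_const (by norm_num) ?_
    exact tendsto_neg_atTop_atBot.comp ((tendsto_pow_atTop two_ne_zero).comp
      (tendsto_inv_nhdsGT_zero.const_mul_atTop hδ))
  have T2 : Tendsto (fun r => ∫ x in ({x | (x, τ r) ∈ W} ∩ A)ᶜ, gau y (r ^ 2) x ∂F.mu (τ r))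
      (𝓝[>] 0) (𝓝 0) := by
    refine squeeze_zero' ?_ ?_ T1
    · filter_upwards [hev] with r ⟨hr, _⟩
      exact integral_nonneg fun x => (gau_pos y (by positivity) x).le
    · filter_upwards [hev] with r ⟨hr, ht⟩
      have hr2 : 0 < r ^ 2 := by positivity
      have := tail hΛ (rat_of_AR hA (τ r)) y hr2 (R := δ * r⁻¹) (by positivity)
      rw [Real.sqrt_sq hr.le, mul_assoc δ, inv_mul_cancel₀ hr.ne', mul_one] at this
      refine le_trans (setIntegral_mono_set (int_gau hΛ (rat_of_AR hA _) y hr2).integrableOn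
        (Eventually.of_forall fun x => (gau_pos y hr2 x).le) (LE.le.eventuallyLE ?_))
        this
      refine compl_subset_compl.2 fun x hx => ⟨K2 x hx _ ht, ?_⟩
      change L x ∈ Metric.ball z₀ δ
      rw [Metric.mem_ball, dist_eq_norm, hz₀, ← map_sub]
      exact (hLn _).trans_lt (by rwa [Metric.mem_ball, dist_eq_norm] at hx)
  have := (M2.congr' M1).add T2
  rw [add_zero] at this
  refine this.congr' ?_
  filter_upwards [hev] with r ⟨hr, _⟩
  exact integral_add_compl ((h.oWt _).inter hAo).measurableSet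
    (int_gau hΛ (rat_of_AR hA _) y (by positivity))

/-- density one inside a slice -/
theorem dens_sl {F : Mv} {Λ : ℝ} (hF : F.Reg) (hA : F.AR Λ) {p : ST} (hp : p ∈ F.M) :
    Tendsto (fun r => F.Fs p.2 p.1 (r ^ 2)) (𝓝[>] 0) (𝓝 1) :=
  dens hF hA (y := p.1) (t₀ := p.2) hp (τ := fun _ => p.2) rfl (hasDerivAt_const _ _)

end Gau

theorem densS_holds : DensS := fun F I Λ _ hF p hp =>
  Gau.dens hF.mcf.1 hF.ar (y := p.1) (t₀ := p.2) hp (τ := fun r => p.2 - r ^ 2) (by simp)
    (by simpa using (hasDerivAt_pow 2 (0 : ℝ)).const_sub p.2)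

/-- the Gaussian area of any earlier slice about a point of the flow is at least one -/
theorem one_le_Fs (hH : HuiskenS) {F : Mv} {a b Λ : ℝ} (hF : Fl F (Ioo a b) Λ) {p : ST}
    (hp : p ∈ F.M) {t : ℝ} (ha : a < t) (ht : t < p.2) : 1 ≤ F.Fs t p.1 (p.2 - t) := by
  refine le_of_tendsto (densS_holds F _ Λ isOpen_Ioo hF p hp) ?_
  have h1 : ∀ᶠ r : ℝ in 𝓝 0, r ^ 2 < p.2 - t :=
    ContinuousAt.eventually_lt (by fun_prop) continuousAt_const (by simpa using ht)
  filter_upwards [h1.filter_mono nhdsWithin_le_nhds, self_mem_nhdsWithin] with r h1 h2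
  have h2 : 0 < r ^ 2 := pow_pos h2 2
  have h3 := (hF.time p hp).2
  have := (hH F _ Λ isOpen_Ioo hF p t (p.2 - r ^ 2) (by linarith) (by linarith)
    fun s hs => ⟨by linarith [hs.1], by linarith [hs.2]⟩).1
  rwa [sub_sub_cancel] at this

theorem reachedS_of (hH : HuiskenS) (hC : FsContS) : ReachedS := by
  intro F a b Λ x hF hx r hr ha
  have hr2 : 0 < r ^ 2 := by positivity
  have hne := mem_closure_iff_nhdsWithin_neBot.1 hx
  have hm : (b - r ^ 2, x, r ^ 2) ∈ Ioo a b ×ˢ (univ : Set E) ×ˢ Ioi (0 : ℝ) :=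
    ⟨⟨ha, by simp only; linarith⟩, trivial, hr2⟩
  have hc := (hC F _ Λ isOpen_Ioo hF).continuousAt
    ((isOpen_Ioo.prod (isOpen_univ.prod isOpen_Ioi)).mem_nhds hm)
  have h1 : Tendsto (fun p : ST => (b - r ^ 2, p.1, p.2 - (b - r ^ 2))) (𝓝 (x, b))
      (𝓝 (b - r ^ 2, x, r ^ 2)) :=
    Continuous.tendsto' (by fun_prop) _ _ (by simp)
  refine ge_of_tendsto ((hc.tendsto.comp h1).mono_left (nhdsWithin_le_nhds (s := F.M))) ?_
  have h2 : ∀ᶠ p : ST in 𝓝 (x, b), b - r ^ 2 < p.2 :=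
    ContinuousAt.eventually_lt continuousAt_const (by fun_prop) (by simp only; linarith)
  filter_upwards [h2.filter_mono nhdsWithin_le_nhds, self_mem_nhdsWithin] with p h2 hp
  exact one_le_Fs hH hF hp ha h2

end Crest.Agent.N250

end
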