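import Crest.Agent.N250.T.White1
import Crest.Agent.N250.Tr.Meas

/-!
# Row 250 (helper79): White's local regularity theorem `WhiteS` from the toolbox
-/

set_option autoImplicit false
open MeasureTheory Set Filter Topology
open scoped ContDiff InnerProductSpace
open Crest.GeometryTopology.MCF

noncomputable section

namespace Crest.Agent.N250.Wh

open Tr

/-- the similarity `(x, t) ↦ (q.1 + σ x, q.2 + σ² t)` -/
def sc (q : ST) (σ : ℝ) : Sim := ⟨q.1, .refl ℝ E, fun _ => σ, fun t => q.2 + σ ^ 2 * t, univ⟩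

/-- the pull-back under `sc` -/
def scM (F : Mv) (q : ST) (σ : ℝ) : Mv :=
  ⟨{p | (sc q σ).map p ∈ F.M}, fun p => F.n ((sc q σ).map p), fun p => σ * F.V ((sc q σ).map p)⟩

theorem sc_map (q : ST) (σ : ℝ) (p : ST) :
    (sc q σ).map p = (q.1 + σ • p.1, q.2 + σ ^ 2 * p.2) := rfl

theorem pull_sc (F : Mv) (q : ST) {σ : ℝ} (h : 0 < σ) : Pull (sc q σ) F (scM F q σ) := by
  refine ⟨⟨isOpen_univ, fun _ _ => h, fun _ _ => contDiffAt_const,
    fun _ _ => contDiffAt_const.add (contDiffAt_const.mul contDiffAt_id)⟩,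
    fun p => by simp [scM, show (sc q σ).U = univ from rfl], fun p _ => rfl, fun p _ => ?_⟩
  have : deriv (sc q σ).θ p.2 = σ ^ 2 * 1 :=
    (((hasDerivAt_id p.2).const_mul _).const_add _).deriv
  rw [this]
  simp only [scM, sc, deriv_const', zero_mul, sub_zero]
  field_simp

theorem fl_sc {F : Mv} {I : Set ℝ} {Λ : ℝ} (hF : Fl F I Λ) (q : ST) {σ : ℝ} (h : 0 < σ) :
    Fl (scM F q σ) {t | q.2 + σ ^ 2 * t ∈ I} Λ := by
  have hp := pull_sc F q h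
  refine ⟨⟨hp.reg hF.mcf.1, fun p hM => ?_⟩, fun p hM => hF.time _ (hp.M hM),
    (hp.proper hF.proper).mono_set fun p hI => ⟨trivial, trivial, hI.2⟩,
    hp.ar (fun _ => Or.inl fun _ => trivial) hF.ar⟩
  rw [hp.H hF.mcf.1 hM]
  change σ * F.V _ = -(σ * _)
  rw [hF.mcf.2 _ (hp.M hM), mul_neg]

theorem fg_sc (F : Mv) (q : ST) {σ : ℝ} (h : 0 < σ) (Y : ST) (R : ℝ) :
    (scM F q σ).Fg Y R = F.Fg ((sc q σ).map Y) (σ * R) := by
  rw [Mv.Fg, Mv.Fg, (pull_sc F q h).Fs fun _ => trivial, mul_pow]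
  congr 1
  change q.2 + σ ^ 2 * _ = q.2 + σ ^ 2 * Y.2 - _
  ring

/-- a normalised counterexample -/
structure Bad (Λ A ε : ℝ) (G : Mv) (I : Set ℝ) : Prop where
  fl : Fl G I Λ
  tm : Ioc (-A ^ 2) 0 ⊆ I
  mem : (0 : ST) ∈ G.M
  bad : ¬ G.Reach 0 2
  reach : ∀ z ∈ G.M ∩ PC 0 A, G.Reach z 1
  dens : ∀ Y ∈ PC 0 A, ∀ R, 0 < R → R ≤ A → G.Fg Y R ≤ 1 + ε

/-- point picking -/
theorem pick (hH : HuiskenS) (hP : ReachPosS) {Λ A ε : ℝ} (hA : 1 ≤ A) {F : Mv} {a b r : ℝ}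
    {X p : ST} (hF : Fl F (Ioo a b) Λ) (hr : 0 < r) (ha : a < X.2 - 2 * r ^ 2)
    (hd : ∀ Y ∈ PC X r, F.Fg Y r ≤ 1 + ε) (hp : p ∈ F.M ∩ PC X (r / 2))
    (hn : ¬ F.Reach p (1 / (2 * A) * r)) : ∃ G I, Bad Λ A ε G I := by
  set s₀ := 1 / (2 * A) * r with hs₀
  have hA0 : 0 < A := by linarith
  have h0 : 0 < s₀ := by positivity
  have hAs : A * s₀ = r / 2 := by rw [hs₀]; field_simp
  obtain ⟨hpM, hp1, hp2, hp3⟩ := hp
  have hpb := (hF.time p hpM).2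
  let P : ℝ → ST → Prop := fun s q =>
    dist q.1 p.1 ≤ A * (s₀ - s) ∧ p.2 - A ^ 2 * s₀ * (s₀ - s) ≤ q.2 ∧ q.2 ≤ p.2
  have hPt : ∀ s q, 0 ≤ s → P s q → p.2 - (r / 2) ^ 2 ≤ q.2 ∧ dist q.1 p.1 ≤ r / 2 :=
    fun s q hs h => by
      have e1 : 0 ≤ A ^ 2 * s₀ * s := by positivity
      have e2 : 0 ≤ A * s := by positivity
      rw [← hAs]
      exact ⟨by linarith [h.2.1], by linarith [h.1]⟩
  obtain ⟨ρ, hρ, hR⟩ := hP F hF.mcf.1 (univ ×ˢ Ioo a b)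
    (Metric.closedBall p.1 (r / 2) ×ˢ Icc (p.2 - (r / 2) ^ 2) p.2) (isOpen_univ.prod isOpen_Ioo)
    hF.proper ((isCompact_closedBall _ _).prod isCompact_Icc)
    (fun q hq => ⟨trivial, by nlinarith [hq.2.1], hq.2.2.trans_lt hpb⟩)
  let Q : ℕ → Prop := fun j => ∃ q ∈ F.M, P (s₀ / 2 ^ j) q ∧ ¬ F.Reach q (s₀ / 2 ^ j)
  have Q0 : Q 0 := ⟨p, hpM, by simp [P], by simpa using hn⟩
  obtain ⟨j, ⟨q, hqM, hq, hqn⟩, hj⟩ : ∃ j, Q j ∧ ¬ Q (j + 1) := by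
    by_contra h
    push Not at h
    have hall : ∀ j, Q j := fun j => Nat.rec Q0 h j
    obtain ⟨j, hj⟩ := pow_unbounded_of_one_lt (s₀ / ρ) (one_lt_two (α := ℝ))
    obtain ⟨q, hqM, hq, hqn⟩ := hall j
    have := hPt _ q (by positivity) hq
    refine hqn ((hR q ⟨hqM, this.2, this.1, hq.2.2⟩).mono_reg hF.mcf.1 hqM ?_)
    rw [div_le_iff₀ (by positivity)]
    rw [div_lt_iff₀ hρ] at hj
    linarith
  set σ := s₀ / 2 ^ (j + 1) with hσ
  have hσ0 : 0 < σ := by positivity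
  have e2 : s₀ / 2 ^ j = σ * 2 := by rw [hσ, pow_succ]; field_simp
  have hσ1 : σ * 2 ≤ s₀ := e2 ▸ div_le_self h0.le (one_le_pow₀ one_le_two)
  rw [e2] at hq hqn
  have hpl := pull_sc F q hσ0
  have hm0 : (sc q σ).map 0 = q := by simp [sc_map]
  have hG0 : (0 : ST) ∈ (scM F q σ).M := (hpl.mem 0).2 ⟨trivial, hm0.symm ▸ hqM⟩
  have hPz : ∀ z ∈ PC 0 A, P σ ((sc q σ).map z) := by
    rintro z ⟨z1, z2, z3⟩
    simp only [Prod.fst_zero, Prod.snd_zero, zero_sub, mem_ball_zero_iff] at z1 z2 z3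
    obtain ⟨q1, q2, q3⟩ := hq
    refine ⟨?_, ?_, ?_⟩
    · have : dist (q.1 + σ • z.1) q.1 ≤ σ * A := by
        rw [dist_self_add_left, norm_smul, Real.norm_of_nonneg hσ0.le]
        gcongr
      have := dist_triangle (q.1 + σ • z.1) q.1 p.1
      change dist (q.1 + σ • z.1) p.1 ≤ _
      linarith
    · change _ ≤ q.2 + σ ^ 2 * z.2
      have e3 : σ ^ 2 * -A ^ 2 ≤ σ ^ 2 * z.2 := by gcongr
      have e4 : A ^ 2 * σ * σ ≤ A ^ 2 * σ * s₀ := by gcongr; linarith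
      linarith
    · change q.2 + σ ^ 2 * z.2 ≤ _
      linarith [mul_nonpos_of_nonneg_of_nonpos (sq_nonneg σ) z3]
  refine ⟨scM F q σ, _, fl_sc hF q hσ0, fun t ht => ?_, hG0, fun h => hqn ?_, fun z hz => ?_,
    fun Y hY R hR0 hRA => ?_⟩
  · have h1 := hPz (0, t) ⟨by simpa using hA0, by simpa using ht⟩
    have h2 := (hPt _ _ hσ0.le h1).1
    exact ⟨lt_of_lt_of_le (by nlinarith) h2, h1.2.2.trans_lt hpb⟩
  · have := hpl.reach_of hG0 (fun _ => trivial) h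
    rwa [hm0] at this
  · refine hpl.reach hz.1 ?_
    by_contra h
    exact hj ⟨_, hpl.M hz.1, hPz z hz.2, by simpa only [sc, mul_one] using h⟩
  · have h1 := hPz Y hY
    have h2 := hPt _ _ hσ0.le h1
    have h3 : σ * R ≤ r := by
      have : σ * R ≤ s₀ * A := by gcongr; linarith
      linarith
    have h4 : 0 < (σ * R) ^ 2 := by positivity
    rw [fg_sc F q hσ0]
    refine (fg_mono hH isOpen_Ioo hF _ (by positivity) h3 fun t ht =>
      ⟨by nlinarith [ht.1], by linarith [ht.2, h1.2.2]⟩).trans (hd _ ⟨?_, by nlinarith, ?_⟩)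
    · have := dist_triangle ((sc q σ).map Y).1 p.1 X.1
      rw [Metric.mem_ball] at hp1 ⊢
      linarith [h2.2]
    · exact h1.2.2.trans hp3

theorem mem_PC {A : ℝ} {z : ST} : z ∈ PC 0 A ↔ ‖z.1‖ < A ∧ -A ^ 2 < z.2 ∧ z.2 ≤ 0 := by
  simp [PC]

theorem mem_PC_ev {l : Filter ℕ} (hl : l ≤ atTop) (a b : ℝ) :
    ∀ᶠ k : ℕ in l, ∀ z : ST, ‖z.1‖ ≤ a → -b ≤ z.2 → z.2 ≤ 0 → z ∈ PC 0 ((k : ℝ) + 2) := by
  have h := tendsto_natCast_atTop_atTop (R := ℝ)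
  filter_upwards [hl (h.eventually_ge_atTop a), hl (h.eventually_ge_atTop b)] with k h1 h2 z a1 a2 a3
  have h1 : a ≤ k := h1
  have h2 : b ≤ k := h2
  exact mem_PC.2 ⟨by linarith, by nlinarith [sq_nonneg (k : ℝ), Nat.cast_nonneg (α := ℝ) k], a3⟩

/-- two balls missed at time `-1` give a slab at time `0` -/
theorem slab_of (hA : AvoidS) {G : Mv} (hG : G.IsMCF) (hP : G.Proper (univ ×ˢ Icc (-1) 0)) {x : E}
    (hx : ((x, -1) : ST) ∈ G.M) {R : ℝ} (hR : 0 < R) (h : G.Reach (x, -1) R) {y : E}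
    (hy : y ∈ G.sl 0) : 2 * R * |⟪y - x, G.n (x, -1)⟫_ℝ| ≤ ‖y - x‖ ^ 2 + 4 := by
  have hn := n_unit hG.1 hx
  have a := fun (c : E) (hc : ∀ z ∈ G.sl (-1), R ≤ dist z c) => hA G hG c R (-1) 0 hR.le
    (hP.mono_set (prod_mono (subset_univ _) Subset.rfl)) hc 0 ⟨by norm_num, le_rfl⟩ y hy
  have a1 := a _ fun z hz => (h z hz).1
  have a2 := a _ fun z hz => (h z hz).2
  rw [dist_eq_norm, ← sub_sub, norm_sub_sq_real, inner_smul_right, norm_smul, hn,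
    Real.norm_of_nonneg hR.le] at a1
  rw [dist_eq_norm, show y - (x - R • G.n (x, -1)) = y - x + R • G.n (x, -1) by abel,
    norm_add_sq_real, inner_smul_right, norm_smul, hn, Real.norm_of_nonneg hR.le] at a2
  rw [← abs_of_pos (show 0 < 2 * R by positivity), ← abs_mul, abs_le]
  constructor <;> linarith

/-- there is no counterexample at large scale with small density excess -/
theorem no_bad (hH : HuiskenS) (hD : DensS) (hA : AvoidS) (hS : SheetS) (hC : CptS)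
    (hJ : ConvJetS) (hR : ConvReachS) (hFl : ConvFlS) (Λ : ℝ) :
    ∃ k : ℕ, ∀ G I, ¬ Bad Λ ((k : ℝ) + 2) (1 / ((k : ℝ) + 1)) G I := by
  by_contra hc
  push Not at hc
  choose G I hB using hc
  obtain ⟨η, hη, htop⟩ := top hS
  set l : Ultrafilter ℕ := hyperfilter ℕ
  have hl : (l : Filter ℕ) ≤ atTop := Nat.hyperfilter_le_atTop
  have hpr : ∀ k, (G k).Proper (univ ×ˢ Ioc (-((k : ℝ) + 2) ^ 2) 0) := fun k =>
    (hB k).fl.proper.mono_set (prod_mono Subset.rfl (hB k).tm)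
  have hpc : ∀ k, (G k).Proper (PC 0 ((k : ℝ) + 2)) := fun k =>
    (hpr k).mono_set fun z hz => ⟨trivial, (mem_PC.1 hz).2⟩
  have hp1 : ∀ k, (G k).Proper (univ ×ˢ Icc (-1) 0) := fun k =>
    (hpr k).mono_set (prod_mono Subset.rfl fun t ht =>
      ⟨by nlinarith [ht.1, Nat.cast_nonneg (α := ℝ) k], ht.2⟩)
  obtain ⟨F, hF, hM, hP, hcv⟩ := hC ℕ l G NT Lim.isOpen_NT fun p hp => by
    refine ⟨Metric.ball p.1 1 ×ˢ Ioo (p.2 - 1) 0, prod_mem_nhds (Metric.ball_mem_nhds _ one_pos)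
      (Ioo_mem_nhds (by linarith) hp.2), 1, one_pos, ?_⟩
    filter_upwards [mem_PC_ev hl (‖p.1‖ + 1) (1 - p.2)] with k hk
    have : Metric.ball p.1 1 ×ˢ Ioo (p.2 - 1) 0 ⊆ PC 0 ((k : ℝ) + 2) := fun z hz =>
      hk z (by linarith [norm_sub_norm_le z.1 p.1, mem_ball_iff_norm.1 hz.1])
        (by linarith [hz.2.1]) hz.2.2.le
    exact ⟨(hB k).fl.mcf, (hpc k).mono_set this, fun q hq => (hB k).reach q ⟨hq.1, this hq.2⟩⟩
  obtain ⟨hfl, -, hFs⟩ := hFl ℕ l G I F (Iio 0) Λ isOpen_Iio (.of_forall fun k => (hB k).fl) hcv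
    fun p hp => (hM hp).2
  have h1 : ∀ Y ∈ F.M, ∀ R, 0 < R → F.Fg Y R ≤ 1 := fun Y hY R hR => by
    have hY0 : Y.2 < 0 := (hM hY).2
    have t1 := hFs (fun _ => Y.2 - R ^ 2) (fun _ => Y.1) (fun _ => R ^ 2) _ _ _
      (show Y.2 - R ^ 2 < 0 by nlinarith) (by positivity) tendsto_const_nhds tendsto_const_nhds
      tendsto_const_nhds
    have t2 : Tendsto (fun k : ℕ => 1 + 1 / ((k : ℝ) + 1)) l (𝓝 (1 + 0)) :=
      (tendsto_one_div_add_atTop_nhds_zero_nat.mono_left hl).const_add 1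
    rw [add_zero] at t2
    refine le_of_tendsto_of_tendsto t1 t2 ?_
    filter_upwards [mem_PC_ev hl ‖Y.1‖ (-Y.2),
      hl ((tendsto_natCast_atTop_atTop (R := ℝ)).eventually_ge_atTop R)] with k hk hk2
    have hk2 : R ≤ k := hk2
    exact (hB k).dens Y (hk Y le_rfl (by simp) hY0.le) R hR (by linarith)
  have h2 : ∀ k, ∃ x ∈ Metric.closedBall (0 : E) 3, ((x, -1) : ST) ∈ (G k).M := fun k => by
    by_contra h
    push Not at h
    have := hA (G k) (hB k).fl.mcf 0 3 (-1) 0 (by norm_num)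
      ((hp1 k).mono_set (prod_mono (subset_univ _) Subset.rfl))
      (fun x hx => le_of_not_gt fun h' => h x h'.le hx) 0 ⟨by norm_num, le_rfl⟩ 0 (hB k).mem
    norm_num at this
  choose x hx3 hxM using h2
  obtain ⟨x₀, -, hx₀⟩ := (isCompact_closedBall (0 : E) 3).ultrafilter_le_nhds (l.map x)
    (le_principal_iff.2 (Eventually.of_forall (f := (l : Filter ℕ)) hx3))
  have t3 : Tendsto (fun k => ((x k, -1) : ST)) l (𝓝 (x₀, -1)) :=
    Tendsto.prodMk_nhds hx₀ tendsto_const_nhds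
  have hN : ∀ y : E, ((y, -1) : ST) ∈ NT := fun y => ⟨trivial, by norm_num⟩
  have h3 := ((hJ ℕ l G F NT hcv).1 _ _ (hN x₀) t3 (.of_forall hxM)).1
  have hR0 : 0 < 53 / η := by positivity
  obtain ⟨k, hk⟩ := ((hR ℕ l G F NT Lim.isOpen_NT hcv _ _ (53 / η + 1) (by positivity) t3
    (.of_forall hxM) (by rintro ⟨y, t⟩ ⟨-, rfl⟩; exact hN y)).2
      (rigid hH hD hfl h1 h3 (by positivity)) (53 / η) (by linarith)).exists
  have hk1 : PC 0 1 ⊆ PC 0 ((k : ℝ) + 2) := fun z hz => by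
    rw [mem_PC] at hz ⊢
    exact ⟨by linarith [hz.1, Nat.cast_nonneg (α := ℝ) k],
      by nlinarith [hz.2.1, Nat.cast_nonneg (α := ℝ) k], hz.2.2⟩
  refine (hB k).bad (htop (G k) 0 ((G k).n (x k, -1)) (hB k).fl.mcf (hB k).mem
    ((hpc k).mono_set hk1) (fun p hp => (hB k).reach p ⟨hp.1, hk1 hp.2⟩)
    (n_unit (hB k).fl.mcf.1 (hxM k)) fun y hy hy4 => ?_)
  have b : ∀ z ∈ (G k).sl 0, ‖z‖ < 4 → |⟪z - x k, (G k).n (x k, -1)⟫_ℝ| ≤ η / 2 := fun z hz h4 => by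
    have b1 := slab_of hA (hB k).fl.mcf (hp1 k) (hxM k) hR0 hk hz
    have b2 : ‖z - x k‖ ≤ 7 := by linarith [norm_sub_le z (x k), mem_closedBall_zero_iff.1 (hx3 k)]
    have b3 : ‖z - x k‖ ^ 2 ≤ 7 ^ 2 := by gcongr
    have b4 : 2 * (53 / η) * (η / 2) = 53 := by field_simp
    exact le_of_mul_le_mul_left (by linarith) (show 0 < 2 * (53 / η) by positivity)
  have b1 := b y hy (by simpa using hy4)
  have b2 := b 0 (hB k).mem (by simp)
  rw [Prod.fst_zero, ← sub_sub_sub_cancel_right y 0 (x k), inner_sub_left]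
  linarith [abs_sub ⟪y - x k, (G k).n (x k, -1)⟫_ℝ ⟪0 - x k, (G k).n (x k, -1)⟫_ℝ]

end Wh

/-- White's local regularity theorem -/
theorem whiteS_of (hH : HuiskenS) (hD : DensS) (hA : AvoidS) (hP : ReachPosS) (hS : SheetS)
    (hC : CptS) (hJ : ConvJetS) (hR : ConvReachS) (hFl : ConvFlS) : WhiteS := by
  intro Λ
  obtain ⟨k, hk⟩ := Wh.no_bad hH hD hA hS hC hJ hR hFl Λ
  refine ⟨1 / ((k : ℝ) + 1), 1 / (2 * ((k : ℝ) + 2)), by positivity, by positivity,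
    fun F a b X r hF hr ha _ hd p hp => ?_⟩
  by_contra hn
  obtain ⟨G, I, h⟩ := Wh.pick hH hP (by linarith [Nat.cast_nonneg (α := ℝ) k]) hF hr ha hd hp hn
  exact hk G I h

end Crest.Agent.N250

end
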