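import Crest.Agent.N250.FV.Hu4
import Crest.Agent.N250.T.Dens
import Crest.Agent.N250.T.FsC
import Crest.Agent.N250.T.Reach2
import Crest.Agent.N250.T.CFl
import Crest.Agent.N250.T.CMu
import Crest.Agent.N250.T.SelfSim
import Crest.Agent.N250.T.White
import Crest.Agent.N250.MP.Avoid
import Crest.Agent.N250.MP.Chart
import Crest.Agent.N250.Be.Main
import Crest.Agent.N250.Cp.Cpt
import Crest.Agent.N250.Cv.Jet
import Crest.Agent.N250.Wk.Weak
import Crest.Agent.N250.E.Asm
import Crest.Agent.N250.GB.All
import Crest.Agent.N250.Tr.Inst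
import Crest.Agent.N250.Br.OutF
import Crest.Agent.N250.Gr.Sheet

/-!
# Row 250 (helper79): the toolbox assembled
-/

set_option autoImplicit false
open Crest.GeometryTopology.MCF

namespace Crest.Agent.N250.TA

theorem fsCont : FsContS := fsContS_of muContS_holds

theorem reached : ReachedS := reachedS_of huiskenS_holds fsCont

theorem convFl : ConvFlS := convFlS_of Cv.convJetS_holds convMuS_holds muFinS_holds

theorem white_of (hS : SheetS) : WhiteS :=
  whiteS_of huiskenS_holds densS_holds MP.avoidS_holds reachPosS_holds hS (Cp.cptS_of hS)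
    Cv.convJetS_holds convReachS_holds convFl

theorem lim_of (hS : SheetS) : LimStmt :=
  limStmt_of (Cp.cptS_of hS) huiskenS_holds selfSimS_holds convFl Cv.convJetS_holds
    convReachS_holds

theorem weak_of (hS : SheetS) : WeakStmt :=
  Wk.weakStmt_of (lim_of hS) transS_holds divS_holds huiskenS_holds convFl convMuS_holds

theorem e_of (hS : SheetS) : EStmt :=
  E.eStmt_of (lim_of hS) huiskenS_holds fsCont Cv.convJetS_holds convFl (white_of hS)
    MP.avoidS_holds bernS_holds reachAS_holds

theorem s0387_of' (hS : SheetS) (hA : AStmt) (hL : LSStmt) (M : ℝ → Set E)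
    (T : ℝ) (hT : 0 < T) (hM : IsSmoothMCF M T) (hc : IsCompact (M 0)) (hconn : IsConnected (M 0))
    (x₀ : E) (hx : IsSingularPoint M T x₀) :
    ∃ S : Set E, IsSelfShrinker S ∧ RescalingsConvergeTo M T x₀ S :=
  s0387_of GB.initStmt hA Tr.paraStmt (e_of hS) hL (weak_of hS) Br.outStmt M T hT hM hc hconn x₀ hx

theorem sheet : SheetS := Gr.sheetS_of reachAS_holds bernS_holds

theorem cpt : CptS := Cp.cptS_of sheet

theorem white : WhiteS := white_of sheet

theorem lim : LimStmt := lim_of sheet

theorem weak : WeakStmt := weak_of sheet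

theorem ends : EStmt := e_of sheet

theorem s0387_of_AL (hA : AStmt) (hL : LSStmt) (M : ℝ → Set E)
    (T : ℝ) (hT : 0 < T) (hM : IsSmoothMCF M T) (hc : IsCompact (M 0)) (hconn : IsConnected (M 0))
    (x₀ : E) (hx : IsSingularPoint M T x₀) :
    ∃ S : Set E, IsSelfShrinker S ∧ RescalingsConvergeTo M T x₀ S :=
  s0387_of' sheet hA hL M T hT hM hc hconn x₀ hx

end Crest.Agent.N250.TA
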