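import Crest.Agent.N250.FV.Ch
import Crest.Agent.N250.Cv.Jet

/-!
# Row 250 (helper13): graph charts over a fixed box, uniformly for nearby defining functions
-/

set_option autoImplicit false
open MeasureTheory Set Filter Topology Function Metric
open scoped ContDiff InnerProductSpace
open Crest.GeometryTopology.MCF
open ContinuousLinearMap (adjoint inl)

noncomputable section

namespace Crest.Agent.N250.CMu

open Tr FV Cv

/-- a unit vector and an isometric parametrisation of its orthogonal plane -/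
structure Fr where
  ν : E
  Li : E2 →ₗᵢ[ℝ] E
  unit : ‖ν‖ = 1
  perp : ∀ v, ⟪ν, v⟫_ℝ = 0 ↔ v ∈ range Li

namespace Fr

variable (f : Fr)

/-- the projection -/
def L : E →L[ℝ] E2 := adjoint f.Li.toContinuousLinearMap

theorem L_Li (z : E2) : f.L (f.Li z) = z := N222.adjoint_isometry_apply f.Li z

theorem ν_Li (z : E2) : ⟪f.ν, f.Li z⟫_ℝ = 0 := (f.perp _).2 ⟨z, rfl⟩

theorem ν_ν : ⟪f.ν, f.ν⟫_ℝ = 1 := by rw [real_inner_self_eq_norm_sq, f.unit]; norm_num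

theorem L_ν : f.L f.ν = 0 := by
  apply ext_inner_right ℝ
  intro v
  rw [L, ContinuousLinearMap.adjoint_inner_left, inner_zero_left]
  exact f.ν_Li v

theorem dec (x : E) : f.Li (f.L x) + ⟪f.ν, x⟫_ℝ • f.ν = x := by
  obtain ⟨u, hu⟩ := (f.perp (x - ⟪f.ν, x⟫_ℝ • f.ν)).1
    (by rw [inner_sub_right, inner_smul_right, f.ν_ν]; ring)
  have := congrArg f.L hu
  rw [f.L_Li, map_sub, map_smul, f.L_ν, smul_zero, sub_zero] at this
  rw [← this, hu]; simp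

/-- the line through the parameter `q` -/
def γ (p : ST) (q : E2 × ℝ) (s : ℝ) : ST := (p.1 + f.Li (q.1 - f.L p.1) + s • f.ν, q.2)

/-- height -/
def ht (p y : ST) : ℝ := ⟪f.ν, y.1 - p.1⟫_ℝ

/-- parameter -/
def pr (y : ST) : E2 × ℝ := (f.L y.1, y.2)

theorem cont_pr : Continuous f.pr := by unfold pr; fun_prop

theorem cont_ht (p : ST) : Continuous (f.ht p) := by unfold ht; fun_prop

theorem pr_γ (p : ST) (q : E2 × ℝ) (s : ℝ) : f.pr (f.γ p q s) = q := by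
  simp [pr, γ, f.L_Li, f.L_ν]

theorem ht_γ (p : ST) (q : E2 × ℝ) (s : ℝ) : f.ht p (f.γ p q s) = s := by
  have : (f.γ p q s).1 - p.1 = f.Li (q.1 - f.L p.1) + s • f.ν := by simp only [γ]; abel
  rw [ht, this, inner_add_right, f.ν_Li, inner_smul_right, f.ν_ν]; ring

theorem γ_pr (p y : ST) : f.γ p (f.pr y) (f.ht p y) = y := by
  refine Prod.ext ?_ rfl
  have := f.dec (y.1 - p.1)
  simp only [γ, pr, ht]
  rw [← map_sub f.L, add_assoc, this]; simp

theorem dist_γ (p : ST) (q : E2 × ℝ) (s : ℝ) :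
    dist (f.γ p q s) (p.1 + s • f.ν, p.2) = dist q (f.pr p) := by
  have : (f.γ p q s).1 - (p.1 + s • f.ν) = f.Li (q.1 - f.L p.1) := by simp only [γ]; abel
  rw [Prod.dist_eq, Prod.dist_eq, dist_eq_norm, this, f.Li.norm_map, ← dist_eq_norm]
  rfl

theorem dist_ax (p : ST) (s : ℝ) : dist ((p.1 + s • f.ν, p.2) : ST) p = |s| := by
  rw [Prod.dist_eq, dist_eq_norm]
  simp [norm_smul, f.unit]

theorem γ_mem {p : ST} {q : E2 × ℝ} {s r η δ : ℝ} (hr : δ + η ≤ r) (hq : q ∈ ball (f.pr p) δ)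
    (hs : |s| ≤ η) : f.γ p q s ∈ closedBall p r := by
  have := dist_triangle (f.γ p q s) (p.1 + s • f.ν, p.2) p
  rw [f.dist_γ, f.dist_ax] at this
  exact this.trans (by linarith [mem_ball.1 hq])

theorem hasD (p : ST) (q : E2 × ℝ) (s : ℝ) : HasDerivAt (f.γ p q) (f.ν, 0) s := by
  have := (((hasDerivAt_id s).smul_const f.ν).const_add
    (p.1 + f.Li (q.1 - f.L p.1))).prodMk (hasDerivAt_const s q.2)
  rw [one_smul] at this
  exact this

/-- the box -/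
def box (p : ST) (η δ : ℝ) : Set ST := {y | f.pr y ∈ ball (f.pr p) δ ∧ |f.ht p y| < η}

theorem open_box (p : ST) (η δ : ℝ) : IsOpen (f.box p η δ) :=
  (isOpen_ball.preimage f.cont_pr).inter (isOpen_lt (f.cont_ht p).abs continuous_const)

theorem box_sub {p : ST} {r η δ : ℝ} (hr : δ + η ≤ r) : f.box p η δ ⊆ closedBall p r :=
  fun y hy => f.γ_pr p y ▸ f.γ_mem hr hy.1 hy.2.le

/-- the differential of a graph with normal direction `w` -/
def JJ (w : E) : E2 →L[ℝ] E :=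
  f.Li.toContinuousLinearMap - (⟪w, f.ν⟫_ℝ)⁻¹ • (innerSL ℝ (f.L w)).smulRight f.ν

theorem cont_JJ {w : E} (hw : ⟪w, f.ν⟫_ℝ ≠ 0) : ContinuousAt f.JJ w := by
  have h1 : ContinuousAt (fun w : E => (⟪w, f.ν⟫_ℝ)⁻¹) w := ContinuousAt.inv₀ (by fun_prop) hw
  have h2 : Continuous fun w : E => (innerSL ℝ (f.L w)).smulRight f.ν :=
    ((ContinuousLinearMap.smulRightL ℝ E2 E).flip f.ν).continuous.comp
      ((innerSL ℝ).continuous.comp f.L.continuous)
  exact continuousAt_const.sub (h1.smul h2.continuousAt)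

end Fr

theorem gr_inner (φ : ST → ℝ) (q : ST) (v : E) : ⟪gr φ q, v⟫_ℝ = fderiv ℝ φ q (v, 0) := by
  simp [gr, InnerProductSpace.toDual_symm_apply]

/-- transversality and the signs at the top and the bottom of the box -/
structure Bx (f : Fr) (φ : ST → ℝ) (p : ST) (r η δ : ℝ) : Prop where
  pos : ∀ q ∈ closedBall p r, 0 < ⟪gr φ q, f.ν⟫_ℝ
  up : ∀ q ∈ ball ((p.1 + η • f.ν, p.2) : ST) δ, 0 < φ q
  dn : ∀ q ∈ ball ((p.1 + (-η) • f.ν, p.2) : ST) δ, φ q < 0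

variable {F : Mv} {W : Set ST} {φ : ST → ℝ} {p : ST} {f : Fr} {r η δ : ℝ} {q : E2 × ℝ}

theorem mono_line (h : F.Loc W φ) (hB : closedBall p r ⊆ W)
    (hpos : ∀ q ∈ closedBall p r, 0 < ⟪gr φ q, f.ν⟫_ℝ)
    (hq : ∀ s, |s| ≤ η → f.γ p q s ∈ closedBall p r) :
    ContinuousOn (fun s => φ (f.γ p q s)) (Icc (-η) η) ∧
      StrictMonoOn (fun s => φ (f.γ p q s)) (Icc (-η) η) := by
  have hd : ∀ s ∈ Icc (-η) η,
      HasDerivAt (fun s => φ (f.γ p q s)) ⟪gr φ (f.γ p q s), f.ν⟫_ℝ s := fun s hs => by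
    rw [gr_inner]
    exact (loc_diff h (hB (hq s (abs_le.2 hs)))).hasFDerivAt.comp_hasDerivAt s (f.hasD p q s)
  have hc : ContinuousOn (fun s => φ (f.γ p q s)) (Icc (-η) η) := fun s hs =>
    (hd s hs).continuousAt.continuousWithinAt
  refine ⟨hc, strictMonoOn_of_deriv_pos (convex_Icc _ _) hc fun s hs => ?_⟩
  have hs' := interior_subset hs
  rw [(hd s hs').deriv]
  exact hpos _ (hq s (abs_le.2 hs'))

theorem Bx.ne_end (b : Bx f φ p r η δ) {y : ST} (hy : f.pr y ∈ ball (f.pr p) δ)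
    (h0 : φ y = 0) (h1 : |f.ht p y| ≤ η) : y ∈ f.box p η δ := by
  refine ⟨hy, abs_lt.2 ⟨(abs_le.1 h1).1.lt_of_ne fun e => ?_, (abs_le.1 h1).2.lt_of_ne fun e => ?_⟩⟩
  · refine (b.dn y ?_).ne h0
    rw [← f.γ_pr p y, ← e, mem_ball, f.dist_γ]; exact hy
  · refine (b.up y ?_).ne' h0
    rw [← f.γ_pr p y, e, mem_ball, f.dist_γ]; exact hy

theorem exists_box_ch (h : F.Loc W φ) (hB : closedBall p r ⊆ W) (hr : δ + η ≤ r) (hη : 0 < η)
    (b : Bx f φ p r η δ) : ∃ X, Ch F X (ball (f.pr p) δ) (f.box p η δ) f.L := by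
  have hm := fun q (hq : q ∈ ball (f.pr p) δ) =>
    mono_line h hB b.pos (q := q) (η := η) fun s hs => f.γ_mem hr hq hs
  have hex : ∀ q, ∃ s, q ∈ ball (f.pr p) δ → |s| < η ∧ φ (f.γ p q s) = 0 := by
    intro q
    by_cases hq : q ∈ ball (f.pr p) δ
    · obtain ⟨s, hs, e⟩ := intermediate_value_Ioo (by linarith : -η ≤ η) (hm q hq).1
        (show (0 : ℝ) ∈ Ioo _ _ from ⟨b.dn _ (by rw [mem_ball, f.dist_γ]; exact hq),
          b.up _ (by rw [mem_ball, f.dist_γ]; exact hq)⟩)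
      exact ⟨s, fun _ => ⟨abs_lt.2 hs, e⟩⟩
    · exact ⟨0, fun h => (hq h).elim⟩
  choose u hu using hex
  have hW : f.box p η δ ⊆ W := (f.box_sub hr).trans hB
  have k1 : ∀ q ∈ ball (f.pr p) δ, f.γ p q (u q) ∈ f.box p η δ := fun q hq =>
    ⟨by rw [f.pr_γ]; exact hq, by rw [f.ht_γ]; exact (hu q hq).1⟩
  have k2 : ∀ y ∈ f.box p η δ, φ y = 0 → f.γ p (f.pr y) (u (f.pr y)) = y := fun y hy h0 => by
    have := (hm _ hy.1).2.injOn (abs_le.1 (hu _ hy.1).1.le) (abs_le.1 hy.2.le)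
      (by rw [(hu _ hy.1).2, f.γ_pr, h0])
    rw [this, f.γ_pr]
  refine ⟨fun q => (f.γ p q (u q)).1, isOpen_ball, f.open_box _ _ _, fun q hq => ?_,
    fun q hq => (h.mem _ (hW (k1 q hq))).2 (hu q hq).2, k1,
    fun q _ => congrArg Prod.fst (f.pr_γ p q (u q)), fun y _ hy => hy.1,
    fun y hM hy => congrArg Prod.fst (k2 y hy ((h.mem y (hW hy)).1 hM))⟩
  set y := f.γ p q (u q) with hy
  let T : ST →L[ℝ] E2 × ℝ := f.L.prodMap (ContinuousLinearMap.id ℝ ℝ)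
  let Θ : ST → (E2 × ℝ) × ℝ := fun y => (T y, φ y)
  have hΘ : ContDiffOn ℝ ∞ Θ (f.box p η δ) := T.contDiff.contDiffOn.prodMk (h.sm.mono hW)
  have hd : fderiv ℝ Θ y = T.prod (fderiv ℝ φ y) :=
    (T.hasFDerivAt.prodMk (loc_diff h (hW (k1 q hq))).hasFDerivAt).fderiv
  have hi : Injective (T.prod (fderiv ℝ φ y)) := by
    refine (injective_iff_map_eq_zero _).2 fun w hw => ?_
    obtain ⟨v, s⟩ := w
    simp only [ContinuousLinearMap.prod_apply, Prod.mk_eq_zero, T,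
      ContinuousLinearMap.coe_prodMap', Prod.map_apply, ContinuousLinearMap.id_apply] at hw
    obtain ⟨⟨h1, rfl⟩, h3⟩ := hw
    have e := f.dec v
    rw [h1, map_zero, zero_add] at e
    rw [← gr_inner, ← e, inner_smul_right] at h3
    have := (mul_eq_zero.1 h3).resolve_right (b.pos _ (f.box_sub hr (k1 q hq))).ne'
    rw [← e, this]; simp
  let e : ST ≃L[ℝ] (E2 × ℝ) × ℝ := (LinearMap.linearEquivOfInjective
    (T.prod (fderiv ℝ φ y) : ST →ₗ[ℝ] (E2 × ℝ) × ℝ) hi (by simp)).toContinuousLinearEquiv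
  obtain ⟨G, h1, h2, h3, h4⟩ := exists_diffeo (f.open_box p η δ) hΘ (k1 q hq) e
    (by rw [hd]; ext <;> rfl)
  have hq0 : (q, (0 : ℝ)) ∈ G.target := by
    have := G.map_source h1
    rwa [h3, show Θ y = (q, 0) from Prod.ext (f.pr_γ p q _) (hu q hq).2] at this
  have hn : ∀ᶠ z in 𝓝 q, (z, (0 : ℝ)) ∈ G.target :=
    (G.open_target.preimage (Continuous.prodMk_left _)).mem_nhds hq0
  have hs : ContDiffAt ℝ ∞ (fun z : E2 × ℝ => (G.symm (z, 0)).1) q :=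
    ((h4.contDiffAt (G.open_target.mem_nhds hq0)).comp q
      (contDiffAt_id.prodMk contDiffAt_const)).fst
  refine (hs.congr_of_eventuallyEq (hn.mono fun z hz => ?_)).contDiffWithinAt
  have e1 := G.right_inv hz
  rw [h3] at e1
  have e2 := k2 _ (h2 (G.map_target hz)) (congrArg Prod.snd e1)
  rw [show f.pr (G.symm (z, 0)) = z from congrArg Prod.fst e1] at e2
  exact congrArg Prod.fst e2

variable {X : E2 × ℝ → E} {U : Set (E2 × ℝ)} {W' : Set ST}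

theorem Jz_eq (h : F.Loc W φ) (c : Ch F X U W' f.L) (hW : W' ⊆ W) (hq : q ∈ U)
    (h0 : ⟪gr φ (Ps X q), f.ν⟫_ℝ ≠ 0) : Jz X q = f.JJ (gr φ (Ps X q)) := by
  have h1 := (loc_diff h (hW (c.memW q hq))).hasFDerivAt.comp q (c.hasPs hq)
  have h2 : HasFDerivAt (φ ∘ Ps X) (0 : E2 × ℝ →L[ℝ] ℝ) q :=
    (hasFDerivAt_const (0 : ℝ) q).congr_of_eventuallyEq
      ((c.oU.eventually_mem hq).mono fun y a => (h.mem _ (hW (c.memW y a))).1 (c.mem y a))
  ext1 v
  have h3 : fderiv ℝ φ (Ps X q) (Jz X q v, 0) = 0 :=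
    congrArg (fun T : E2 × ℝ →L[ℝ] ℝ => T (v, 0)) (h1.unique h2)
  have e := f.dec (Jz X q v)
  rw [show f.L (Jz X q v) = v from c.L_fd hq (v, 0)] at e
  rw [← gr_inner, ← e, inner_add_right, inner_smul_right] at h3
  have e3 : ⟪f.L (gr φ (Ps X q)), v⟫_ℝ = ⟪gr φ (Ps X q), f.Li v⟫_ℝ :=
    ContinuousLinearMap.adjoint_inner_left _ _ _
  have e4 : ⟪f.ν, Jz X q v⟫_ℝ = -((⟪gr φ (Ps X q), f.ν⟫_ℝ)⁻¹ * ⟪f.L (gr φ (Ps X q)), v⟫_ℝ) := by
    rw [e3]; field_simp; linarith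
  rw [← e, e4]
  simp [Fr.JJ, smul_smul, sub_eq_add_neg]

end Crest.Agent.N250.CMu

end
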