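import Crest.Agent.N250.T.CMu0

/-!
# Row 250 (helper13): convergence of integrals supported in one box
-/

set_option autoImplicit false
open MeasureTheory Set Filter Topology Function Metric
open scoped ContDiff InnerProductSpace
open Crest.GeometryTopology.MCF

noncomputable section

namespace Crest.Agent.N250.CMu

open Tr FV Cv

/-- the space of first and second order data -/
abbrev Jt : Type := ST × E × (Fin 3 → Fin 3 → ℝ)

/-- the integrand of `ConvMuS` -/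
def Gi (g : Jt → ℝ) (F : Mv) (t : ℝ) (x : E) : ℝ :=
  g ((x, t), F.n (x, t), fun a b => F.A a b (x, t))

/-- the ambient form of area density times integrand -/
def Ga (f : Fr) (χ : E → ℝ) (g : Jt → ℝ) (φ : ST → ℝ) (y : ST) : ℝ :=
  N222.jac (f.JJ (gr φ y)) *
    (χ y.1 * g (y, aN φ y, fun a b => aDL φ [a] (fun q => aN φ q b) y))

theorem cont_jac : Continuous (N222.jac : (E2 →L[ℝ] E) → ℝ) :=
  Real.continuous_sqrt.comp (ContinuousLinearMap.continuous_det.comp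
    ((ContinuousLinearMap.adjoint (𝕜 := ℝ) (E := E2) (F := E)).continuous.clm_comp continuous_id))

variable {α β : Type} {l : Filter α} {l' : Filter β} {f : Fr} {χ : E → ℝ} {g : Jt → ℝ}
  {φ : ST → ℝ} {φk : α → ST → ℝ} {p : ST} {F : Mv} {Fk : α → Mv} {W : Set ST} {r η δ : ℝ}

theorem tend_Ga (hχ : Continuous χ) (hg : Continuous g) {pk : α → ST} (J : JC l φk pk φ p)
    (h0 : ⟪gr φ p, f.ν⟫_ℝ ≠ 0) :
    Tendsto (fun k => Ga f χ g (φk k) (pk k)) l (𝓝 (Ga f χ g φ p)) := by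
  have h1 : gr φ p ≠ 0 := fun e => h0 (by rw [e, inner_zero_left])
  refine ((cont_jac.tendsto _).comp ((f.cont_JJ h0).tendsto.comp (jc_gr J).val)).mul
    (((hχ.comp continuous_fst).tendsto _ |>.comp J.pt).mul ((hg.tendsto _).comp
      (J.pt.prodMk_nhds ((jc_aN J h1).val.prodMk_nhds ?_))))
  exact tendsto_pi_nhds.2 fun a => tendsto_pi_nhds.2 fun b =>
    (jc_aDL J h1 (jc_aNa J h1 b) [a]).val

theorem tendsto_int {D : Set E2} (hD : IsCompact D) {Ik : α → E2 → ℝ} {I : E2 → ℝ}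
    (hk : ∀ᶠ k in l, ContinuousOn (Ik k) D) (hI : ContinuousOn I D)
    (h : ∀ z ∈ D, Tendsto (fun y : α × E2 => Ik y.1 y.2) (l ×ˢ 𝓝[D] z) (𝓝 (I z))) :
    Tendsto (fun k => ∫ z in D, Ik k z) l (𝓝 (∫ z in D, I z)) := by
  have hu : TendstoUniformlyOn Ik I l D := by
    rw [← tendstoLocallyUniformlyOn_iff_tendstoUniformlyOn_of_compact hD,
      tendstoLocallyUniformlyOn_iff_forall_tendsto]
    intro z hz
    exact (Uniform.tendsto_nhds_left.1 ((hI z hz).tendsto.comp tendsto_snd)).uniformity_trans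
      (Uniform.tendsto_nhds_right.1 (h z hz))
  refine Metric.tendsto_nhds.2 fun ε hε => ?_
  have hv : 0 ≤ volume.real D := measureReal_nonneg
  have hε' : 0 < ε / (volume.real D + 1) := by positivity
  filter_upwards [hk, Metric.tendstoUniformlyOn_iff.1 hu _ hε'] with k a b
  rw [dist_eq_norm, ← integral_sub (a.integrableOn_compact hD) (hI.integrableOn_compact hD)]
  refine (norm_setIntegral_le_of_norm_le_const hD.measure_lt_top
    (C := ε / (volume.real D + 1)) fun z hz => ?_).trans_lt ?_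
  · rw [← dist_eq_norm, dist_comm]; exact (b z hz).le
  · rw [div_mul_eq_mul_div, div_lt_iff₀ (by positivity)]; nlinarith

variable {X : E2 × ℝ → E}

theorem box_time {t : ℝ} (ht : dist t p.2 < δ) {x : E} (hx : (x, p.2) ∈ f.box p η δ) :
    (x, t) ∈ f.box p η δ := by
  refine ⟨?_, hx.2⟩
  have := hx.1
  rw [mem_ball, Prod.dist_eq, max_lt_iff] at this ⊢
  exact ⟨this.1, ht⟩

theorem contOn_Ga (hχ : Continuous χ) (hg : Continuous g) (h : F.Loc W φ)
    (hB : closedBall p r ⊆ W) (hr : δ + η ≤ r) (b : Bx f φ p r η δ)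
    (c : Ch F X (ball (f.pr p) δ) (f.box p η δ) f.L) (t : ℝ) :
    ContinuousOn (fun z => Ga f χ g φ (Ps X (z, t))) {z | (z, t) ∈ ball (f.pr p) δ} := by
  intro z hz
  have hy := f.box_sub hr (c.memW _ hz)
  exact ContinuousAt.continuousWithinAt (tend_Ga hχ hg (JC.const (loc_at h (hB hy))
    ((c.hasPs hz).continuousAt.tendsto.comp ((Continuous.prodMk_left t).tendsto z)))
    (b.pos _ hy).ne')

theorem sub_Ut {t : ℝ} (ht : dist t p.2 < δ) {C : Set E} (hC : ∀ x ∈ C, (x, p.2) ∈ f.box p η δ) :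
    f.L '' C ⊆ {z | (z, t) ∈ ball (f.pr p) δ} := by
  rintro _ ⟨x, hx, rfl⟩
  exact (box_time ht (hC x hx)).1

theorem int_box (hχ : Continuous χ) (hg : Continuous g) (h : F.Loc W φ)
    (hB : closedBall p r ⊆ W) (hr : δ + η ≤ r) (b : Bx f φ p r η δ)
    (c : Ch F X (ball (f.pr p) δ) (f.box p η δ) f.L) {t : ℝ} (ht : dist t p.2 < δ) {C : Set E}
    (hc : IsCompact C) (hC : ∀ x ∈ C, (x, p.2) ∈ f.box p η δ) (h0 : ∀ x ∉ C, χ x = 0) :
    Integrable (fun x => χ x * Gi g F t x) (F.mu t) ∧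
      ∫ x, χ x * Gi g F t x ∂F.mu t = ∫ z in f.L '' C, Ga f χ g φ (Ps X (z, t)) := by
  have hU := (c.oUt t).measurableSet
  have e1 : ∀ x ∉ {x | (x, t) ∈ f.box p η δ}, χ x * Gi g F t x = 0 := fun x hx => by
    rw [h0 x fun hx' => hx (box_time ht (hC x hx')), zero_mul]
  have e2 : EqOn (fun z => rho X (z, t) * (χ (X (z, t)) * Gi g F t (X (z, t))))
      (fun z => Ga f χ g φ (Ps X (z, t))) {z | (z, t) ∈ ball (f.pr p) δ} := fun z hz => by
    have hy := f.box_sub hr (c.memW _ hz)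
    have hM := c.mem _ hz
    simp only [Ga, Gi, rho]
    rw [Jz_eq h c ((f.box_sub hr).trans hB) hz (b.pos _ hy).ne', n_eq_aN h (hB hy) hM]
    congr 4
    refine Prod.ext rfl ?_
    funext a b
    exact DL_nu_eq h [a] b (hB hy) hM
  have e3 : ∀ z ∈ {z | (z, t) ∈ ball (f.pr p) δ} \ f.L '' C, Ga f χ g φ (Ps X (z, t)) = 0 :=
    fun z hz => by
      have : χ (Ps X (z, t)).1 = 0 := h0 _ fun hx => hz.2 ⟨_, hx, c.left _ hz.1⟩
      rw [Ga, this, zero_mul, mul_zero]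
  refine ⟨IntegrableOn.integrable_of_forall_notMem_eq_zero ((c.intg t _).2 ?_) e1, ?_⟩
  · exact (IntegrableOn.of_forall_sdiff_eq_zero (((contOn_Ga hχ hg h hB hr b c t).mono
      (sub_Ut ht hC)).integrableOn_compact (hc.image f.L.continuous)) hU e3).congr_fun e2.symm hU
  · rw [← setIntegral_eq_integral_of_forall_compl_eq_zero e1, c.int, setIntegral_congr_fun hU e2,
      setIntegral_eq_of_subset_of_forall_sdiff_eq_zero hU (sub_Ut ht hC) e3]

theorem ev_ball {P : α → ST → Prop} (h : ∀ᶠ y in l ×ˢ 𝓝 p, P y.1 y.2) :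
    ∃ ε > 0, ∀ᶠ k in l, ∀ q ∈ closedBall p ε, P k q := by
  obtain ⟨pa, ha, pb, hb, hab⟩ := eventually_prod_iff.1 h
  obtain ⟨ε, hε, hs⟩ := nhds_basis_closedBall.eventually_iff.1 hb
  exact ⟨ε, hε, ha.mono fun k a q hq => hab a (hs hq)⟩

/-- the data of `Conv.near` -/
structure Nr (l : Filter α) (Fk : α → Mv) (F : Mv) (W : Set ST) (φk : α → ST → ℝ) (φ : ST → ℝ) :
    Prop where
  loc : F.Loc W φ
  lock : ∀ᶠ k in l, (Fk k).Loc W (φk k)
  tlu : ∀ m : ℕ, TendstoLocallyUniformlyOn (fun k => iteratedFDeriv ℝ m (φk k))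
    (iteratedFDeriv ℝ m φ) l W

theorem Nr.jc (N : Nr l Fk F W φk φ) (hp : p ∈ W) {κ : β → α} (hκ : Tendsto κ l' l)
    {qk : β → ST} (hq : Tendsto qk l' (𝓝 p)) : JC l' (fun k => φk (κ k)) qk φ p :=
  jc_prod_of_tlu N.loc.isOpen N.loc.sm (N.lock.mono fun _ a => a.sm) N.tlu hp hκ hq

theorem exists_setup [l.NeBot] (N : Nr l Fk F W φk φ) (hp : p ∈ W) (hM : p ∈ F.M) :
    ∃ (f : Fr) (r η δ : ℝ), 0 < η ∧ 0 < δ ∧ δ + η ≤ r ∧ closedBall p r ⊆ W ∧ Bx f φ p r η δ ∧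
      ∀ᶠ k in l, Bx f (φk k) p r η δ := by
  have h := N.loc
  have hn : 0 < ‖gr φ p‖ := norm_pos_iff.2 (gr_ne h hp)
  have hu : ‖aN φ p‖ = 1 := by rw [aN, norm_smul, norm_inv, norm_norm, inv_mul_cancel₀ hn.ne']
  obtain ⟨Li, hLi⟩ := exists_plane (g := aN φ p) (fun e => by simp [e] at hu)
  let f : Fr := ⟨aN φ p, Li, hu, hLi⟩
  have h1 : 0 < ⟪gr φ p, f.ν⟫_ℝ := by
    change 0 < ⟪gr φ p, ‖gr φ p‖⁻¹ • gr φ p⟫_ℝ
    rw [inner_smul_right, real_inner_self_eq_norm_sq]; positivity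
  have J : ∀ q ∈ W, JC (l ×ˢ 𝓝 q) (fun y : α × ST => φk y.1) Prod.snd φ q := fun q hq =>
    N.jc hq tendsto_fst tendsto_snd
  have J0 : ∀ q ∈ W, JC (l ×ˢ 𝓝 q) (fun _ : α × ST => φ) Prod.snd φ q := fun q hq =>
    JC.const (loc_at h hq) tendsto_snd
  obtain ⟨r, hr, hA⟩ := ev_ball (l := l) (p := p)
    (P := fun k q => 0 < ⟪gr (φk k) q, f.ν⟫_ℝ ∧ 0 < ⟪gr φ q, f.ν⟫_ℝ ∧ q ∈ W)
    ((((jc_gr (J p hp)).val.inner tendsto_const_nhds).eventually (lt_mem_nhds h1)).and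
      ((((jc_gr (J0 p hp)).val.inner tendsto_const_nhds).eventually (lt_mem_nhds h1)).and
        (tendsto_snd.eventually (h.isOpen.mem_nhds hp))))
  obtain ⟨_, hA0⟩ := hA.exists
  have hB : closedBall p r ⊆ W := fun q hq => (hA0 q hq).2.2
  have hγ : ∀ s, f.γ p (f.pr p) s = (p.1 + s • f.ν, p.2) := fun s => by simp [Fr.γ, Fr.pr]
  have hin : ∀ s, |s| ≤ r / 2 → f.γ p (f.pr p) s ∈ closedBall p r := fun s hs =>
    f.γ_mem (δ := r / 2) (by linarith) (mem_ball_self (by linarith)) hs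
  have hm := (mono_line h hB (fun q hq => (hA0 q hq).2.1) hin).2
  have h00 : φ (f.γ p (f.pr p) 0) = 0 := by rw [hγ]; simpa using (h.mem p hp).1 hM
  have i0 : (0 : ℝ) ∈ Icc (-(r / 2)) (r / 2) := ⟨by linarith, by linarith⟩
  have hup : 0 < φ (f.γ p (f.pr p) (r / 2)) :=
    h00.symm.trans_lt (hm i0 ⟨by linarith, le_rfl⟩ (by linarith))
  have hdn : φ (f.γ p (f.pr p) (-(r / 2))) < 0 :=
    (hm ⟨le_rfl, by linarith⟩ i0 (by linarith)).trans_eq h00
  have wu := hB (hin (r / 2) (abs_of_pos (by linarith)).le)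
  have wd := hB (hin (-(r / 2)) (by rw [abs_neg]; exact (abs_of_pos (by linarith)).le))
  obtain ⟨a, ha, hU⟩ := ev_ball (l := l) (P := fun k q => 0 < φk k q ∧ 0 < φ q)
    (((J _ wu).val.eventually (lt_mem_nhds hup)).and ((J0 _ wu).val.eventually (lt_mem_nhds hup)))
  obtain ⟨c, hc, hD⟩ := ev_ball (l := l) (P := fun k q => φk k q < 0 ∧ φ q < 0)
    (((J _ wd).val.eventually (gt_mem_nhds hdn)).and ((J0 _ wd).val.eventually (gt_mem_nhds hdn)))
  rw [hγ] at hU hD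
  obtain ⟨_, hU0⟩ := hU.exists
  obtain ⟨_, hD0⟩ := hD.exists
  have s1 : ∀ y : ST, ball y (min (r / 2) (min a c)) ⊆ closedBall y a := fun y =>
    ball_subset_closedBall.trans (closedBall_subset_closedBall
      ((min_le_right _ _).trans (min_le_left _ _)))
  have s2 : ∀ y : ST, ball y (min (r / 2) (min a c)) ⊆ closedBall y c := fun y =>
    ball_subset_closedBall.trans (closedBall_subset_closedBall
      ((min_le_right _ _).trans (min_le_right _ _)))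
  refine ⟨f, r, r / 2, min (r / 2) (min a c), by linarith, by positivity,
    by linarith [min_le_left (r / 2) (min a c)], hB, ⟨fun q hq => (hA0 q hq).2.1,
      fun q hq => (hU0 q (s1 _ hq)).2, fun q hq => (hD0 q (s2 _ hq)).2⟩, ?_⟩
  filter_upwards [hA, hU, hD] with k x y z
  exact ⟨fun q hq => (x q hq).1, fun q hq => (y q (s1 _ hq)).1, fun q hq => (z q (s2 _ hq)).1⟩

/-- the charts converge -/
theorem tend_Ps (N : Nr l Fk F W φk φ) (hB : closedBall p r ⊆ W) (hr : δ + η ≤ r)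
    (b : Bx f φ p r η δ) (c : Ch F X (ball (f.pr p) δ) (f.box p η δ) f.L)
    {Xk : α → E2 × ℝ → E}
    (ck : ∀ᶠ k in l, Ch (Fk k) (Xk k) (ball (f.pr p) δ) (f.box p η δ) f.L) {κ : β → α}
    (hκ : Tendsto κ l' l) {qk : β → E2 × ℝ} {q : E2 × ℝ} (hq : q ∈ ball (f.pr p) δ)
    (hqk : Tendsto qk l' (𝓝 q)) :
    Tendsto (fun j => Ps (Xk (κ j)) (qk j)) l' (𝓝 (Ps X q)) := by
  have hev : ∀ᶠ j in l', Ps (Xk (κ j)) (qk j) ∈ f.box p η δ ∧
      f.pr (Ps (Xk (κ j)) (qk j)) = qk j ∧ φk (κ j) (Ps (Xk (κ j)) (qk j)) = 0 := by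
    filter_upwards [hκ.eventually ck, hκ.eventually N.lock, hqk.eventually (isOpen_ball.mem_nhds hq)]
      with j a a' a''
    exact ⟨a.memW _ a'', Prod.ext (a.left _ a'') rfl,
      (a'.mem _ (hB (f.box_sub hr (a.memW _ a'')))).1 (a.mem _ a'')⟩
  refine (isCompact_closedBall p r).tendsto_nhds_of_unique_mapClusterPt
    (hev.mono fun j a => f.box_sub hr a.1) fun y hy hcl => ?_
  obtain ⟨u, hu, hy'⟩ := mapClusterPt_iff_ultrafilter.1 hcl
  have hev' := hev.filter_mono hu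
  have e1 : f.pr y = q := tendsto_nhds_unique ((f.cont_pr.tendsto y).comp hy')
    ((hqk.mono_left hu).congr' (hev'.mono fun j a => a.2.1.symm))
  have e2 : φ y = 0 := tendsto_nhds_unique (N.jc (hB hy) (hκ.mono_left hu) hy').val
    (tendsto_const_nhds.congr' (hev'.mono fun j a => a.2.2.symm))
  have e3 : |f.ht p y| ≤ η := le_of_tendsto (((f.cont_ht p).abs.tendsto y).comp hy')
    (hev'.mono fun j a => a.1.2.le)
  have e4 := c.right y ((N.loc.mem y (hB hy)).2 e2) (b.ne_end (e1 ▸ hq) e2 e3)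
  rw [← e1]
  exact Prod.ext e4.symm rfl

/-- the conclusion for a cutoff `χ` -/
structure Ok (l : Filter α) (Fk : α → Mv) (F : Mv) (g : Jt → ℝ) (tk : α → ℝ) (t : ℝ)
    (χ : E → ℝ) : Prop where
  ik : ∀ᶠ k in l, Integrable (fun x => χ x * Gi g (Fk k) (tk k) x) ((Fk k).mu (tk k))
  i : Integrable (fun x => χ x * Gi g F t x) (F.mu t)
  lim : Tendsto (fun k => ∫ x, χ x * Gi g (Fk k) (tk k) x ∂(Fk k).mu (tk k)) l
    (𝓝 (∫ x, χ x * Gi g F t x ∂F.mu t))

theorem ok_near [l.NeBot] (hg : Continuous g) (N : Nr l Fk F W φk φ) (hp : p ∈ W) (hM : p ∈ F.M)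
    {tk : α → ℝ} (ht : Tendsto tk l (𝓝 p.2)) : ∃ O : Set E, IsOpen O ∧ p.1 ∈ O ∧
      ∀ χ : E → ℝ, Continuous χ → ∀ C ⊆ O, IsCompact C → (∀ x ∉ C, χ x = 0) →
        Ok l Fk F g tk p.2 χ := by
  obtain ⟨f, r, η, δ, hη, hδ, hr, hB, b, bk⟩ := exists_setup N hp hM
  obtain ⟨X, c⟩ := exists_box_ch N.loc hB hr hη b
  have hex : ∀ k, ∃ Y, (Fk k).Loc W (φk k) → Bx f (φk k) p r η δ →
      Ch (Fk k) Y (ball (f.pr p) δ) (f.box p η δ) f.L := fun k => by
    by_cases h : (Fk k).Loc W (φk k) ∧ Bx f (φk k) p r η δ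
    · obtain ⟨Y, hY⟩ := exists_box_ch h.1 hB hr hη h.2
      exact ⟨Y, fun _ _ => hY⟩
    · exact ⟨X, fun a b => (h ⟨a, b⟩).elim⟩
  choose Xk hXk using hex
  have ck : ∀ᶠ k in l, Ch (Fk k) (Xk k) (ball (f.pr p) δ) (f.box p η δ) f.L :=
    (N.lock.and bk).mono fun k a => hXk k a.1 a.2
  refine ⟨{x | (x, p.2) ∈ f.box p η δ}, (f.open_box _ _ _).preimage (Continuous.prodMk_left _),
    ⟨mem_ball_self hδ, by simpa [Fr.ht] using hη⟩, fun χ hχ C hC hc h0 => ?_⟩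
  have t0 : dist p.2 p.2 < δ := by simpa using hδ
  have htk := ht.eventually (ball_mem_nhds _ hδ)
  have I := int_box hχ hg N.loc hB hr b c t0 hc hC h0
  have Ik := (N.lock.and (bk.and (ck.and htk))).mono fun k a =>
    int_box hχ hg a.1 hB hr a.2.1 a.2.2.1 a.2.2.2 hc hC h0
  refine ⟨Ik.mono fun k a => a.1, I.1, ?_⟩
  rw [I.2]
  refine (tendsto_int (hc.image f.L.continuous) ?_
    ((contOn_Ga hχ hg N.loc hB hr b c _).mono (sub_Ut t0 hC)) fun z hz => ?_).congr'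
      (Ik.mono fun k a => a.2.symm)
  · filter_upwards [N.lock, bk, ck, htk] with k a1 a2 a3 a4
    exact (contOn_Ga hχ hg a1 hB hr a2 a3 _).mono (sub_Ut a4 hC)
  · have hz' := sub_Ut t0 hC hz
    have hy := f.box_sub hr (c.memW _ hz')
    exact tend_Ga hχ hg (N.jc (hB hy) tendsto_fst (tend_Ps N hB hr b c ck tendsto_fst hz'
      ((tendsto_snd.mono_right nhdsWithin_le_nhds).prodMk_nhds (ht.comp tendsto_fst))))
      (b.pos _ hy).ne'

end Crest.Agent.N250.CMu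

end
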