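import Crest.Agent.N250.T.Dens
import Crest.Agent.N250.FV.Hu4

/-!
# Row 250 (helper49): closed forms of `FsContS` and `ReachedS`
-/

namespace Crest.Agent.N250

theorem fsContS_holds : FsContS := fsContS_of muContS_holds

theorem reachedS_holds : ReachedS := reachedS_of huiskenS_holds fsContS_holds

end Crest.Agent.N250
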