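import Crest.Agent.N250.Re.Comm

/-!
# Row 250 (helper26): spacetime jets of a graph function from the jets of the normal
-/

set_option autoImplicit false
open MeasureTheory Set Filter Topology
open scoped ContDiff InnerProductSpace
open Crest.GeometryTopology.MCF

noncomputable section

namespace Crest.Agent.N250.SJ

/-- a graph over `e^⊥` with bounded jets of the normal at `p` -/
structure Cf (C : ℕ → ℝ) (B : ℝ) where
  F : Mv
  W : Set ST
  u : ST → ℝ
  x₀ : E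
  e : E
  z : E
  a : ℝ
  b : ℝ
  p : ST
  sub : F.M ⊆ W
  he : ‖e‖ = 1
  loc : F.Loc W fun q => ⟪q.1 - x₀, e⟫_ℝ - u q
  inv : ∀ (q : ST) (s : ℝ), u (q.1 + s • e, q.2) = u q
  hp : p ∈ F.M
  hV : ∀ q ∈ F.M, F.V q = a * F.H q + b * F.xn x₀ q + ⟪z, F.n q⟫_ℝ
  ha : |a| ≤ B
  hb : |b| ≤ B
  hz : ‖z‖ ≤ B
  hx : ‖p.1 - x₀‖ ≤ B
  hu : ‖gradX u p.1 p.2‖ ≤ B
  jet : ∀ k, F.NJet k (C k) p

variable {C : ℕ → ℝ} {B : ℝ}

theorem Cf.reg (i : Cf C B) : i.F.Reg := fun _ hq => ⟨_, _, i.sub hq, i.loc⟩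

theorem fd_inv {g : ST → ℝ} {e : E} (h : ∀ (q : ST) (s : ℝ), g (q.1 + s • e, q.2) = g q) {q : ST}
    (hg : DifferentiableAt ℝ g q) : fderiv ℝ g q (e, 0) = 0 := by
  have h1 : HasDerivAt (fun s : ℝ => ((q.1 + s • e, q.2) : ST)) (e, 0) 0 := by
    have := (((hasDerivAt_id (0 : ℝ)).smul_const e).const_add q.1).prodMk (hasDerivAt_const 0 q.2)
    simpa using this
  have h2 := HasFDerivAt.comp_hasDerivAt_of_eq (0 : ℝ) hg.hasFDerivAt h1 (by simp)
  have h3 : (g ∘ fun s : ℝ => ((q.1 + s • e, q.2) : ST)) = fun _ => g q := funext fun s => h q s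
  rw [h3] at h2
  exact h2.unique (hasDerivAt_const 0 _)

/-- all derivatives of an invariant function are invariant -/
theorem itf_inv {G : Type} [NormedAddCommGroup G] [NormedSpace ℝ G] {g : ST → G} {e : E}
    (h : ∀ (q : ST) (s : ℝ), g (q.1 + s • e, q.2) = g q) (m : ℕ) (q : ST) (s : ℝ) :
    iteratedFDeriv ℝ m g (q.1 + s • e, q.2) = iteratedFDeriv ℝ m g q := by
  have h1 : (fun z : ST => g (z + (s • e, 0))) = g := funext fun z => by
    rw [← h z s]; congr 1; ext <;> simp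
  have := iteratedFDeriv_comp_add_right (𝕜 := ℝ) (f := g) m ((s • e, 0) : ST) q
  rw [h1] at this
  rw [this]; congr 1; ext <;> simp

theorem fderiv_inv' {g : ST → ℝ} {e : E}
    (h : ∀ (q : ST) (s : ℝ), g (q.1 + s • e, q.2) = g q) (q : ST) (s : ℝ) :
    fderiv ℝ g (q.1 + s • e, q.2) = fderiv ℝ g q := by
  have h1 : (fun z : ST => g (z + (s • e, 0))) = g := funext fun z => by
    rw [← h z s]; congr 1; ext <;> simp
  have := fderiv_comp_add_right (𝕜 := ℝ) (f := g) (x := q) ((s • e, 0) : ST)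
  rw [h1] at this
  rw [this]; congr 1; ext <;> simp

theorem Cf.sm_u (i : Cf C B) : ContDiffOn ℝ ∞ i.u i.W := by
  have h1 : ContDiffOn ℝ ∞ (fun q : ST => ⟪q.1 - i.x₀, i.e⟫_ℝ) i.W :=
    (contDiffOn_fst.sub contDiffOn_const).inner ℝ contDiffOn_const
  exact (h1.sub i.loc.sm).congr fun q _ => by ring

theorem Cf.du (i : Cf C B) {q : ST} (hq : q ∈ i.W) : DifferentiableAt ℝ i.u q :=
  (i.sm_u.contDiffAt (i.loc.isOpen.mem_nhds hq)).differentiableAt (by simp)

theorem Cf.fd_phi (i : Cf C B) {q : ST} (hq : q ∈ i.W) (v : E) :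
    fderiv ℝ (fun q : ST => ⟪q.1 - i.x₀, i.e⟫_ℝ - i.u q) q (v, 0) =
      ⟪v, i.e⟫_ℝ - fderiv ℝ i.u q (v, 0) := by
  have h1 : HasFDerivAt (fun q : ST => ⟪q.1 - i.x₀, i.e⟫_ℝ)
      ((innerSL ℝ i.e).comp (ContinuousLinearMap.fst ℝ E ℝ)) q := by
    have := (((innerSL ℝ i.e).comp (ContinuousLinearMap.fst ℝ E ℝ)).hasFDerivAt (x := q)).sub_const
      ⟪i.e, i.x₀⟫_ℝ
    refine this.congr_of_eventuallyEq (Eventually.of_forall fun r => ?_)
    simp [inner_sub_left, real_inner_comm]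
  rw [(h1.fun_sub (i.du hq).hasFDerivAt).fderiv]
  simp [real_inner_comm]

/-- `|∇φ| ⟨n, e⟩ = 1` -/
theorem Cf.ne_mul (i : Cf C B) {q : ST} (hq : q ∈ i.F.M) :
    ‖gradX (fun q : ST => ⟪q.1 - i.x₀, i.e⟫_ℝ - i.u q) q.1 q.2‖ * ⟪i.F.n q, i.e⟫_ℝ = 1 := by
  have h1 := i.loc.fderiv_eq (i.sub hq) hq (i.e, 0)
  rw [i.fd_phi (i.sub hq), fd_inv i.inv (i.du (i.sub hq)), real_inner_self_eq_norm_sq, i.he] at h1
  simp only [mul_zero, sub_zero] at h1
  linarith

theorem Cf.ne_ne (i : Cf C B) {q : ST} (hq : q ∈ i.F.M) : ⟪i.F.n q, i.e⟫_ℝ ≠ 0 := fun h => by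
  have := i.ne_mul hq
  rw [h, mul_zero] at this
  exact zero_ne_one this

theorem Cf.inv_le (i : Cf C B) : |(⟪i.F.n i.p, i.e⟫_ℝ)⁻¹| ≤ 1 + B := by
  have h1 := i.ne_mul i.hp
  set g := gradX (fun q : ST => ⟪q.1 - i.x₀, i.e⟫_ℝ - i.u q) i.p.1 i.p.2 with hg
  rw [← eq_inv_of_mul_eq_one_left h1, abs_norm]
  have h2 : g = i.e - gradX i.u i.p.1 i.p.2 := by
    apply ext_inner_right ℝ
    intro v
    rw [hg, inner_gradX (i.loc.diffAt (i.sub i.hp)), i.fd_phi (i.sub i.hp), inner_sub_left,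
      inner_gradX (i.du (i.sub i.hp)), real_inner_comm]
  rw [h2]
  exact (norm_sub_le _ _).trans (by rw [i.he]; linarith [i.hu])

/-- universal polynomials in the jets of the normal, the position and `1 / ⟨n, e⟩` -/
inductive Gen : (Cf C B → ST → ℝ) → Prop
  | const (c : Cf C B → ℝ) (K : ℝ) (h : ∀ i, |c i| ≤ K) : Gen fun i _ => c i
  | jet (l : List (Fin 3)) (a : Fin 3) : Gen fun i => i.F.DL l (i.F.nu a)
  | coord (a : Fin 3) : Gen fun i q => q.1 a - i.x₀ a
  | inv : Gen fun i q => (⟪i.F.n q, i.e⟫_ℝ)⁻¹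
  | add {f g : Cf C B → ST → ℝ} : Gen f → Gen g → Gen fun i q => f i q + g i q
  | mul {f g : Cf C B → ST → ℝ} : Gen f → Gen g → Gen fun i q => f i q * g i q
  | congr {f g : Cf C B → ST → ℝ} : Gen f → (∀ i, ∀ q ∈ i.F.M, g i q = f i q) → Gen g

theorem sm_DL' {F : Mv} (h : F.Reg) {f : ST → ℝ} (hf : F.Sm f) (l : List (Fin 3)) :
    F.Sm (F.DL l f) := by
  induction l with
  | nil => exact hf
  | cons a l ih => exact h.sm_D ih a

namespace Gen

variable {f g : Cf C B → ST → ℝ}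

theorem cst (c : ℝ) : Gen fun (_ : Cf C B) _ => c := const (fun _ => c) |c| fun _ => le_rfl

theorem sum {κ : Type} (s : Finset κ) {f : κ → Cf C B → ST → ℝ} (h : ∀ k, Gen (f k)) :
    Gen fun i q => ∑ k ∈ s, f k i q := by
  classical
  induction s using Finset.induction_on with
  | empty => simpa using cst 0
  | insert k s hk ih => simpa [Finset.sum_insert hk] using (h k).add ih

theorem neg (h : Gen f) : Gen fun i q => -f i q :=
  ((cst (-1)).mul h).congr fun _ _ _ => by ring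

theorem sub (h : Gen f) (h' : Gen g) : Gen fun i q => f i q - g i q :=
  (h.add h'.neg).congr fun _ _ _ => by ring

theorem nu (a : Fin 3) : Gen fun i : Cf C B => i.F.nu a := jet [] a

theorem A (a b : Fin 3) : Gen fun i : Cf C B => i.F.A a b := jet [a] b

theorem coe (v : Cf C B → E) (K : ℝ) (h : ∀ i, ‖v i‖ ≤ K) (a : Fin 3) :
    Gen fun (i : Cf C B) _ => v i a :=
  const (fun i => v i a) K fun i => (PiLp.norm_apply_le (v i) a).trans (h i)

theorem e (a : Fin 3) : Gen fun (i : Cf C B) _ => i.e a := coe _ 1 (fun i => i.he.le) a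

theorem V : Gen fun i : Cf C B => i.F.V := by
  refine ((((const (fun i => i.a) B fun i => i.ha).mul (sum Finset.univ fun a => A a a)).add
    ((const (fun i => i.b) B fun i => i.hb).mul
      (sum Finset.univ fun a => (coord a).mul (nu a)))).add
    (sum Finset.univ fun a => (coe (fun i => i.z) B (fun i => i.hz) a).mul (nu a))).congr
    fun i q hq => ?_
  rw [i.hV q hq, Mv.xn, inner_eq_sum, inner_eq_sum]
  simp [Mv.H, Mv.nu]

theorem sm (h : Gen f) (i : Cf C B) : i.F.Sm (f i) := by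
  induction h with
  | const c K h => exact contDiffOn_const
  | jet l a => exact sm_DL' i.reg (i.reg.sm_nu a) l
  | coord a => exact ContDiffOn.sub (Mv.sm_x a) contDiffOn_const
  | inv => exact (ContDiffOn.inner ℝ i.reg.sm_n contDiffOn_const).inv fun q hq => i.ne_ne hq
  | add _ _ a b => exact ContDiffOn.add a b
  | mul _ _ a b => exact ContDiffOn.mul a b
  | congr _ e a => exact a.congr (e i)

theorem bd (h : Gen f) : ∃ K, ∀ i, |f i i.p| ≤ K := by
  induction h with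
  | const c K h => exact ⟨K, h⟩
  | jet l a => exact ⟨C l.length, fun i => i.jet _ a l rfl⟩
  | coord a => exact ⟨B, fun i => (PiLp.norm_apply_le (i.p.1 - i.x₀) a).trans i.hx⟩
  | inv => exact ⟨1 + B, fun i => i.inv_le⟩
  | add _ _ a b =>
    obtain ⟨K, a⟩ := a
    obtain ⟨L, b⟩ := b
    exact ⟨K + L, fun i => (abs_add_le _ _).trans (add_le_add (a i) (b i))⟩
  | mul _ _ a b =>
    obtain ⟨K, a⟩ := a
    obtain ⟨L, b⟩ := b
    exact ⟨K * L, fun i => by
      rw [abs_mul]; exact mul_le_mul (a i) (b i) (abs_nonneg _) ((abs_nonneg _).trans (a i))⟩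
  | congr _ e a =>
    obtain ⟨K, a⟩ := a
    exact ⟨K, fun i => by rw [e i _ i.hp]; exact a i⟩

/-- closure under a tangent field -/
theorem td {X : Cf C B → ST → ST} (hT : ∀ i : Cf C B, ∀ q ∈ i.F.M, i.F.Tg q (X i q))
    (hX : ∀ a, Gen fun i q => (X i q).1 a)
    (hj : ∀ l a, Gen fun i q => i.F.td (i.F.DL l (i.F.nu a)) q (X i q)) (h : Gen f) :
    Gen fun i q => i.F.td (f i) q (X i q) := by
  induction h with
  | const c K h => exact (cst 0).congr fun i q hq => i.reg.td_const hq _ (hT i q hq)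
  | jet l a => exact hj l a
  | coord a =>
    refine (hX a).congr fun i q hq => ?_
    exact i.reg.td_eq hq ((((EuclideanSpace.proj (𝕜 := ℝ) a).comp
      (ContinuousLinearMap.fst ℝ E ℝ)).hasFDerivAt.sub_const _).hasFDerivWithinAt) (hT i q hq)
  | inv =>
    refine ((inv.mul inv).neg.mul (sum Finset.univ fun a => (e a).mul (hj [] a))).congr
      fun i q hq => ?_
    have h1 : i.F.Sm fun q => ⟪i.F.n q, i.e⟫_ℝ := ContDiffOn.inner ℝ i.reg.sm_n contDiffOn_const
    rw [i.reg.td_comp1 hq (h1.diffW hq) (hasDerivAt_inv (i.ne_ne hq)) (hT i q hq)]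
    have h2 := i.reg.td_comp (ψ := innerSL ℝ i.e) hq (i.reg.sm_n.diffW hq)
      (ContinuousLinearMap.hasFDerivAt _) (hT i q hq)
    simp only [innerSL_apply_apply, real_inner_comm (i.F.n _) i.e] at h2
    rw [h2, inner_eq_sum i.e]
    simp only [i.reg.td_n hq (hT i q hq), Mv.DL, List.foldr_nil]
    rw [sq, mul_inv]
  | add hf hg a b =>
    exact (a.add b).congr fun i q hq =>
      i.reg.td_add hq ((hf.sm i).diffW hq) ((hg.sm i).diffW hq) (hT i q hq)
  | mul hf hg a b =>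
    exact ((hf.mul b).add (a.mul hg)).congr fun i q hq =>
      i.reg.td_mul hq ((hf.sm i).diffW hq) ((hg.sm i).diffW hq) (hT i q hq)
  | congr _ e a => exact a.congr fun i q hq => by rw [Mv.td_congr' hq (e i)]

theorem D (h : Gen f) (a : Fin 3) : Gen fun i => i.F.D a (f i) :=
  td (X := fun i q => (i.F.PL q (ee a), 0)) (fun i _ hq => i.reg.tg_PL hq _)
    (fun b => ((cst (if a = b then 1 else 0)).sub ((nu a).mul (nu b))).congr
      fun _ q _ => Mv.PL_ee q a b) (fun l b => jet (a :: l) b) h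

theorem Dt_jet (l : List (Fin 3)) (a : Fin 3) :
    Gen fun i : Cf C B => i.F.Dt (i.F.DL l (i.F.nu a)) := by
  induction l with
  | nil => exact (V.D a).neg.congr fun i q hq => i.reg.Dt_nu hq a
  | cons c l ih =>
    refine (((ih.D c).add ((nu c).mul (sum Finset.univ fun b => (V.D b).mul ((jet l a).D b)))).sub
      (V.mul (sum Finset.univ fun b => (A c b).mul ((jet l a).D b)))).congr fun i q hq => ?_
    have := i.reg.Dt_D hq (sm_DL' i.reg (i.reg.sm_nu a) l) c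
    simp only [N222.Pre.gam, Finset.sum_apply, Pi.mul_apply] at this
    exact this

theorem Dt (h : Gen f) : Gen fun i => i.F.Dt (f i) :=
  td (X := fun i q => (i.F.V q • i.F.n q, 1)) (fun i _ hq => i.reg.tg_vel hq)
    (fun b => (V.mul (nu b)).congr fun _ _ _ => rfl) Dt_jet h

end Gen

/-- ambient functions, invariant along `e`, universal on the track -/
structure Amb (g : Cf C B → ST → ℝ) : Prop where
  sm : ∀ i, ContDiffOn ℝ ∞ (g i) i.W
  inv : ∀ i (q : ST) (s : ℝ), g i (q.1 + s • i.e, q.2) = g i q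
  gen : Gen g

theorem Amb.der {g : Cf C B → ST → ℝ} (h : Amb g) (v : E) (c : ℝ) :
    Amb fun i q => fderiv ℝ (g i) q (v, c) := by
  refine ⟨fun i => ((h.sm i).fderiv_of_isOpen i.loc.isOpen (by simp)).clm_apply contDiffOn_const,
    fun i q s => by rw [fderiv_inv' (h.inv i)], ?_⟩
  have hl : Gen fun (i : Cf C B) q => (c * i.F.V q - ∑ a, i.F.nu a q * v a) *
      (⟪i.F.n q, i.e⟫_ℝ)⁻¹ :=
    (((Gen.cst c).mul Gen.V).sub
      (Gen.sum Finset.univ fun a => (Gen.nu a).mul (Gen.cst (v a)))).mul Gen.inv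
  refine (((Gen.cst c).mul h.gen.Dt).add (Gen.sum Finset.univ fun b =>
    (((Gen.cst (v b)).add (hl.mul (Gen.e b))).sub
      (((Gen.cst c).mul Gen.V).mul (Gen.nu b))).mul (h.gen.D b))).congr fun i q hq => ?_
  have hd : DifferentiableAt ℝ (g i) q :=
    ((h.sm i).contDiffAt (i.loc.isOpen.mem_nhds (i.sub hq))).differentiableAt (by simp)
  set lam := (c * i.F.V q - ∑ a, i.F.nu a q * v a) * (⟪i.F.n q, i.e⟫_ℝ)⁻¹ with hlam
  set y : E := v + lam • i.e - (c * i.F.V q) • i.F.n q with hy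
  have hy0 : ⟪i.F.n q, y⟫_ℝ = 0 := by
    have e1 : ⟪i.F.n q, v⟫_ℝ = ∑ a, i.F.nu a q * v a := inner_eq_sum _ _
    rw [hy, inner_sub_right, inner_add_right, inner_smul_right, inner_smul_right,
      i.reg.inner_n hq, hlam, inv_mul_cancel_right₀ (i.ne_ne hq), e1]
    ring
  have e2 : ((v, c) : ST) = c • (i.F.V q • i.F.n q, 1) + (y, 0) - lam • (i.e, 0) := by
    refine Prod.ext ?_ (by simp)
    simp only [hy, Prod.fst_sub, Prod.fst_add, Prod.smul_fst, smul_smul]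
    abel
  have hTy : i.F.Tg q (y, 0) := by simp only [Mv.Tg, hy0, mul_zero]
  rw [e2, map_sub, map_add, map_smul, map_smul, fd_inv (h.inv i) hd,
    ← i.reg.td_amb hq hd (i.reg.tg_vel hq), ← i.reg.td_amb hq hd hTy, Mv.td_perp _ hy0]
  simp only [smul_eq_mul, mul_zero, sub_zero, Mv.Dt]
  rfl

/-- basis of spacetime and the dual basis -/
def bs (j : Option (Fin 3)) : ST := j.elim (0, 1) fun a => (ee a, 0)

def db (j : Option (Fin 3)) : ST →L[ℝ] ℝ :=
  j.elim (ContinuousLinearMap.snd ℝ E ℝ) fun a =>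
    (EuclideanSpace.proj (𝕜 := ℝ) a).comp (ContinuousLinearMap.fst ℝ E ℝ)

theorem clm_eq (L : ST →L[ℝ] ℝ) :
    L = ∑ j, ContinuousLinearMap.toSpanSingleton ℝ (db j) (L (bs j)) := by
  refine ContinuousLinearMap.ext fun w => ?_
  have : w = ∑ j, db j w • bs j := by
    rw [Fintype.sum_option]
    refine Prod.ext ?_ (by simp [bs, db, Prod.snd_sum])
    simp only [bs, db, Option.elim, Prod.fst_add, Prod.fst_sum, Prod.smul_fst, smul_zero, zero_add]
    exact eq_sum_ee w.1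
  conv_lhs => rw [this]
  simp [mul_comm]

theorem Amb.bd (m : ℕ) : ∀ {g : Cf C B → ST → ℝ}, Amb g →
    ∃ K, ∀ i, ‖iteratedFDeriv ℝ m (g i) i.p‖ ≤ K := by
  induction m with
  | zero => intro g h; simpa using h.gen.bd
  | succ m ih =>
    intro g h
    choose K hK using fun j => ih (h.der (bs j).1 (bs j).2)
    refine ⟨∑ j, ‖ContinuousLinearMap.toSpanSingleton ℝ (db j)‖ * K j, fun i => ?_⟩
    have hc : ∀ j, ContDiffAt ℝ m (fun q => fderiv ℝ (g i) q (bs j)) i.p := fun j =>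
      (((h.der (bs j).1 (bs j).2).sm i).contDiffAt
        (i.loc.isOpen.mem_nhds (i.sub i.hp))).of_le (by exact_mod_cast le_top)
    rw [← norm_iteratedFDeriv_fderiv, show fderiv ℝ (g i) = fun q =>
      ∑ j, ContinuousLinearMap.toSpanSingleton ℝ (db j) (fderiv ℝ (g i) q (bs j)) from
        funext fun q => clm_eq _,
      iteratedFDeriv_fun_sum_apply (f := fun j q =>
        ContinuousLinearMap.toSpanSingleton ℝ (db j) (fderiv ℝ (g i) q (bs j))) fun j _ =>
        (ContinuousLinearMap.toSpanSingleton ℝ (db j)).contDiff.contDiffAt.comp _ (hc j)]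
    refine (norm_sum_le _ _).trans (Finset.sum_le_sum fun j _ => ?_)
    exact ((ContinuousLinearMap.toSpanSingleton ℝ (db j)).norm_iteratedFDeriv_comp_left (hc j)
      le_rfl).trans (mul_le_mul_of_nonneg_left (hK j i) (norm_nonneg _))

theorem amb_u : Amb fun i : Cf C B => i.u := by
  refine ⟨fun i => i.sm_u, fun i => i.inv, (Gen.sum Finset.univ fun a =>
    (Gen.coord a).mul (Gen.e a)).congr fun i q hq => ?_⟩
  have := (i.loc.mem q (i.sub hq)).1 hq
  rw [← sub_eq_zero.1 this, inner_eq_sum]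
  rfl

/-! ### restriction to an open set -/

section Res

variable {F : Mv} {W : Set ST} {p : ST}

theorem res_td (hW : IsOpen W) (hp : p ∈ W) (f : ST → ℝ) : (F.res W).td f p = F.td f p :=
  fderivWithin_inter (hW.mem_nhds hp)

theorem res_DL (hW : IsOpen W) (f : ST → ℝ) (l : List (Fin 3)) :
    ∀ p ∈ W, p ∈ F.M → (F.res W).DL l f p = F.DL l f p := by
  induction l with
  | nil => exact fun _ _ _ => rfl
  | cons a l ih =>
    intro p hp hM
    have e : (F.res W).DL l f =ᶠ[𝓝[F.M] p] F.DL l f := by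
      filter_upwards [nhdsWithin_le_nhds (hW.mem_nhds hp), self_mem_nhdsWithin] with q a b
      exact ih q a b
    change (F.res W).td ((F.res W).DL l f) p _ = F.td (F.DL l f) p _
    rw [res_td hW hp, Mv.td_congr hM e]
    rfl

theorem res_H (hW : IsOpen W) (hp : p ∈ W) (hM : p ∈ F.M) : (F.res W).H p = F.H p := by
  simp only [Mv.H, Finset.sum_apply]
  exact Finset.sum_congr rfl fun a _ => res_DL hW (F.nu a) [a] p hp hM

theorem res_loc {φ : ST → ℝ} (h : F.Loc W φ) : (F.res W).Loc W φ :=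
  ⟨h.isOpen, h.sm, h.ne, fun q hq => (and_iff_left hq).trans (h.mem q hq),
    fun q hq hM => h.n_eq q hq hM.1, fun q hq hM => h.V_eq q hq hM.1⟩

end Res

/-- general normal speed `a H + b ⟨x - x₀, n⟩ + ⟨z, n⟩` (static, rescaled, …); only `Loc` is used -/
theorem sheet_jets' (C : ℕ → ℝ) (B : ℝ) (m : ℕ) : ∃ C' : ℝ, ∀ (F : Mv) (W : Set ST) (u : ST → ℝ)
    (x₀ e z : E) (a b : ℝ) (p : ST), ‖e‖ = 1 → F.Loc W (fun q => ⟪q.1 - x₀, e⟫_ℝ - u q) →
    (∀ (q : ST) (s : ℝ), u (q.1 + s • e, q.2) = u q) → p ∈ W → p ∈ F.M →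
    (∀ q ∈ W, q ∈ F.M → F.V q = a * F.H q + b * F.xn x₀ q + ⟪z, F.n q⟫_ℝ) →
    |a| ≤ B → |b| ≤ B → ‖z‖ ≤ B → ‖p.1 - x₀‖ ≤ B → ‖gradX u p.1 p.2‖ ≤ B →
    (∀ k, F.NJet k (C k) p) → ‖iteratedFDeriv ℝ m u p‖ ≤ C' := by
  obtain ⟨K, hK⟩ := (amb_u (C := C) (B := B)).bd m
  refine ⟨K, fun F W u x₀ e z a b p he hl hi hW hM hV ha hb hz hx hu hj => ?_⟩
  exact hK ⟨F.res W, W, u, x₀, e, z, a, b, p, inter_subset_right, he, res_loc hl, hi, ⟨hM, hW⟩,
    fun q hq => by rw [res_H hl.isOpen hq.2 hq.1]; exact hV q hq.2 hq.1, ha, hb, hz, hx, hu,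
    fun k c l hl' => by
      rw [show (F.res W).nu c = F.nu c from rfl, res_DL hl.isOpen _ l p hW hM]
      exact hj k c l hl'⟩

theorem sheet_jets (C : ℕ → ℝ) (B : ℝ) (m : ℕ) : ∃ C' : ℝ, ∀ (F : Mv) (W : Set ST) (u : ST → ℝ)
    (x₀ e : E) (p : ST), F.IsMCF → ‖e‖ = 1 → F.Loc W (fun q => ⟪q.1 - x₀, e⟫_ℝ - u q) →
    (∀ (q : ST) (s : ℝ), u (q.1 + s • e, q.2) = u q) → p ∈ W → p ∈ F.M →
    ‖p.1 - x₀‖ ≤ B → ‖gradX u p.1 p.2‖ ≤ B →
    (∀ k, F.NJet k (C k) p) → ‖iteratedFDeriv ℝ m u p‖ ≤ C' := by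
  obtain ⟨K, hK⟩ := sheet_jets' C (max B 1) m
  exact ⟨K, fun F W u x₀ e p hF he hl hi hW hM hx hu hj =>
    hK F W u x₀ e 0 (-1) 0 p he hl hi hW hM (fun q _ hq => by rw [hF.2 q hq]; simp)
      (by simp) (by simp) (by simp) (hx.trans (le_max_left _ _))
      (hu.trans (le_max_left _ _)) hj⟩

end Crest.Agent.N250.SJ

end
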