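import Crest.Agent.N250.T.SJet
import Crest.Agent.N250.Im.MV
import Crest.Agent.N250.Min.Crv

/-!
# Row 250 (helper26): local graphs over a fixed plane, lifting of segments
-/

set_option autoImplicit false
open MeasureTheory Set Filter Topology Function Metric
open scoped ContDiff InnerProductSpace
open Crest.GeometryTopology.MCF

noncomputable section

namespace Crest.Agent.N250.Sht

variable {F : Mv} {e : E} {p : ST}

theorem inner_killL (he : ⟪e, e⟫_ℝ = 1) (q : ST) : ⟪e, (killL e q).1⟫_ℝ = 0 := by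
  simp only [killL_apply, inner_sub_right, inner_smul_right, he]; ring

theorem killL_idem (he : ⟪e, e⟫_ℝ = 1) (q : ST) : killL e (killL e q) = killL e q := by
  conv_lhs => rw [killL_apply, inner_killL he, zero_smul, sub_zero]

theorem killL_shift (he : ⟪e, e⟫_ℝ = 1) (q : ST) (s : ℝ) :
    killL e (q.1 + s • e, q.2) = killL e q := by
  simp only [killL_apply, inner_add_right, inner_smul_right, he, mul_one, add_smul]
  congr 1; abel

theorem eq_of_killL {q q' : ST} (h : killL e q = killL e q') :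
    q'.1 - q.1 = ⟪e, q'.1 - q.1⟫_ℝ • e ∧ q'.2 = q.2 := by
  have h1 : q.1 - ⟪e, q.1⟫_ℝ • e = q'.1 - ⟪e, q'.1⟫_ℝ • e := congrArg Prod.fst h
  have h2 : (killL e q).2 = (killL e q').2 := congrArg Prod.snd h
  refine ⟨?_, h2.symm⟩
  rw [inner_sub_right, sub_smul, sub_eq_sub_iff_sub_eq_sub, ← h1]

/-- a local graph over `e^⊥` near `p`: `h` lifts, and `O ∩ M` lies in the graph -/
structure LG (F : Mv) (e : E) (p : ST) (U O : Set ST) (h : ST → ST) : Prop where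
  opU : IsOpen U
  opO : IsOpen O
  memU : p ∈ U
  memO : p ∈ O
  inv : ∀ q q', killL e q = killL e q' → (q ∈ U → q' ∈ U) ∧ h q = h q'
  sm : ContDiffOn ℝ ∞ h U
  mem : ∀ q ∈ U, h q ∈ F.M
  pr : ∀ q ∈ U, killL e (h q) = killL e q
  fix : ∀ q ∈ O, q ∈ F.M → h q = q

theorem exists_lg (hF : F.Reg) (he : ⟪e, e⟫_ℝ = 1) (hp : p ∈ F.M) (hn : ⟪F.n p, e⟫_ℝ ≠ 0) :
    ∃ U O h, LG F e p U O h := by
  obtain ⟨W, φ, hW, hl⟩ := hF p hp
  have hi : Injective (fderiv ℝ (flat φ e) p) := by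
    rw [(hasFDerivAt_flat _ (hl.diffAt hW)).fderiv, injective_iff_map_eq_zero]
    intro w hw
    have h1 : w.1 - ⟪e, w.1⟫_ℝ • e + fderiv ℝ φ p w • e = 0 := congrArg Prod.fst hw
    have h2 : w.2 + 0 = 0 := congrArg Prod.snd hw
    rw [add_zero] at h2
    have h3 := congrArg (fun v => ⟪e, v⟫_ℝ) h1
    simp only [inner_add_right, inner_sub_right, inner_smul_right, he, inner_zero_right, mul_one,
      sub_self, zero_add] at h3
    have h4 := (hl.tg_iff hW hp).2 h3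
    rw [Mv.Tg, h2, mul_zero] at h4
    rw [h3, zero_smul, add_zero, sub_eq_zero] at h1
    rw [h1, inner_smul_right, mul_eq_zero, or_iff_left hn] at h4
    rw [h4, zero_smul] at h1
    exact Prod.ext h1 h2
  obtain ⟨G, h1, h2, h3, h4⟩ := exists_localDiffeo hl.isOpen (hl.sm_flat e) hW hi
  have hfl : ∀ q ∈ W, q ∈ F.M → flat φ e q = killL e q := fun q hq hM => by
    simp only [flat, (hl.mem q hq).1 hM, zero_add, neg_smul, killL_apply, sub_eq_add_neg]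
  have hkf : ∀ q, killL e (flat φ e q) = killL e q := fun q => killL_shift he q _
  have key : ∀ q, killL e q ∈ G.target → flat φ e (G.symm (killL e q)) = killL e q :=
    fun q hq => by rw [← h3]; exact G.right_inv hq
  refine ⟨killL e ⁻¹' G.target, G.source, fun q => G.symm (killL e q),
    G.open_target.preimage (killL e).continuous, G.open_source, ?_, h1,
    fun q q' hq => ⟨fun a => by rwa [mem_preimage, ← hq], by simp only [hq]⟩,
    h4.comp (killL e).contDiff.contDiffOn fun q hq => hq, fun q hq => ?_, fun q hq => ?_,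
    fun q hq hM => ?_⟩
  · rw [mem_preimage, ← hfl p hW hp, ← h3]; exact G.map_source h1
  · rw [hl.mem _ (h2 (G.map_target hq)), ← inner_flat φ he, key q hq, inner_killL he]
  · rw [← hkf, key q hq, killL_idem he]
  · rw [← hfl q (h2 hq) hM, ← h3, G.left_inv hq]

/-- the derivative of the lift -/
theorem LG.der {U O : Set ST} {h : ST → ST} (hF : F.Reg) (hp : p ∈ F.M) (g : LG F e p U O h)
    (w : ST) : F.Tg p (fderiv ℝ h p w) ∧ killL e (fderiv ℝ h p w) = killL e w := by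
  have d := ((g.sm.contDiffAt (g.opU.mem_nhds g.memU)).differentiableAt (by simp)).hasFDerivAt
  have hp' : h p = p := g.fix p g.memO hp
  constructor
  · obtain ⟨W, φ, hW, hl⟩ := hF p hp
    rw [hl.tg_iff hW hp]
    have d1 : HasFDerivAt φ (fderiv ℝ φ p) (h p) := by rw [hp']; exact (hl.diffAt hW).hasFDerivAt
    have d2 := d1.comp p d
    have e0 : (fun _ => (0 : ℝ)) =ᶠ[𝓝 p] φ ∘ h := by
      have : ∀ᶠ q in 𝓝 p, h q ∈ W :=
        d.continuousAt.eventually (by rw [hp']; exact hl.isOpen.mem_nhds hW)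
      filter_upwards [this, g.opU.mem_nhds g.memU] with q a b
      exact ((hl.mem _ a).1 (g.mem q b)).symm
    have d3 := (d2.congr_of_eventuallyEq e0).unique (hasFDerivAt_const (0 : ℝ) p)
    exact congrArg (fun L : ST →L[ℝ] ℝ => L w) d3
  · have d2 := (killL e).hasFDerivAt.comp p d
    have e0 : (killL e : ST → ST) =ᶠ[𝓝 p] killL e ∘ h := by
      filter_upwards [g.opU.mem_nhds g.memU] with q b using (g.pr q b).symm
    exact congrArg (fun L : ST →L[ℝ] ST => L w)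
      ((d2.congr_of_eventuallyEq e0).unique (killL e).hasFDerivAt)

/-- size of a tangent vector with given projection, and of the derivative of the normal -/
theorem tg_bound (hF : F.Reg) (hp : p ∈ F.M) (he : ‖e‖ = 1) (hn : ‖F.n p - e‖ ≤ 1 / 2) {K : ℝ}
    (hV : |F.V p| ≤ K) (hT : ‖F.td F.n p (F.V p • F.n p, 1)‖ ≤ K) (hA : F.A2 p ≤ 2 ^ 2)
    {Z w : ST} (hZ : F.Tg p Z) (hk : killL e Z = killL e w) :
    ‖Z.1‖ ≤ 3 * ‖w.1‖ + 2 * K * |w.2| ∧ ‖F.td F.n p Z‖ ≤ 6 * ‖w.1‖ + 7 * K * |w.2| := by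
  obtain ⟨h1, h2⟩ := eq_of_killL hk.symm
  set l := ⟪e, Z.1 - w.1⟫_ℝ with hl
  have hn1 := hF.norm_n hp
  have hne : 1 / 2 ≤ ⟪F.n p, e⟫_ℝ := by
    have a := abs_real_inner_le_norm (F.n p - e) e
    rw [inner_sub_left, real_inner_self_eq_norm_sq, he] at a
    linarith [(abs_le.1 a).1]
  have h3 : l * ⟪F.n p, e⟫_ℝ = F.V p * w.2 - ⟪F.n p, w.1⟫_ℝ := by
    have := congrArg (fun v => ⟪F.n p, v⟫_ℝ) h1
    simp only [inner_sub_right, inner_smul_right] at this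
    rw [Mv.Tg, h2] at hZ
    rw [← this, hZ]
  have h4 : |⟪F.n p, w.1⟫_ℝ| ≤ ‖w.1‖ := by
    have := abs_real_inner_le_norm (F.n p) w.1
    rwa [hn1, one_mul] at this
  have h5 : |F.V p * w.2| ≤ K * |w.2| := by
    rw [abs_mul]; exact mul_le_mul_of_nonneg_right hV (abs_nonneg _)
  have h6 : |l| ≤ 2 * ‖w.1‖ + 2 * K * |w.2| := by
    have a : |l| * ⟪F.n p, e⟫_ℝ ≤ K * |w.2| + ‖w.1‖ := by
      rw [← abs_of_nonneg (by linarith : 0 ≤ ⟪F.n p, e⟫_ℝ), ← abs_mul, h3]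
      exact (abs_sub _ _).trans (add_le_add h5 h4)
    nlinarith [abs_nonneg l]
  have h7 : ‖Z.1‖ ≤ 3 * ‖w.1‖ + 2 * K * |w.2| := by
    have a : Z.1 = w.1 + l • e := by rw [← h1]; abel
    have b := norm_add_le w.1 (l • e)
    rw [← a, norm_smul, he, Real.norm_eq_abs] at b
    linarith
  refine ⟨h7, ?_⟩
  set y : E := Z.1 - (w.2 * F.V p) • F.n p with hy
  have hy0 : ⟪F.n p, y⟫_ℝ = 0 := by
    rw [hy, inner_sub_right, inner_smul_right, hF.inner_n hp, hZ, h2]; ring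
  have e1 : Z = w.2 • (F.V p • F.n p, 1) + (y, 0) := by
    refine Prod.ext ?_ (by simp [h2])
    simp only [hy, Prod.fst_add, Prod.smul_fst, smul_smul]; abel
  have hyn : ‖y‖ ≤ ‖Z.1‖ + K * |w.2| := by
    refine (norm_sub_le _ _).trans ?_
    rw [norm_smul, hn1, mul_one, Real.norm_eq_abs, mul_comm w.2]
    linarith
  have a := Min.norm_td_n hF hp (by norm_num) hA hy0
  have b : ‖w.2 • F.td F.n p (F.V p • F.n p, 1)‖ ≤ |w.2| * K := by
    rw [norm_smul, Real.norm_eq_abs]; exact mul_le_mul_of_nonneg_left hT (abs_nonneg _)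
  have c : F.td F.n p Z = w.2 • F.td F.n p (F.V p • F.n p, 1) + F.td F.n p (y, 0) := by
    conv_lhs => rw [e1, map_add, map_smul]
  rw [c]
  refine (norm_add_le _ _).trans ?_
  nlinarith

theorem half_le (he1 : ‖e‖ = 1) {v : E} {b : ℝ} (h : ‖v - e‖ ≤ b) : 1 - b ≤ ⟪v, e⟫_ℝ := by
  have a := abs_real_inner_le_norm (v - e) e
  rw [inner_sub_left, real_inner_self_eq_norm_sq, he1] at a
  linarith [(abs_le.1 a).1]

/-- a short piece of a segment lifts -/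
theorem lift_step (hF : F.Reg) {q : ST} (h2 : q ∈ F.M) (he1 : ‖e‖ = 1) (hn2 : ‖F.n q - e‖ ≤ 1 / 2)
    {K a : ℝ} (hK : 0 ≤ K) (b1 : |F.V q| ≤ K) (b2 : ‖F.td F.n q (F.V q • F.n q, 1)‖ ≤ K)
    (b3 : F.A2 q ≤ 2 ^ 2) {w : ST} (hwa : 6 * ‖w.1‖ + 7 * K * |w.2| < a) :
    ∀ᶠ σ in 𝓝[>] (0 : ℝ), ∃ r ∈ F.M, killL e r = killL e (q + σ • w) ∧ ‖r.1 - q.1‖ ≤ σ * a ∧
      ‖F.n r - F.n q‖ ≤ σ * a := by
  have hee : ⟪e, e⟫_ℝ = 1 := by rw [real_inner_self_eq_norm_sq, he1, one_pow]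
  have hne : ⟪F.n q, e⟫_ℝ ≠ 0 := by
    have := half_le he1 hn2
    exact (by linarith : 0 < ⟪F.n q, e⟫_ℝ).ne'
  obtain ⟨U, O, h, g⟩ := exists_lg hF hee h2 hne
  obtain ⟨t1, t2⟩ := g.der hF h2 w
  obtain ⟨c1, c2⟩ := tg_bound hF h2 he1 hn2 b1 b2 b3 t1 t2
  have hq : h q = q := g.fix q g.memO h2
  have d := ((g.sm.contDiffAt (g.opU.mem_nhds g.memU)).differentiableAt (by simp)).hasFDerivAt
  have d0 : HasDerivAt (fun σ : ℝ => q + σ • w) w 0 := by
    simpa using ((hasDerivAt_id (0 : ℝ)).smul_const w).const_add q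
  have d1 : HasDerivAt (fun σ : ℝ => h (q + σ • w)) (fderiv ℝ h q w) 0 :=
    HasFDerivAt.comp_hasDerivAt_of_eq (0 : ℝ) d d0 (by simp)
  have hU : ∀ᶠ σ in 𝓝 (0 : ℝ), q + σ • w ∈ U :=
    d0.continuousAt.eventually (by simpa using g.opU.mem_nhds g.memU)
  have d2 : HasDerivAt (fun σ : ℝ => F.n (h (q + σ • w))) (F.td F.n q (fderiv ℝ h q w)) 0 := by
    have a := hF.sm_n.hasF h2
    have b := HasFDerivWithinAt.comp_hasDerivWithinAt_of_eq (s := {σ | q + σ • w ∈ U}) (0 : ℝ) a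
      d1.hasDerivWithinAt (fun σ hσ => g.mem _ hσ) (by simp [hq])
    exact b.hasDerivAt hU
  have d3 : HasDerivAt (fun σ : ℝ => (h (q + σ • w)).1) (fderiv ℝ h q w).1 0 :=
    (ContinuousLinearMap.fst ℝ E ℝ).hasFDerivAt.comp_hasDerivAt 0 d1
  have hK2 : 0 ≤ K * |w.2| := by positivity
  have l2 := (d2.hasDerivWithinAt (s := Ioi 0)).limsup_norm_slope_le (c2.trans_lt hwa)
  have l3 := (d3.hasDerivWithinAt (s := Ioi 0)).limsup_norm_slope_le
    (c1.trans_lt (by linarith [norm_nonneg w.1] : _ < a))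
  filter_upwards [l2, l3, nhdsWithin_le_nhds hU, self_mem_nhdsWithin] with σ a2 a3 a5 a6
  have a6 : 0 < σ := a6
  simp only [sub_zero, zero_smul, add_zero, hq, Real.norm_of_nonneg a6.le] at a2 a3
  rw [inv_mul_lt_iff₀ a6] at a2 a3
  exact ⟨_, g.mem _ a5, g.pr _ a5, a3.le, a2.le⟩

theorem cpt_of_proper {B : Set ST} (hBc : IsCompact B) (hP : F.Proper B) : IsCompact (F.M ∩ B) := by
  refine hBc.of_isClosed_subset (isClosed_of_closure_subset fun q hq => ?_) inter_subset_right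
  have h1 : q ∈ B := hBc.isClosed.closure_subset (closure_mono inter_subset_right hq)
  exact ⟨hP q (closure_mono inter_subset_left hq) h1, h1⟩

/-- the set of lifts -/
def TT (F : Mv) (X w : ST) (a : ℝ) : Set (ℝ × ST) := {z | z.1 ∈ Icc (0 : ℝ) 1 ∧ z.2 ∈ F.M ∧
  killL (F.n X) z.2 = killL (F.n X) (X + z.1 • w) ∧ ‖z.2.1 - X.1‖ ≤ z.1 * a ∧
    ‖F.n z.2 - F.n X‖ ≤ z.1 * a}

theorem TT_cpt (hF : F.Reg) {X w : ST} {a : ℝ} {B : Set ST} (hMB : IsCompact (F.M ∩ B))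
    (hin : ∀ z ∈ TT F X w a, z.2 ∈ B) : IsCompact (TT F X w a) := by
  have hc := (isCompact_Icc (a := (0 : ℝ)) (b := 1)).prod hMB
  have hn : ContinuousOn (fun z : ℝ × ST => ‖F.n z.2 - F.n X‖ - z.1 * a)
      (Icc 0 1 ×ˢ (F.M ∩ B)) :=
    (((hF.sm_n.continuousOn.comp continuousOn_snd fun z hz => hz.2.1).sub
      continuousOn_const).norm).sub (continuous_fst.mul continuous_const).continuousOn
  have h1 := hn.preimage_isClosed_of_isClosed hc.isClosed (isClosed_Iic (a := 0))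
  have h2 : IsClosed {z : ℝ × ST | killL (F.n X) z.2 = killL (F.n X) (X + z.1 • w)} :=
    isClosed_eq ((killL _).continuous.comp continuous_snd)
      ((killL _).continuous.comp (continuous_const.add (continuous_fst.smul continuous_const)))
  have h3 : IsClosed {z : ℝ × ST | ‖z.2.1 - X.1‖ ≤ z.1 * a} :=
    isClosed_le (continuous_snd.fst.sub continuous_const).norm
      (continuous_fst.mul continuous_const)
  refine hc.of_isClosed_subset ?_ fun z hz => ⟨hz.1, hz.2.1, hin z hz⟩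
  convert (h1.inter h2).inter h3 using 1
  ext z
  exact ⟨fun hz => ⟨⟨⟨⟨hz.1, hz.2.1, hin z hz⟩, sub_nonpos.2 hz.2.2.2.2⟩, hz.2.2.1⟩, hz.2.2.2.1⟩,
    fun hz => ⟨hz.1.1.1.1, hz.1.1.1.2.1, hz.1.2, hz.2, sub_nonpos.1 hz.1.1.2⟩⟩

/-- lifting of a segment that starts at `X` and does not go into the future -/
theorem lift_seg (hF : F.Reg) {X : ST} (hX : X ∈ F.M) {K a δ : ℝ} (ha : a ≤ 1 / 2) {w : ST}
    (hw : -δ ≤ w.2) (hw0 : w.2 ≤ 0) (hwa : 6 * ‖w.1‖ + 7 * K * |w.2| < a) (hK : 0 ≤ K)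
    (hP : F.Proper (closedBall X.1 a ×ˢ Icc (X.2 - δ) X.2))
    (hB : ∀ q ∈ F.M, q ∈ closedBall X.1 a ×ˢ Icc (X.2 - δ) X.2 → |F.V q| ≤ K ∧
      ‖F.td F.n q (F.V q • F.n q, 1)‖ ≤ K ∧ F.A2 q ≤ 2 ^ 2) :
    ∃ q ∈ F.M, killL (F.n X) q = killL (F.n X) (X + w) ∧ ‖q.1 - X.1‖ ≤ a ∧
      ‖F.n q - F.n X‖ ≤ a := by
  have he1 : ‖F.n X‖ = 1 := hF.norm_n hX
  have ha0 : 0 < a := lt_of_le_of_lt (by positivity) hwa
  have hin : ∀ z ∈ TT F X w a, z.2 ∈ closedBall X.1 a ×ˢ Icc (X.2 - δ) X.2 := by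
    rintro ⟨τ, q⟩ ⟨⟨h0, h1⟩, -, h3, h4, -⟩
    have h5 : q.2 = X.2 + τ * w.2 := (eq_of_killL h3.symm).2
    simp only at h0 h1 h4
    have h6 : τ * a ≤ a := mul_le_of_le_one_left ha0.le h1
    have h7 : w.2 ≤ τ * w.2 := by nlinarith
    have h8 : τ * w.2 ≤ 0 := mul_nonpos_of_nonneg_of_nonpos h0 hw0
    exact ⟨mem_closedBall_iff_norm.2 (h4.trans h6), by simp only [h5]; linarith,
      by simp only [h5]; linarith⟩
  have hTc := TT_cpt hF (cpt_of_proper ((isCompact_closedBall _ _).prod isCompact_Icc) hP) hin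
  have hc : IsClosed (Prod.fst '' TT F X w a ∩ Icc 0 1) :=
    (hTc.image continuous_fst).isClosed.inter isClosed_Icc
  have z0 : ((0 : ℝ), X) ∈ TT F X w a := by
    refine ⟨⟨le_rfl, zero_le_one⟩, hX, ?_, ?_, ?_⟩
    · simp only [zero_smul, add_zero]
    · simp only [sub_self, norm_zero, zero_mul, le_refl]
    · simp only [sub_self, norm_zero, zero_mul, le_refl]
  have step : ∀ τ ∈ Prod.fst '' TT F X w a ∩ Ico 0 1, ∀ s ∈ Ioi τ,
      (Prod.fst '' TT F X w a ∩ Ioc τ s).Nonempty := by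
    rintro τ ⟨⟨⟨τ', q⟩, hz, rfl⟩, hτ⟩ s hs
    have hqB := hin (τ', q) hz
    obtain ⟨b1, b2, b3⟩ := hB q hz.2.1 hqB
    have h0 : 0 ≤ τ' := hz.1.1
    have h1 : τ' ≤ 1 := hz.1.2
    have h2 : q ∈ F.M := hz.2.1
    have h3 : killL (F.n X) q = killL (F.n X) (X + τ' • w) := hz.2.2.1
    have h4 : ‖q.1 - X.1‖ ≤ τ' * a := hz.2.2.2.1
    have h5 : ‖F.n q - F.n X‖ ≤ τ' * a := hz.2.2.2.2
    have hs' : τ' < s := hs
    have hτ' : τ' < 1 := hτ.2
    have h6 : τ' * a ≤ a := mul_le_of_le_one_left ha0.le h1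
    have l4 : ∀ᶠ σ in 𝓝[>] (0 : ℝ), σ < min s 1 - τ' :=
      nhdsWithin_le_nhds (gt_mem_nhds (sub_pos.2 (lt_min hs' hτ')))
    obtain ⟨σ, ⟨⟨r, r1, r2, r3, r4⟩, a4⟩, a6⟩ := (((lift_step hF h2 he1 (h5.trans (h6.trans ha))
      hK b1 b2 b3 hwa).and l4).and self_mem_nhdsWithin).exists
    have a6 : 0 < σ := a6
    have m1 := min_le_right s 1
    have m2 := min_le_left s 1
    have k1 : killL (F.n X) r = killL (F.n X) (X + (τ' + σ) • w) := by
      rw [r2, map_add, h3, ← map_add, add_smul, add_assoc]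
    have k2 : ‖r.1 - X.1‖ ≤ (τ' + σ) * a := by
      have := norm_sub_le_norm_sub_add_norm_sub r.1 q.1 X.1
      rw [add_mul]; linarith only [this, r3, h4]
    have k3 : ‖F.n r - F.n X‖ ≤ (τ' + σ) * a := by
      have := norm_sub_le_norm_sub_add_norm_sub (F.n r) (F.n q) (F.n X)
      rw [add_mul]; linarith only [this, r4, h5]
    have k4 : τ' + σ ∈ Icc (0 : ℝ) 1 := ⟨by linarith only [h0, a6], by linarith only [a4, m1]⟩
    exact ⟨τ' + σ, ⟨(τ' + σ, r), ⟨k4, r1, k1, k2, k3⟩, rfl⟩, lt_add_of_pos_right _ a6,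
      by linarith only [a4, m2]⟩
  obtain ⟨⟨τ, q⟩, hz, h6⟩ := hc.Icc_subset_of_forall_exists_gt ⟨_, z0, rfl⟩ step
    (right_mem_Icc.2 zero_le_one)
  have h6 : τ = 1 := h6
  subst h6
  have h3 : killL (F.n X) q = killL (F.n X) (X + (1 : ℝ) • w) := hz.2.2.1
  have h4 : ‖q.1 - X.1‖ ≤ 1 * a := hz.2.2.2.1
  have h5 : ‖F.n q - F.n X‖ ≤ 1 * a := hz.2.2.2.2
  rw [one_smul] at h3
  rw [one_mul] at h4 h5
  exact ⟨q, hz.2.1, h3, h4, h5⟩

/-- a function with the right zero set is a defining function -/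
theorem loc_of_zero (hF : F.Reg) {U : Set ST} {φ : ST → ℝ} (hU : IsOpen U)
    (hs : ContDiffOn ℝ ∞ φ U) (hz : ∀ q ∈ U, q ∈ F.M ↔ φ q = 0)
    (hd : ∀ q ∈ U, 0 < fderiv ℝ φ q (e, 0)) (hn : ∀ q ∈ U, q ∈ F.M → 0 < ⟪F.n q, e⟫_ℝ) :
    F.Loc U φ := by
  have df : ∀ q ∈ U, DifferentiableAt ℝ φ q := fun q hq =>
    (hs.contDiffAt (hU.mem_nhds hq)).differentiableAt (by simp)
  have ne : ∀ q ∈ U, gradX φ q.1 q.2 ≠ 0 := fun q hq h => by
    have := hd q hq
    rw [← inner_gradX (df q hq), h, inner_zero_left] at this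
    exact lt_irrefl _ this
  have tg : ∀ q ∈ U, q ∈ F.M → ∀ w, F.Tg q w → fderiv ℝ φ q w = 0 := fun q hq hM w hw => by
    rw [← hF.td_ext (f := fun _ => (0 : ℝ)) hM (df q hq) ?_ hw, hF.td_const hM _ hw]
    filter_upwards [nhdsWithin_le_nhds (hU.mem_nhds hq), self_mem_nhdsWithin] with r a b
    exact ((hz r a).1 b).symm
  have key : ∀ q ∈ U, q ∈ F.M → gradX φ q.1 q.2 = ‖gradX φ q.1 q.2‖ • F.n q ∧
      ⟪gradX φ q.1 q.2, F.n q⟫_ℝ = ‖gradX φ q.1 q.2‖ := fun q hq hM => by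
    set g := gradX φ q.1 q.2 with hg
    have h1 : g = ⟪g, F.n q⟫_ℝ • F.n q := by
      apply ext_inner_right ℝ
      intro v
      have := tg q hq hM _ (hF.tg_PL hM v)
      rw [← inner_gradX (df q hq), Mv.PL, inner_sub_right, inner_smul_right] at this
      rw [real_inner_smul_left]; linarith
    have h2 : 0 < ⟪g, F.n q⟫_ℝ := by
      have a := hd q hq
      rw [← inner_gradX (df q hq), ← hg, h1, real_inner_smul_left] at a
      exact (pos_iff_pos_of_mul_pos a).2 (hn q hq hM)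
    have h3 : ‖g‖ = ⟪g, F.n q⟫_ℝ := by
      conv_lhs => rw [h1, norm_smul, hF.norm_n hM, mul_one, Real.norm_of_nonneg h2.le]
    exact ⟨by rw [h3]; exact h1, h3.symm⟩
  refine ⟨hU, hs, ne, hz, fun q hq hM => ?_, fun q hq hM => ?_⟩
  · have := norm_ne_zero_iff.2 (ne q hq)
    conv_rhs => enter [2]; rw [(key q hq hM).1]
    rw [smul_smul, inv_mul_cancel₀ this, one_smul]
  · have h0 := norm_ne_zero_iff.2 (ne q hq)
    have := tg q hq hM _ (hF.tg_vel hM)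
    rw [fderiv_split (df q hq), inner_smul_right, (key q hq hM).2] at this
    field_simp
    linarith

/-- `Loc` is a local notion -/
theorem loc_union {φ : ST → ℝ} : F.Loc {q | ∃ U, q ∈ U ∧ F.Loc U φ} φ := by
  have ho : IsOpen {q | ∃ U, q ∈ U ∧ F.Loc U φ} := isOpen_iff_mem_nhds.2 fun q ⟨U, a, b⟩ =>
    mem_of_superset (b.isOpen.mem_nhds a) fun r hr => ⟨U, hr, b⟩
  exact ⟨ho, fun q ⟨U, a, b⟩ => (b.contDiffAt a).contDiffWithinAt, fun q ⟨U, a, b⟩ => b.ne q a,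
    fun q ⟨U, a, b⟩ => b.mem q a, fun q ⟨U, a, b⟩ => b.n_eq q a, fun q ⟨U, a, b⟩ => b.V_eq q a⟩

end Crest.Agent.N250.Sht

end
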