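import Crest.Agent.N250.T.Sheet1
import Crest.Agent.N250.Be.Main
import Crest.Agent.N250.T.Reach
import Crest.Agent.N250.Re.Pt

/-!
# Row 250 (helper26): one sheet with all jets (`SheetS`)
-/

set_option autoImplicit false
open MeasureTheory Set Filter Topology Function Metric
open scoped ContDiff InnerProductSpace
open Crest.GeometryTopology.MCF

noncomputable section

namespace Crest.Agent.N250.Sht

variable {F : Mv} {e x₀ : E}

/-- the point of height `l` over `q` -/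
def pt (e x₀ : E) (q : ST) (l : ℝ) : ST := ((killL e q).1 + (⟪e, x₀⟫_ℝ + l) • e, q.2)

/-- height -/
def hgt (e x₀ : E) (q : ST) : ℝ := ⟪q.1 - x₀, e⟫_ℝ

/-- the graph function -/
def uu (F : Mv) (e x₀ : E) (q : ST) : ℝ := by
  classical
  exact if h : ∃ l, |l| ≤ 1 / 4 ∧ pt e x₀ q l ∈ F.M then h.choose else 0

theorem pt_congr {q q' : ST} (h : killL e q = killL e q') : pt e x₀ q = pt e x₀ q' := by
  funext l
  simp only [pt, h, (eq_of_killL h).2]

theorem uu_congr {q q' : ST} (h : killL e q = killL e q') : uu F e x₀ q = uu F e x₀ q' := by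
  unfold uu; rw [pt_congr h]

theorem killL_pt (he : ⟪e, e⟫_ℝ = 1) (q : ST) (l : ℝ) : killL e (pt e x₀ q l) = killL e q :=
  (killL_shift he (killL e q) _).trans (killL_idem he q)

theorem hgt_pt (he : ⟪e, e⟫_ℝ = 1) (q : ST) (l : ℝ) : hgt e x₀ (pt e x₀ q l) = l := by
  have := inner_killL he q
  simp only [hgt, pt, inner_sub_left, inner_add_left, real_inner_smul_left, he,
    real_inner_comm e (killL e q).1, this, real_inner_comm e x₀]
  ring

theorem pt_hgt (q : ST) : pt e x₀ q (hgt e x₀ q) = q := by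
  refine Prod.ext ?_ rfl
  simp only [pt, hgt, killL_apply, inner_sub_left, real_inner_comm e q.1, real_inner_comm e x₀]
  rw [add_sub_cancel, sub_add_cancel]

theorem uu_eq {q : ST} {l : ℝ} (hl : |l| ≤ 1 / 4) (hM : pt e x₀ q l ∈ F.M)
    (hu : ∀ l', |l'| ≤ 1 / 4 → pt e x₀ q l' ∈ F.M → l' = l) : uu F e x₀ q = l := by
  have h : ∃ l, |l| ≤ 1 / 4 ∧ pt e x₀ q l ∈ F.M := ⟨l, hl, hM⟩
  rw [uu, dif_pos h]
  exact hu _ h.choose_spec.1 h.choose_spec.2

theorem cont_pt : Continuous fun z : ST × ℝ => pt e x₀ z.1 z.2 :=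
  (((killL e).continuous.comp continuous_fst).fst.add
    ((continuous_const.add continuous_snd).smul continuous_const)).prodMk continuous_fst.snd

theorem sm_hgt : ContDiff ℝ ∞ (hgt e x₀) := (contDiff_fst.sub contDiff_const).inner ℝ contDiff_const

/-- near a fibre that meets the closure of the track in one good point, the graph function defines
the track -/
theorem loc_near (hF : F.Reg) (he : ‖e‖ = 1) {q₀ p : ST} (hp : p ∈ F.M)
    (hk : killL e p = killL e q₀) (h0 : |hgt e x₀ q₀| < 1 / 4) (h1 : |hgt e x₀ p| < 1 / 4)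
    (hn : ‖F.n p - e‖ ≤ 1 / 2)
    (hu : ∀ l, |l| ≤ 1 / 4 → pt e x₀ q₀ l ∈ closure F.M → pt e x₀ q₀ l = p) :
    ∃ U, q₀ ∈ U ∧ F.Loc U fun q => ⟪q.1 - x₀, e⟫_ℝ - uu F e x₀ q := by
  have hee : ⟪e, e⟫_ℝ = 1 := by rw [real_inner_self_eq_norm_sq, he, one_pow]
  have hpos : 0 < ⟪F.n p, e⟫_ℝ := by linarith [half_le he hn]
  obtain ⟨U, O, h, g⟩ := exists_lg hF hee hp hpos.ne'
  have hU0 : q₀ ∈ U := (g.inv p q₀ hk).1 g.memU
  have hh0 : h q₀ = p := (g.inv p q₀ hk).2.symm.trans (g.fix p g.memO hp)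
  have hc : ContinuousAt h q₀ := (g.sm.continuousOn q₀ hU0).continuousAt (g.opU.mem_nhds hU0)
  -- tube lemma
  have t1 : ∀ᶠ q in 𝓝 q₀, ∀ l ∈ Icc (-(1 / 4) : ℝ) (1 / 4),
      pt e x₀ q l ∈ O ∪ (closure F.M)ᶜ := by
    refine isCompact_Icc.eventually_forall_of_forall_eventually fun l hl => ?_
    refine cont_pt.continuousAt.eventually ((g.opO.union isClosed_closure.isOpen_compl).mem_nhds ?_)
    by_cases hc : pt e x₀ q₀ l ∈ closure F.M
    · left; change pt e x₀ q₀ l ∈ O; rw [hu l (abs_le.2 hl) hc]; exact g.memO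
    · right; exact hc
  have t2 : ∀ᶠ q in 𝓝 q₀, |hgt e x₀ (h q)| < 1 / 4 :=
    (sm_hgt.continuous.continuousAt.comp hc).abs.eventually
      (gt_mem_nhds (by simpa only [Function.comp, hh0] using h1))
  have t3 : ∀ᶠ q in 𝓝 q₀, |hgt e x₀ q| < 1 / 4 :=
    sm_hgt.continuous.continuousAt.abs.eventually (gt_mem_nhds h0)
  have t4 : ∀ᶠ q in 𝓝 q₀, 0 < ⟪F.n (h q), e⟫_ℝ := by
    have a : Tendsto h (𝓝 q₀) (𝓝[F.M] p) := tendsto_nhdsWithin_iff.2 ⟨hh0 ▸ hc,
      eventually_of_mem (g.opU.mem_nhds hU0) g.mem⟩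
    exact (((hF.sm_n.continuousOn p hp).inner continuousWithinAt_const).tendsto.comp a).eventually
      (lt_mem_nhds hpos)
  obtain ⟨N, hN, hNo, hN0⟩ := _root_.eventually_nhds_iff.1
    (t1.and (t2.and (t3.and (t4.and (g.opU.mem_nhds hU0)))))
  have hph : ∀ q ∈ N, pt e x₀ q (hgt e x₀ (h q)) = h q := fun q hq => by
    rw [← pt_congr (g.pr q (hN q hq).2.2.2.2), pt_hgt]
  have uq : ∀ q ∈ N, ∀ l, |l| ≤ 1 / 4 → pt e x₀ q l ∈ F.M → l = hgt e x₀ (h q) :=
    fun q hq l hl hM => by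
      rcases (hN q hq).1 l (abs_le.1 hl) with a | a
      · rw [← (g.inv _ _ (killL_pt hee q l)).2, g.fix _ a hM, hgt_pt hee]
      · exact absurd (subset_closure hM) a
  have hu' : ∀ q ∈ N, uu F e x₀ q = hgt e x₀ (h q) := fun q hq =>
    uu_eq (hN q hq).2.1.le (by rw [hph q hq]; exact g.mem q (hN q hq).2.2.2.2) (uq q hq)
  have hsu : ContDiffOn ℝ ∞ (uu F e x₀) N :=
    (sm_hgt.comp_contDiffOn (g.sm.mono fun q hq => (hN q hq).2.2.2.2)).congr hu'
  have hz : ∀ q ∈ N, q ∈ F.M ↔ ⟪q.1 - x₀, e⟫_ℝ - uu F e x₀ q = 0 := fun q hq => by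
    rw [sub_eq_zero, hu' q hq]
    constructor
    · intro hM
      exact uq q hq (hgt e x₀ q) (hN q hq).2.2.1.le (by rwa [pt_hgt])
    · intro e0
      have : hgt e x₀ q = hgt e x₀ (h q) := e0
      rw [← pt_hgt (e := e) (x₀ := x₀) q, this, hph q hq]
      exact g.mem q (hN q hq).2.2.2.2
  refine ⟨N, hN0, loc_of_zero (e := e) hF hNo (sm_hgt.contDiffOn.sub hsu) hz (fun q hq => ?_)
    fun q hq hM => ?_⟩
  · have du := (hsu.contDiffAt (hNo.mem_nhds hq)).differentiableAt (by simp)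
    have d1 : HasFDerivAt (fun q : ST => ⟪q.1 - x₀, e⟫_ℝ)
        ((innerSL ℝ e).comp (ContinuousLinearMap.fst ℝ E ℝ)) q := by
      have := (((innerSL ℝ e).comp (ContinuousLinearMap.fst ℝ E ℝ)).hasFDerivAt
        (x := q)).sub_const ⟪e, x₀⟫_ℝ
      refine this.congr_of_eventuallyEq (Eventually.of_forall fun r => ?_)
      simp [inner_sub_left, real_inner_comm]
    rw [(d1.fun_sub du.hasFDerivAt).fderiv]
    have := SJ.fd_inv (fun q s => uu_congr (killL_shift hee q s)) du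
    simp [this, he]
  · have e0 : hgt e x₀ q = hgt e x₀ (h q) := by rw [← hu' q hq]; exact sub_eq_zero.1 ((hz q hq).1 hM)
    have : h q = q := by rw [← hph q hq, ← e0, pt_hgt]
    rw [← this]; exact (hN q hq).2.2.2.1

/-- the gradient of the graph function -/
theorem grad_le {W : Set ST} {u : ST → ℝ} {p : ST} (he : ‖e‖ = 1)
    (hl : F.Loc W fun q => ⟪q.1 - x₀, e⟫_ℝ - u q)
    (hi : ∀ (q : ST) (s : ℝ), u (q.1 + s • e, q.2) = u q) (hW : p ∈ W) (hp : p ∈ F.M)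
    (hn : ‖F.n p - e‖ ≤ 1 / 5) : ‖gradX u p.1 p.2‖ ≤ 1 / 2 := by
  have hsu : ContDiffOn ℝ ∞ u W := (sm_hgt.contDiffOn.sub hl.sm).congr fun q _ => by
    simp only [hgt]; ring
  have du := (hsu.contDiffAt (hl.isOpen.mem_nhds hW)).differentiableAt (by simp)
  have d1 : HasFDerivAt (fun q : ST => ⟪q.1 - x₀, e⟫_ℝ)
      ((innerSL ℝ e).comp (ContinuousLinearMap.fst ℝ E ℝ)) p := by
    have := (((innerSL ℝ e).comp (ContinuousLinearMap.fst ℝ E ℝ)).hasFDerivAt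
      (x := p)).sub_const ⟪e, x₀⟫_ℝ
    refine this.congr_of_eventuallyEq (Eventually.of_forall fun r => ?_)
    simp [inner_sub_left, real_inner_comm]
  set N := ‖gradX (fun q : ST => ⟪q.1 - x₀, e⟫_ℝ - u q) p.1 p.2‖ with hN
  have key : ∀ v, ⟪e, v⟫_ℝ - fderiv ℝ u p (v, 0) = N * ⟪F.n p, v⟫_ℝ := fun v => by
    have := hl.fderiv_eq hW hp (v, 0)
    rw [(d1.fun_sub du.hasFDerivAt).fderiv] at this
    simpa using this
  have h1 := key e
  rw [SJ.fd_inv hi du, real_inner_self_eq_norm_sq, he] at h1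
  have h2 := half_le he hn
  have hN0 : 0 ≤ N := norm_nonneg _
  have h3 : ⟪F.n p, e⟫_ℝ ≤ 1 := by
    have := real_inner_le_norm (F.n p) e
    rwa [hl.norm_n hW hp, he, one_mul] at this
  have h4 : gradX u p.1 p.2 = N • (e - F.n p) - (N - 1) • e := by
    apply ext_inner_right ℝ
    intro v
    rw [inner_gradX du, inner_sub_left, real_inner_smul_left, real_inner_smul_left, inner_sub_left]
    linarith [key v]
  have h5 : 1 ≤ N := by nlinarith
  have h6 : N ≤ 5 / 4 := by nlinarith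
  rw [h4]
  refine (norm_sub_le _ _).trans ?_
  rw [norm_smul, norm_smul, he, Real.norm_of_nonneg hN0, Real.norm_of_nonneg (by linarith),
    norm_sub_rev]
  nlinarith [norm_nonneg (F.n p - e)]

theorem norm_le_sum (v : E) : ‖v‖ ≤ ∑ a, |v a| := by
  conv_lhs => rw [eq_sum_ee v]
  refine (norm_sum_le _ _).trans (Finset.sum_le_sum fun a _ => ?_)
  rw [norm_smul, Real.norm_eq_abs]
  simp [ee]

theorem vel_bound (hF : F.IsMCF) {q : ST} (hq : q ∈ F.M) {C1 C2 : ℝ} (h1 : F.NJet 1 C1 q)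
    (h2 : F.NJet 2 C2 q) : |F.V q| ≤ 3 * C1 ∧ ‖F.td F.n q (F.V q • F.n q, 1)‖ ≤ 9 * C2 := by
  constructor
  · rw [hF.2 q hq, abs_neg, Mv.H, Finset.sum_apply]
    refine (Finset.abs_sum_le_sum_abs _ _).trans ?_
    have := Finset.sum_le_sum fun a (_ : a ∈ (Finset.univ : Finset (Fin 3))) =>
      (show |F.A a a q| ≤ C1 from h1 a [a] rfl)
    simpa using this
  · refine (norm_le_sum _).trans ?_
    have : ∀ a, |F.td F.n q (F.V q • F.n q, 1) a| ≤ 3 * C2 := fun a => by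
      rw [hF.1.td_n hq (hF.1.tg_vel hq)]
      change |F.Dt (F.nu a) q| ≤ _
      rw [hF.1.Dt_nu hq, abs_neg, Mv.D_congr' hq (g := -F.H) hF.2, hF.1.D_neg hq hF.1.sm_H,
        abs_neg, Mv.H, hF.1.D_sum hq _ fun b => hF.1.sm_A b b]
      refine (Finset.abs_sum_le_sum_abs _ _).trans ?_
      have := Finset.sum_le_sum fun b (_ : b ∈ (Finset.univ : Finset (Fin 3))) =>
        (show |F.D a (F.A b b) q| ≤ C2 from h2 b [a, b] rfl)
      simpa using this
    have := Finset.sum_le_sum fun a (_ : a ∈ (Finset.univ : Finset (Fin 3))) => this a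
    simp only [Finset.sum_const, Finset.card_univ, Fintype.card_fin, nsmul_eq_mul,
      Nat.cast_ofNat] at this
    linarith

theorem norm_killL (he : ‖e‖ = 1) (q : ST) : ‖(killL e q).1‖ ≤ ‖q.1‖ := by
  have hee : ⟪e, e⟫_ℝ = 1 := by rw [real_inner_self_eq_norm_sq, he, one_pow]
  refine abs_le_of_sq_le_sq' ?_ (norm_nonneg _) |>.2
  rw [killL_apply, norm_sub_sq_real, inner_smul_right, norm_smul, he, real_inner_comm,
    Real.norm_eq_abs, mul_one, sq_abs]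
  nlinarith [sq_nonneg ⟪e, q.1⟫_ℝ]

theorem norm_pt (he : ‖e‖ = 1) (q : ST) (l : ℝ) :
    ‖(pt e x₀ q l).1 - x₀‖ ≤ ‖(killL e (q.1 - x₀, 0)).1‖ + |l| := by
  have : (pt e x₀ q l).1 - x₀ = (killL e (q.1 - x₀, 0)).1 + l • e := by
    simp only [pt, killL_apply, inner_sub_right, add_smul, sub_smul]; abel
  rw [this]
  refine (norm_add_le _ _).trans ?_
  rw [norm_smul, he, mul_one, Real.norm_eq_abs]

end Crest.Agent.N250.Sht

namespace Crest.Agent.N250

open Sht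

theorem sheetS_holds : SheetS := by
  choose CB hCB using bernS_holds
  set C : ℕ → ℝ := fun k => CB k / (1 / 2) ^ k with hC
  set K : ℝ := 3 * |C 1| + 9 * |C 2| with hK
  have hK0 : 0 ≤ K := by positivity
  choose C' hC' using SJ.sheet_jets C 1
  set c : ℝ := 1 / (100 * (K + 1)) with hc
  have hc0 : 0 < c := by positivity
  have hc1 : c * (K + 1) = 1 / 100 := by rw [hc]; field_simp
  have hc2 : c ≤ 1 / 100 := by nlinarith
  refine ⟨c, C', hc0, fun F X hF hX hP hR => ?_⟩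
  set e := F.n X with he
  have he1 : ‖e‖ = 1 := hF.1.norm_n hX
  have hee : ⟪e, e⟫_ℝ = 1 := hF.1.inner_n hX
  have sub : ∀ {r r' : ℝ}, 0 ≤ r → r ≤ r' → PC X r ⊆ PC X r' := fun h0 h =>
    prod_mono (ball_subset_ball h) (Ioc_subset_Ioc_left (by nlinarith))
  have hA : ∀ p ∈ F.M ∩ PC X 1, F.A2 p ≤ 2 ^ 2 := fun p hp => by
    have := (reachAS_holds F hF.1 p hp.1 1 one_pos (hR p hp)).2
    linarith
  have hJ : ∀ k, ∀ p ∈ F.M ∩ PC X (1 / 2 / 2), F.NJet k (C k) p := fun k =>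
    hCB k F X (1 / 2) hF (by norm_num) (fun p a b => hP p a (sub (by norm_num) (by norm_num) b))
      fun p hp => (hA p ⟨hp.1, sub (by norm_num) (by norm_num) hp.2⟩).trans (by norm_num)
  have box : closedBall X.1 (1 / 8) ×ˢ Icc (X.2 - c ^ 2) X.2 ⊆ PC X (1 / 2 / 2) :=
    prod_mono (closedBall_subset_ball (by norm_num))
      fun s hs => ⟨by nlinarith [hs.1], hs.2⟩
  -- the good point over `q`
  have good : ∀ q : ST, ‖(killL e (q.1 - X.1, 0)).1‖ < c → q.2 ∈ Ioc (X.2 - c ^ 2) X.2 →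
      ∃ p ∈ F.M, killL e p = killL e q ∧ ‖p.1 - X.1‖ ≤ 1 / 8 ∧ ‖F.n p - e‖ ≤ 1 / 8 := by
    intro q h1 h2
    have h3 : |q.2 - X.2| ≤ c ^ 2 := abs_le.2 ⟨by linarith [h2.1], by nlinarith [h2.2]⟩
    obtain ⟨p, a1, a2, a3, a4⟩ := lift_seg hF.1 hX (K := K) (a := 1 / 8) (δ := c ^ 2)
      (by norm_num) (w := ((killL e (q.1 - X.1, 0)).1, q.2 - X.2)) (abs_le.1 h3).1
      (sub_nonpos.2 h2.2) (by
        have := mul_le_mul_of_nonneg_left h3 hK0
        simp only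
        nlinarith) hK0
      (fun p a b => hP p a (sub (by norm_num) (by norm_num) (box b))) fun r hr hb => by
        obtain ⟨v1, v2⟩ := vel_bound hF hr (hJ 1 r ⟨hr, box hb⟩) (hJ 2 r ⟨hr, box hb⟩)
        exact ⟨by linarith [le_abs_self (C 1), abs_nonneg (C 2)],
          by linarith [le_abs_self (C 2), abs_nonneg (C 1)],
          hA r ⟨hr, sub (by norm_num) (by norm_num) (box hb)⟩⟩
    refine ⟨p, a1, a2.trans ?_, a3, a4⟩
    have : X + ((killL e (q.1 - X.1, 0)).1, q.2 - X.2) =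
        (q.1 + (-⟪e, q.1 - X.1⟫_ℝ) • e, q.2) := by
      refine Prod.ext ?_ (by simp)
      simp only [Prod.fst_add, killL_apply, neg_smul]; abel
    rw [this]; exact killL_shift hee q _
  have hgle : ∀ q : ST, |hgt e X.1 q| ≤ ‖q.1 - X.1‖ := fun q => by
    have := abs_real_inner_le_norm (q.1 - X.1) e
    rwa [he1, mul_one] at this
  have main : ∀ q : ST, ‖(killL e (q.1 - X.1, 0)).1‖ < c → q.2 ∈ Ioc (X.2 - c ^ 2) X.2 →
      |hgt e X.1 q| < 1 / 4 →
      ∃ U, q ∈ U ∧ F.Loc U fun q => ⟪q.1 - X.1, e⟫_ℝ - uu F e X.1 q := by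
    intro q h1 h2 h3
    obtain ⟨p, a1, a2, a3, a4⟩ := good q h1 h2
    have hp2 : p.2 = q.2 := (eq_of_killL a2.symm).2
    refine loc_near hF.1 he1 a1 a2 h3 ((hgle p).trans_lt (by linarith)) (by linarith)
      fun l hl hcl => ?_
    have b1 := norm_pt (x₀ := X.1) he1 q l
    have hin : ∀ r : ST, ‖r.1 - X.1‖ < 1 → r.2 = q.2 → r ∈ PC X 1 := fun r a b =>
      ⟨mem_ball_iff_norm.2 a, by rw [b]; nlinarith [h2.1], by rw [b]; exact h2.2⟩
    have hM := hP _ hcl (hin _ (by linarith) rfl)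
    have hr := (Im.reach_iff (hF.1.norm_n a1) one_pos).1 (hR p ⟨a1, hin p (by linarith) hp2⟩)
      (pt e X.1 q l).1 (by rw [hp2]; exact hM)
    obtain ⟨e1, e2⟩ := eq_of_killL (a2.trans (killL_pt (x₀ := X.1) hee q l).symm)
    set d := ⟪e, (pt e X.1 q l).1 - p.1⟫_ℝ with hd
    have hn := half_le he1 a4
    have hdn : ‖(pt e X.1 q l).1 - p.1‖ = |d| := by
      rw [e1, norm_smul, he1, mul_one, Real.norm_eq_abs]
    have hd1 : |d| ≤ 1 / 2 := by
      have := norm_sub_le_norm_sub_add_norm_sub (pt e X.1 q l).1 X.1 p.1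
      rw [norm_sub_rev X.1] at this
      linarith
    rw [hdn] at hr
    rw [e1, inner_smul_right, abs_mul, abs_of_pos (by linarith : 0 < ⟪F.n p, e⟫_ℝ)] at hr
    have hd0 : |d| = 0 := by nlinarith [abs_nonneg d]
    rw [← hdn, norm_eq_zero, sub_eq_zero] at hd0
    exact Prod.ext hd0 e2
  have hinv : ∀ (p : ST) (s : ℝ), uu F e X.1 (p.1 + s • e, p.2) = uu F e X.1 p :=
    fun p s => uu_congr (killL_shift hee p s)
  have hPC : ∀ q ∈ PC X c, ‖(killL e (q.1 - X.1, 0)).1‖ < c := fun q hq =>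
    (norm_killL he1 _).trans_lt (mem_ball_iff_norm.1 hq.1)
  have ovr : ∀ q ∈ PC X c, ∃ p ∈ F.M, (∃ s : ℝ, q = (p.1 + s • e, p.2)) ∧
      (∃ U, p ∈ U ∧ F.Loc U fun q => ⟪q.1 - X.1, e⟫_ℝ - uu F e X.1 q) ∧
      ‖p.1 - X.1‖ ≤ 1 / 8 ∧ ‖F.n p - e‖ ≤ 1 / 8 ∧ p.2 = q.2 := by
    intro q hq
    obtain ⟨p, a1, a2, a3, a4⟩ := good q (hPC q hq) hq.2
    obtain ⟨e1, e2⟩ := eq_of_killL a2
    refine ⟨p, a1, ⟨_, Prod.ext (eq_add_of_sub_eq' e1) e2⟩, main p ?_ (e2 ▸ hq.2)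
      ((hgle p).trans_lt (by linarith)), a3, a4, e2.symm⟩
    have : killL e (q.1 - X.1, 0) = killL e (p.1 - X.1, 0) := by
      rw [← killL_shift hee (p.1 - X.1, 0) ⟪e, q.1 - p.1⟫_ℝ, ← e1]
      congr 2; simp only; abel
    rw [← this]; exact hPC q hq
  have hg : ∀ p ∈ F.M, (∃ U, p ∈ U ∧ F.Loc U fun q => ⟪q.1 - X.1, e⟫_ℝ - uu F e X.1 q) →
      ‖F.n p - e‖ ≤ 1 / 8 → ‖gradX (uu F e X.1) p.1 p.2‖ ≤ 1 / 2 := fun p a b d =>
    grad_le he1 loc_union hinv b a (by linarith)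
  refine ⟨_, uu F e X.1, fun q hq => main q (hPC q hq) hq.2 ((hgle q).trans_lt
    (by linarith [mem_ball_iff_norm.1 hq.1])), loc_union, hinv, fun q hq => ?_, fun m q hq => ?_⟩
  · obtain ⟨p, a1, ⟨s, rfl⟩, a3, -, a5, -⟩ := ovr q hq
    have : gradX (uu F e X.1) (p.1 + s • e) p.2 = gradX (uu F e X.1) p.1 p.2 := by
      have h1 : (fun y => uu F e X.1 (y + s • e, p.2)) = fun y => uu F e X.1 (y, p.2) :=
        funext fun y => hinv (y, p.2) s
      simp only [gradX, gradient]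
      rw [← fderiv_comp_add_right, h1]
    exact this ▸ hg p a1 a3 a5
  · obtain ⟨p, a1, ⟨s, rfl⟩, a3, a4, a5, a6⟩ := ovr q hq
    rw [SJ.itf_inv hinv]
    exact hC' m F _ _ X.1 e p hF he1 loc_union hinv a3 a1 (by linarith)
      (by linarith [hg p a1 a3 a5]) fun k => hJ k p ⟨a1, box ⟨mem_closedBall_iff_norm.2 a4,
        Ioc_subset_Icc_self hq.2⟩⟩

end Crest.Agent.N250

end
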