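import Crest.Agent.N250.T.Lim
import Crest.Agent.N250.MP.Ret

/-!
# Row 250 (helper79): White's local regularity, part 1: rigidity and the top time
-/

set_option autoImplicit false
open MeasureTheory Set Filter Topology
open scoped ContDiff InnerProductSpace
open Crest.GeometryTopology.MCF

noncomputable section

namespace Crest.Agent.N250.Wh

/-- monotonicity of the Gaussian density ratio in the scale -/
theorem fg_mono (hH : HuiskenS) {F : Mv} {I : Set ℝ} {Λ : ℝ} (hI : IsOpen I) (hF : Fl F I Λ)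
    (Y : ST) {r s : ℝ} (hr : 0 < r) (hrs : r ≤ s) (hs : Icc (Y.2 - s ^ 2) (Y.2 - r ^ 2) ⊆ I) :
    F.Fg Y r ≤ F.Fg Y s := by
  have h2 : r ^ 2 ≤ s ^ 2 := pow_le_pow_left₀ hr.le hrs 2
  have h0 : 0 < r ^ 2 := by positivity
  have := (hH F I Λ hI hF Y (Y.2 - s ^ 2) (Y.2 - r ^ 2) (by linarith) (by linarith) hs).1
  simpa [Mv.Fg] using this

theorem reach_iff {F : Mv} {p : ST} (hn : ‖F.n p‖ = 1) {ρ : ℝ} (hρ : 0 ≤ ρ) :
    F.Reach p ρ ↔ ∀ y ∈ F.sl p.2, 2 * ρ * |⟪y - p.1, F.n p⟫_ℝ| ≤ ‖y - p.1‖ ^ 2 := by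
  refine forall₂_congr fun y _ => ?_
  have e1 : dist y (p.1 + ρ • F.n p) ^ 2 =
      ‖y - p.1‖ ^ 2 - 2 * ρ * ⟪y - p.1, F.n p⟫_ℝ + ρ ^ 2 := by
    rw [dist_eq_norm, ← sub_sub, norm_sub_sq_real, inner_smul_right, norm_smul, hn,
      Real.norm_of_nonneg hρ]; ring
  have e2 : dist y (p.1 - ρ • F.n p) ^ 2 =
      ‖y - p.1‖ ^ 2 + 2 * ρ * ⟪y - p.1, F.n p⟫_ℝ + ρ ^ 2 := by
    rw [dist_eq_norm, show y - (p.1 - ρ • F.n p) = y - p.1 + ρ • F.n p by abel, norm_add_sq_real,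
      inner_smul_right, norm_smul, hn, Real.norm_of_nonneg hρ]; ring
  rw [← pow_le_pow_iff_left₀ hρ dist_nonneg two_ne_zero,
    ← pow_le_pow_iff_left₀ hρ dist_nonneg two_ne_zero, e1, e2,
    ← abs_of_nonneg (show 0 ≤ 2 * ρ by positivity), ← abs_mul, abs_le,
    abs_of_nonneg (show 0 ≤ 2 * ρ by positivity)]
  constructor
  · rintro ⟨a, b⟩; constructor <;> linarith
  · rintro ⟨a, b⟩; constructor <;> linarith

/-- ancient flows with Gaussian density ratios at most one are planes -/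
theorem rigid (hH : HuiskenS) (hD : DensS) {F : Mv} {Λ : ℝ} (hF : Fl F (Iio 0) Λ)
    (h1 : ∀ Y ∈ F.M, ∀ R, 0 < R → F.Fg Y R ≤ 1) {p : ST} (hp : p ∈ F.M) {ρ : ℝ} (hρ : 0 ≤ ρ) :
    F.Reach p ρ := by
  have hsub : ∀ Y ∈ F.M, ∀ a b : ℝ, b ≤ Y.2 → Icc a b ⊆ Iio 0 := fun Y hY a b hb t ht =>
    lt_of_le_of_lt (ht.2.trans hb) (hF.time Y hY)
  have h2 : ∀ Y ∈ F.M, ∀ R, 0 < R → 1 ≤ F.Fg Y R := fun Y hY R hR => by
    refine le_of_tendsto (hD F _ Λ isOpen_Iio hF Y hY) ?_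
    filter_upwards [Ioo_mem_nhdsGT hR] with r hr
    exact fg_mono hH isOpen_Iio hF Y hr.1 hr.2.le (hsub Y hY _ _ (by nlinarith [sq_nonneg r]))
  have h3 : ∀ Y ∈ F.M, p.2 < Y.2 → F.dev Y p = 0 := fun Y hY ht => by
    have hd : 0 < Y.2 - p.2 := sub_pos.2 ht
    have e : ∀ s, 0 < s → F.Fs (Y.2 - s) Y.1 (Y.2 - (Y.2 - s)) = 1 := fun s hs => by
      have a := h1 Y hY _ (Real.sqrt_pos.2 hs)
      have b := h2 Y hY _ (Real.sqrt_pos.2 hs)
      rw [Mv.Fg, Real.sq_sqrt hs.le] at a b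
      rw [sub_sub_cancel]
      exact le_antisymm a b
    exact dev_eq_zero hH isOpen_Iio hF (X := Y) (t₁ := Y.2 - 2 * (Y.2 - p.2))
      (t₂ := Y.2 - (Y.2 - p.2) / 2) (by linarith) (hsub Y hY _ _ (by linarith))
      (by rw [e _ (by positivity), e _ (by positivity)]) hp ⟨by linarith, by linarith⟩
  rw [reach_iff (Tr.n_unit hF.mcf.1 hp) hρ]
  intro y hy
  obtain ⟨π, hπ⟩ := MP.exists_ret hF.mcf.1 (p := (y, p.2)) hy
  have c1 : Tendsto (fun s : ℝ => ((y, s) : ST)) (𝓝[>] p.2) (𝓝 (y, p.2)) :=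
    ((Continuous.prodMk_right y).tendsto p.2).mono_left nhdsWithin_le_nhds
  have c2 : Tendsto (fun s : ℝ => (π (y, s)).1) (𝓝[>] p.2) (𝓝 y) := by
    have := (continuous_fst.tendsto _).comp (hπ.sm.continuousAt.tendsto.comp c1)
    rwa [hπ.fix] at this
  have c3 : Tendsto (fun s : ℝ => ⟪p.1 - (π (y, s)).1, F.n p⟫_ℝ) (𝓝[>] p.2)
      (𝓝 ⟪p.1 - y, F.n p⟫_ℝ) := (tendsto_const_nhds.sub c2).inner tendsto_const_nhds
  have c4 : Tendsto (fun s : ℝ => F.H p * (2 * (s - p.2))) (𝓝[>] p.2)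
      (𝓝 (F.H p * (2 * (p.2 - p.2)))) :=
    (Continuous.tendsto (by fun_prop) _).mono_left nhdsWithin_le_nhds
  have c5 : ⟪p.1 - y, F.n p⟫_ℝ = 0 := by
    rw [sub_self, mul_zero, mul_zero] at c4
    refine tendsto_nhds_unique (c3.congr' ?_) c4
    filter_upwards [c1.eventually hπ.ev, self_mem_nhdsWithin] with s hs hs'
    have h4 := h3 _ hs.1 (by rw [hs.2.1]; exact hs')
    have h5 : 0 < s - p.2 := sub_pos.2 hs'
    simp only [Mv.dev, Mv.xn, hs.2.1] at h4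
    rw [sub_eq_zero.1 h4]
    field_simp
  rw [← neg_sub, inner_neg_left, c5]
  simp

/-- mean value inequality on a symmetric interval -/
theorem mv {f f' : ℝ → ℝ} {s C : ℝ} (h : ∀ x, |x| ≤ |s| → HasDerivAt f (f' x) x)
    (hC : ∀ x, |x| ≤ |s| → |f' x| ≤ C) : |f s - f 0| ≤ C * |s| := by
  have := (convex_Icc (-|s|) |s|).norm_image_sub_le_of_norm_hasDerivWithin_le (f := f) (f' := f')
    (C := C) (x := 0) (y := s) (fun x hx => (h x (abs_le.2 hx)).hasDerivWithinAt)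
    (fun x hx => hC x (abs_le.2 hx)) ⟨by simp, abs_nonneg _⟩ (abs_le.1 le_rfl)
  simpa using this

/-- second order Taylor expansion -/
theorem taylor {g g1 g2 g3 : ℝ → ℝ} {c K : ℝ} (h1 : ∀ x, |x| < c → HasDerivAt g (g1 x) x)
    (h2 : ∀ x, |x| < c → HasDerivAt g1 (g2 x) x) (h3 : ∀ x, |x| < c → HasDerivAt g2 (g3 x) x)
    (hK : ∀ x, |x| < c → |g3 x| ≤ K) (e0 : g 0 = 0) (e1 : g1 0 = 0) {s : ℝ} (hs : |s| < c) :
    |g s - g2 0 * s ^ 2 / 2| ≤ K * |s| ^ 3 := by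
  have hK0 : 0 ≤ K := (abs_nonneg _).trans (hK s hs)
  have a2 : ∀ x, |x| ≤ |s| → |g2 x - g2 0| ≤ K * |s| := fun x hx =>
    (mv (fun y hy => h3 y (by linarith)) fun y hy => hK y (by linarith)).trans (by gcongr)
  have a1 : ∀ x, |x| ≤ |s| → |g1 x - g2 0 * x| ≤ K * |s| * |s| := fun x hx => by
    have := mv (f := fun y => g1 y - g2 0 * y) (f' := fun y => g2 y - g2 0) (s := x) (C := K * |s|)
      (fun y hy => ((h2 y (by linarith)).fun_sub ((hasDerivAt_id' y).const_mul (g2 0))).congr_deriv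
        (by ring))
      fun y hy => a2 y (by linarith)
    simp only [e1, mul_zero, sub_zero] at this
    exact this.trans (by gcongr)
  have := mv (f := fun y => g y - g2 0 * y ^ 2 / 2) (f' := fun y => g1 y - g2 0 * y) (s := s)
    (C := K * |s| * |s|) (fun y hy => ((h1 y (by linarith)).fun_sub
      (((hasDerivAt_pow 2 y).const_mul (g2 0)).div_const 2)).congr_deriv (by norm_num; ring)) a1
  simp only [e0, ne_eq, OfNat.ofNat_ne_zero, not_false_eq_true, zero_pow, mul_zero, zero_div,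
    sub_zero] at this
  exact this.trans (le_of_eq (by ring))

theorem line_deriv {u : ST → ℝ} {X w : ST} {s : ℝ} (hu : ContDiffAt ℝ ∞ u (X + s • w)) (k : ℕ) :
    HasDerivAt (fun x : ℝ => iteratedFDeriv ℝ k u (X + x • w) fun _ => w)
      (iteratedFDeriv ℝ (k + 1) u (X + s • w) fun _ => w) s := by
  have h1 : DifferentiableAt ℝ (iteratedFDeriv ℝ k u) (X + s • w) :=
    (hu.iteratedFDeriv_right (m := 1) (i := k) (by exact_mod_cast le_top)).differentiableAt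
      (by simp)
  have h2 : HasDerivAt (fun x : ℝ => X + x • w) w s := by
    simpa using ((hasDerivAt_id s).smul_const w).const_add X
  have h3 := h1.hasFDerivAt.comp_hasDerivAt s h2
  have h4 := (ContinuousMultilinearMap.apply ℝ (fun _ : Fin k => ST) ℝ
    (fun _ => w)).hasFDerivAt.comp_hasDerivAt s h3
  rw [iteratedFDeriv_succ_apply_left]
  exact h4

theorem num1 {a b K r : ℝ} (h1 : |a - b * r ^ 2 / 2| ≤ K * r ^ 3) (h2 : |b| ≤ 1 / 4)
    (h3 : K * r ≤ 1 / 32) : |a| ≤ r ^ 2 / 4 := by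
  have a7 : K * r ^ 3 ≤ r ^ 2 / 32 := by
    nlinarith [mul_le_mul_of_nonneg_right h3 (sq_nonneg r)]
  have := abs_le.1 h1
  have := abs_le.1 h2
  rw [abs_le]
  constructor <;> nlinarith [sq_nonneg r]

set_option maxHeartbeats 800000 in
/-- the numerical part of the top time argument -/
theorem slab {n m x : E} {S : Set E} {u : E → ℝ} {c K s : ℝ} (hn : ‖n‖ = 1) (hm : ‖m‖ = 1)
    (hK : 1 ≤ K) (hs : 0 < s) (hsc : 2 * s < c) (hsK : K * s ≤ 1 / 32)
    (hS : ∀ y, ‖y - x‖ < c → (y ∈ S ↔ ⟪y - x, n⟫_ℝ = u y)) (hu : ∀ y (r : ℝ), u (y + r • n) = u y)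
    (hx : u x = 0)
    (hT : ∀ v, ‖v‖ = 1 → ⟪v, n⟫_ℝ = 0 → ∃ b, |b| ≤ K ∧
      ∀ r, |r| < c → |u (x + r • v) - b * r ^ 2 / 2| ≤ K * |r| ^ 3)
    (hη : ∀ y ∈ S, ‖y - x‖ < 4 → |⟪y - x, m⟫_ℝ| ≤ s ^ 2 / 64) :
    ∀ y ∈ S, 4 * |⟪y - x, n⟫_ℝ| ≤ ‖y - x‖ ^ 2 := by
  have hnn : ⟪n, n⟫_ℝ = 1 := by rw [real_inner_self_eq_norm_sq, hn]; norm_num
  have hs1 : s ≤ 1 / 32 := by nlinarith
  have hs3 : K * s ^ 3 ≤ s ^ 2 / 32 := by nlinarith [mul_le_mul_of_nonneg_right hsK (sq_nonneg s)]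
  have hs2 : K * s ^ 2 ≤ s / 32 := by nlinarith [mul_le_mul_of_nonneg_right hsK hs.le]
  -- the two points over `x ± s v`
  have h1 : ∀ v, ‖v‖ = 1 → ⟪v, n⟫_ℝ = 0 → ∃ b, |⟪v, m⟫_ℝ| ≤ s / 16 ∧
      |b| * |⟪n, m⟫_ℝ| ≤ 1 / 8 ∧ ∀ r, |r| < c → |u (x + r • v) - b * r ^ 2 / 2| ≤ K * |r| ^ 3 := by
    intro v hv hvn
    obtain ⟨b, hb, hT⟩ := hT v hv hvn
    have h2 : ∀ r, |r| = s → |r * ⟪v, m⟫_ℝ + u (x + r • v) * ⟪n, m⟫_ℝ| ≤ s ^ 2 / 64 := by
      intro r hr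
      have a1 := hT r (by linarith)
      have a0 : r ^ 2 = s ^ 2 := by rw [← hr, sq_abs]
      rw [hr, a0] at a1
      have a2 : |u (x + r • v)| ≤ s / 2 := by
        have := abs_le.1 a1
        have := abs_le.1 hb
        rw [abs_le]
        constructor <;> nlinarith [sq_nonneg s]
      have a3 : ‖x + r • v + u (x + r • v) • n - x‖ ≤ s + s / 2 := by
        rw [add_assoc, add_sub_cancel_left]
        refine (norm_add_le _ _).trans ?_
        rw [norm_smul, norm_smul, hv, hn, Real.norm_eq_abs, Real.norm_eq_abs]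
        linarith
      have a4 := hη _ ((hS (x + r • v + u (x + r • v) • n) (by linarith)).2 (by
        rw [hu, add_assoc, add_sub_cancel_left, inner_add_left, real_inner_smul_left,
          real_inner_smul_left, hvn, hnn]; ring)) (by linarith)
      rwa [add_assoc, add_sub_cancel_left, inner_add_left, real_inner_smul_left,
        real_inner_smul_left] at a4
    have a1 := abs_le.1 (h2 s (abs_of_pos hs))
    have a2 := abs_le.1 (h2 (-s) (by rw [abs_neg, abs_of_pos hs]))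
    have a3 := hT s (by rw [abs_of_pos hs]; linarith)
    have a4 := hT (-s) (by rw [abs_neg, abs_of_pos hs]; linarith)
    rw [abs_neg, neg_sq] at a4
    rw [abs_of_pos hs] at a3 a4
    have a5 : |⟪n, m⟫_ℝ| ≤ 1 := by simpa [hn, hm] using abs_real_inner_le_norm n m
    set q := ⟪n, m⟫_ℝ
    set w := ⟪v, m⟫_ℝ
    have a6 : |(u (x + s • v) - b * s ^ 2 / 2) * q| ≤ s ^ 2 / 32 := by
      rw [abs_mul]; exact (mul_le_of_le_one_right (abs_nonneg _) a5).trans (a3.trans hs3)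
    have a7 : |(u (x + (-s) • v) - b * s ^ 2 / 2) * q| ≤ s ^ 2 / 32 := by
      rw [abs_mul]; exact (mul_le_of_le_one_right (abs_nonneg _) a5).trans (a4.trans hs3)
    rw [abs_le] at a6 a7
    refine ⟨b, ?_, ?_, hT⟩
    · have : |s * w| ≤ s * (s / 16) := by rw [abs_le]; constructor <;> nlinarith
      rw [abs_mul, abs_of_pos hs] at this
      exact le_of_mul_le_mul_left this hs
    · have : |s ^ 2 * (b * q)| ≤ s ^ 2 * (1 / 8) := by rw [abs_le]; constructor <;> nlinarith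
      rw [abs_mul, abs_of_pos (by positivity), abs_mul] at this
      exact le_of_mul_le_mul_left this (by positivity)
  -- decomposition of a vector
  have h3 : ∀ z : E, z = ⟪z, n⟫_ℝ • n ∨ ∃ (v : E) (r : ℝ), ‖v‖ = 1 ∧ ⟪v, n⟫_ℝ = 0 ∧ 0 < r ∧
      z = r • v + ⟪z, n⟫_ℝ • n ∧ r ^ 2 + ⟪z, n⟫_ℝ ^ 2 = ‖z‖ ^ 2 := by
    intro z
    by_cases h0 : z - ⟪z, n⟫_ℝ • n = 0
    · exact Or.inl (sub_eq_zero.1 h0)
    have hr := norm_pos_iff.2 h0
    refine Or.inr ⟨‖z - ⟪z, n⟫_ℝ • n‖⁻¹ • (z - ⟪z, n⟫_ℝ • n), _, ?_, ?_, hr, ?_, ?_⟩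
    · rw [norm_smul, norm_inv, norm_norm, inv_mul_cancel₀ hr.ne']
    · rw [real_inner_smul_left, inner_sub_left, real_inner_smul_left, hnn]; ring
    · rw [smul_smul, mul_inv_cancel₀ hr.ne', one_smul, sub_add_cancel]
    · rw [norm_sub_sq_real, inner_smul_right, norm_smul, hn, Real.norm_eq_abs, mul_one, sq_abs]
      ring
  have h4 : 1 / 2 ≤ |⟪n, m⟫_ℝ| := by
    have a1 : 1 / 4 ≤ ⟪m, n⟫_ℝ ^ 2 := by
      rcases h3 m with h | ⟨v, r, hv, hvn, hr, e1, e2⟩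
      · have := congrArg (fun z => ‖z‖ ^ 2) h
        simp only [norm_smul, hn, hm, Real.norm_eq_abs, mul_one, sq_abs] at this
        linarith
      · obtain ⟨-, a, -⟩ := h1 v hv hvn
        have e3 : ⟪v, m⟫_ℝ = r := by
          rw [e1, inner_add_right, inner_smul_right, inner_smul_right, hvn,
            real_inner_self_eq_norm_sq, hv]; ring
        rw [e3, abs_of_pos hr] at a
        rw [hm] at e2
        nlinarith
    rw [real_inner_comm, ← sq_abs] at a1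
    nlinarith [abs_nonneg ⟪n, m⟫_ℝ]
  intro y hy
  set z := y - x with hz
  have hz0 := norm_nonneg z
  by_cases f1 : 4 ≤ ‖z‖
  · have : |⟪z, n⟫_ℝ| ≤ ‖z‖ := by simpa [hn] using abs_real_inner_le_norm z n
    nlinarith
  have a1 := hη y hy (not_le.1 f1)
  rw [← hz] at a1
  by_cases f2 : s ≤ ‖z‖
  · have a2 : |⟪z, n⟫_ℝ| * |⟪n, m⟫_ℝ| ≤ s ^ 2 / 64 + ‖z‖ * (s / 16) := by
      rw [← abs_mul]
      rcases h3 z with h | ⟨v, r, hv, hvn, hr, e1, e2⟩
      · rw [h, real_inner_smul_left] at a1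
        exact a1.trans (le_add_of_nonneg_right (by positivity))
      · obtain ⟨-, a, -⟩ := h1 v hv hvn
        have e3 : ⟪z, n⟫_ℝ * ⟪n, m⟫_ℝ = ⟪z, m⟫_ℝ - r * ⟪v, m⟫_ℝ := by
          conv_rhs => rw [e1, inner_add_left, real_inner_smul_left, real_inner_smul_left]
          ring
        have e4 : r ≤ ‖z‖ := le_of_sq_le_sq (by linarith [sq_nonneg ⟪z, n⟫_ℝ]) hz0
        rw [e3]
        refine (abs_sub _ _).trans (add_le_add a1 ?_)
        rw [abs_mul, abs_of_pos hr]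
        gcongr
    nlinarith [abs_nonneg ⟪z, n⟫_ℝ]
  have a2 := (hS y (by rw [← hz]; linarith)).1 hy
  rw [← hz] at a2
  have e0 : y = x + z := by rw [hz]; abel
  rcases h3 z with h | ⟨v, r, hv, hvn, hr, e1, e2⟩
  · rw [a2, e0, h, hu, hx, abs_zero, mul_zero]
    positivity
  · obtain ⟨b, -, a3, a4⟩ := h1 v hv hvn
    have e4 : r ≤ ‖z‖ := le_of_sq_le_sq (by linarith [sq_nonneg ⟪z, n⟫_ℝ]) hz0
    have a5 := a4 r (by rw [abs_of_pos hr]; linarith)
    rw [abs_of_pos hr] at a5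
    have e5 : u y = u (x + r • v) := by rw [e0, e1, ← add_assoc, hu]
    have a6 : |b| ≤ 1 / 4 := by linarith [mul_le_mul_of_nonneg_left h4 (abs_nonneg b)]
    have a8 := num1 a5 a6
      ((mul_le_mul_of_nonneg_left (e4.trans (not_le.1 f2).le) (by linarith)).trans hsK)
    have a9 := sq_nonneg ⟪z, n⟫_ℝ
    rw [← e5, ← a2] at a8
    linarith

/-- the top time: a sheet of bounded geometry inside a thin slab -/
theorem top (hS : SheetS) : ∃ η, 0 < η ∧ ∀ (F : Mv) (X : ST) (m : E), F.IsMCF → X ∈ F.M →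
    F.Proper (PC X 1) → (∀ p ∈ F.M ∩ PC X 1, F.Reach p 1) → ‖m‖ = 1 →
    (∀ y ∈ F.sl X.2, ‖y - X.1‖ < 4 → |⟪y - X.1, m⟫_ℝ| ≤ η) → F.Reach X 2 := by
  obtain ⟨c, C, hc, hS⟩ := hS
  set K : ℝ := 1 + |C 2| + |C 3| with hK
  have hK1 : 1 ≤ K := by linarith [abs_nonneg (C 2), abs_nonneg (C 3)]
  set s : ℝ := min (c / 4) (1 / (32 * K)) with hs
  have hs0 : 0 < s := lt_min (by positivity) (by positivity)
  refine ⟨s ^ 2 / 64, by positivity, fun F X m hF hX hP hR hm hη => ?_⟩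
  obtain ⟨W, u, hW, hL, hinv, -, hj⟩ := hS F X hF hX hP hR
  have hn := Tr.n_unit hF.1 hX
  have hPC : ∀ y, ‖y - X.1‖ < c → ((y, X.2) : ST) ∈ PC X c := fun y hy =>
    ⟨mem_ball_iff_norm.2 hy, sub_lt_self _ (by positivity), le_rfl⟩
  have hXW : X ∈ W := hW (hPC X.1 (by simpa using hc))
  have hu : ∀ p ∈ W, ContDiffAt ℝ ∞ u p := fun p hp => by
    have h1 : ContDiffAt ℝ ∞ (fun p : ST => ⟪p.1 - X.1, F.n X⟫_ℝ) p :=
      (contDiffAt_fst.sub contDiffAt_const).inner ℝ contDiffAt_const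
    simpa using h1.sub (Tr.loc_at hL hp)
  have hu0 : u X = 0 := by simpa using (hL.mem X hXW).1 hX
  rw [reach_iff hn zero_le_two, show (2 : ℝ) * 2 = 4 by norm_num]
  refine slab (u := fun y => u (y, X.2)) (c := c) hn hm hK1 hs0 (by linarith [min_le_left (c / 4) (1 / (32 * K))])
    ((mul_le_mul_of_nonneg_left (min_le_right _ _) (by linarith)).trans (le_of_eq (by field_simp)))
    (fun y hy => (hL.mem _ (hW (hPC y hy))).trans sub_eq_zero) (fun y r => hinv (y, X.2) r) hu0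
    (fun v hv hvn => ?_) hη
  set w : ST := (v, 0) with hw
  have hw1 : ‖w‖ = 1 := by simp [hw, hv]
  have e : ∀ r : ℝ, X + r • w = (X.1 + r • v, X.2) := fun r => by ext <;> simp [hw]
  have hm : ∀ r : ℝ, |r| < c → X + r • w ∈ PC X c := fun r hr => by
    rw [e]; exact hPC _ (by simpa [norm_smul, hv] using hr)
  have hb : ∀ (k : ℕ) (r : ℝ), |r| < c →
      |iteratedFDeriv ℝ k u (X + r • w) fun _ => w| ≤ |C k| := fun k r hr => by
    have := (iteratedFDeriv ℝ k u (X + r • w)).le_opNorm fun _ => w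
    simp only [hw1, Finset.prod_const_one, mul_one, Real.norm_eq_abs] at this
    exact this.trans ((hj k _ (hm r hr)).trans (le_abs_self _))
  have hd := fun (k : ℕ) (r : ℝ) (hr : |r| < c) => line_deriv (hu _ (hW (hm r hr))) k
  have h0 : |(0 : ℝ)| < c := by simpa using hc
  refine ⟨_, (hb 2 0 h0).trans (by linarith [abs_nonneg (C 3)]), fun r hr => ?_⟩
  have := taylor (K := K) (hd 0) (hd 1) (hd 2)
    (fun r hr => (hb 3 r hr).trans (by linarith [abs_nonneg (C 2)])) (by simpa using hu0) ?_ hr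
  · simpa only [iteratedFDeriv_zero_apply, e] using this
  have h1 : HasFDerivAt (fun p : ST => ⟪p.1 - X.1, F.n X⟫_ℝ)
      ((innerSL ℝ (F.n X)).comp (ContinuousLinearMap.fst ℝ E ℝ)) X := by
    simp only [real_inner_comm (F.n X)]
    exact (innerSL ℝ (F.n X)).hasFDerivAt.comp X (hasFDerivAt_fst.sub_const X.1)
  have h2 := (h1.fun_sub ((hu X hXW).differentiableAt (by simp)).hasFDerivAt).fderiv
  have h3 := MP.loc_fd hL hXW hX w
  rw [h2] at h3
  simpa [hw, real_inner_comm, hvn] using h3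

end Crest.Agent.N250.Wh

end
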